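import Vale.Agent.P167.BVP.Bump

/-!
# P167, block BVP: the energy of small bumps near flat boundary points
-/

open Set Metric Filter Topology InnerProductSpace Complex MeasureTheory
open scoped ComplexConjugate ContDiff Convolution

namespace Vale.Agent.P167.BVP

theorem norm_smul_lt {η R ρ : ℝ} (hη : 0 < η) (hR : η * R ≤ ρ) {ζ : ℂ} (h : ‖ζ‖ < R) :
    (η : ℂ) * ζ ∈ ball (0 : ℂ) ρ := by
  rw [mem_ball_zero_iff, norm_mul, norm_real, Real.norm_eq_abs, abs_of_pos hη]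
  exact (mul_lt_mul_of_pos_left h hη).trans_le hR

theorem int_add3 {f g h : ℂ → ℝ} (hf : Integrable f) (hg : Integrable g) (hh : Integrable h) :
    ∫ z, (f z + g z + h z) = (∫ z, f z) + (∫ z, g z) + ∫ z, h z := by
  have h1 : Integrable fun z => f z + g z := hf.add hg
  rw [integral_add h1 hh, integral_add hf hg]

/-- **Interaction of bumps at two different boundary points.** -/
theorem en_distinct {D : Set ℂ} {g Ha Hb : ℂ → ℂ} {xa xb : ℝ} {qa qb νa νb : ℂ} {ra rb : ℝ}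
    (hLa : LocalH D g Ha xa qa νa ra) (hLb : LocalH D g Hb xb qb νb rb) (hab : xa ≠ xb)
    {θ θ' : ℂ → ℝ} (hθ : Shape θ) (hθ' : Shape θ') :
    ∀ ε > 0, ∃ δ > 0, ∀ η η' : ℝ, 0 < η → η < δ → 0 < η' → η' < δ →
      |en g (bump qa νa η θ) (bump qb νb η' θ') + 1 / Real.pi * Real.log (|xa - xb|)| ≤ ε := by
  intro ε hε
  obtain ⟨R, hR0, hR⟩ := exists_radius hθ.supp
  obtain ⟨R', hR0', hR'⟩ := exists_radius hθ'.supp
  set M : ℝ := (∫ ζ, |θ ζ|) * ∫ ξ, |θ' ξ| with hM
  have hM0 : 0 ≤ M := mul_nonneg (integral_nonneg fun _ => abs_nonneg _)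
    (integral_nonneg fun _ => abs_nonneg _)
  set c : ℝ := 2 * Real.log |xa - xb| with hc
  set k : ℂ × ℂ → ℝ := fun p => nker (Ha p.1) (Hb p.2) with hk
  have hxx : (xa : ℂ) - xb ≠ 0 := by
    rw [sub_ne_zero]; exact fun h => hab (Complex.ofReal_injective h)
  have hHa : ContinuousAt Ha 0 := (hLa.diff.differentiableAt
    (isOpen_ball.mem_nhds (mem_ball_self hLa.pos))).continuousAt
  have hHb : ContinuousAt Hb 0 := (hLb.diff.differentiableAt
    (isOpen_ball.mem_nhds (mem_ball_self hLb.pos))).continuousAt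
  have a1 : ContinuousAt (fun p : ℂ × ℂ => Ha p.1) (0, 0) :=
    ContinuousAt.comp (f := Prod.fst) (x := ((0 : ℂ), (0 : ℂ))) hHa continuous_fst.continuousAt
  have a2 : ContinuousAt (fun p : ℂ × ℂ => Hb p.2) (0, 0) :=
    ContinuousAt.comp (f := Prod.snd) (x := ((0 : ℂ), (0 : ℂ))) hHb continuous_snd.continuousAt
  have a3 : ContinuousAt (fun p : ℂ × ℂ => Ha p.1 - Hb p.2) (0, 0) := a1.sub a2
  have a4 : ContinuousAt (fun p : ℂ × ℂ => Ha p.1 - conj (Hb p.2)) (0, 0) :=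
    a1.sub (Complex.continuous_conj.continuousAt.comp a2)
  have b3 : Ha 0 - Hb 0 ≠ 0 := by rw [hLa.zero, hLb.zero]; exact hxx
  have b4 : Ha 0 - conj (Hb 0) ≠ 0 := by rw [hLa.zero, hLb.zero, conj_ofReal]; exact hxx
  have hkc : ContinuousAt k (0, 0) :=
    (a3.norm.log (norm_ne_zero_iff.2 b3)).add (a4.norm.log (norm_ne_zero_iff.2 b4))
  have hk0 : k (0, 0) = c := by
    simp only [hk, nker, hLa.zero, hLb.zero, conj_ofReal, hc]
    rw [← ofReal_sub, norm_real, Real.norm_eq_abs]; ring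
  set ε' : ℝ := 2 * Real.pi * ε / (M + 1) with hε'
  have hε'0 : 0 < ε' := by have := Real.pi_pos; positivity
  have hev : ∀ᶠ p : ℂ × ℂ in 𝓝 (0, 0), |k p - c| ≤ ε' ∧ Ha p.1 - Hb p.2 ≠ 0 ∧
      Ha p.1 - conj (Hb p.2) ≠ 0 := by
    have c1 : ∀ᶠ p : ℂ × ℂ in 𝓝 (0, 0), |k p - c| < ε' := by
      have := Metric.continuousAt_iff'.1 hkc ε' hε'0
      rw [hk0] at this
      simpa [Real.dist_eq] using this
    filter_upwards [c1, a3.eventually_ne b3, a4.eventually_ne b4] with p p1 p2 p3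
    exact ⟨p1.le, p2, p3⟩
  obtain ⟨ρ, hρ, hρ'⟩ := Metric.eventually_nhds_iff_ball.1 hev
  set r : ℝ := min ρ (min ra rb) with hr
  have hr0 : 0 < r := lt_min hρ (lt_min hLa.pos hLb.pos)
  set δ : ℝ := min (r / R) (r / R') with hδ
  refine ⟨δ, lt_min (by positivity) (by positivity), fun η η' hη hηδ hη' hηδ' => ?_⟩
  have hηR : η * R ≤ r := by
    have := (hηδ.le).trans (min_le_left _ _)
    rwa [le_div_iff₀ hR0] at this
  have hηR' : η' * R' ≤ r := by
    have := (hηδ'.le).trans (min_le_right _ _)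
    rwa [le_div_iff₀ hR0'] at this
  have hra : r ≤ ra := (min_le_right _ _).trans (min_le_left _ _)
  have hrb : r ≤ rb := (min_le_right _ _).trans (min_le_right _ _)
  have hrρ : r ≤ ρ := min_le_left _ _
  have hpt : ∀ a ∈ ball (0 : ℂ) r, ∀ b ∈ ball (0 : ℂ) r, (a, b) ∈ ball ((0 : ℂ), (0 : ℂ)) ρ := by
    intro a ha b hb
    rw [← ball_prod_same]
    exact ⟨ball_subset_ball hrρ ha, ball_subset_ball hrρ hb⟩
  -- open sets for the variables
  set U : Set ℂ := {ζ | (η : ℂ) * ζ ∈ ball (0 : ℂ) r} with hU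
  set V : Set ℂ := {ξ | (η' : ℂ) * ξ ∈ ball (0 : ℂ) r} with hV
  have hUo : IsOpen U := isOpen_ball.preimage (by fun_prop)
  have hVo : IsOpen V := isOpen_ball.preimage (by fun_prop)
  have hθU : tsupport θ ⊆ U := fun ζ hζ => norm_smul_lt hη hηR (hR ζ hζ)
  have hθV : tsupport θ' ⊆ V := fun ζ hζ => norm_smul_lt hη' hηR' (hR' ζ hζ)
  set K : ℂ → ℂ → ℝ := fun ζ ξ => nker (Ha (η * ζ)) (Hb (η' * ξ)) with hK
  have hKc : ContinuousOn (Function.uncurry K) (U ×ˢ V) := by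
    have d1 : ContinuousOn (fun p : ℂ × ℂ => Ha (η * p.1)) (U ×ˢ V) :=
      hLa.diff.continuousOn.comp (by fun_prop) fun p hp => ball_subset_ball hra hp.1
    have d2 : ContinuousOn (fun p : ℂ × ℂ => Hb (η' * p.2)) (U ×ˢ V) :=
      hLb.diff.continuousOn.comp (by fun_prop) fun p hp => ball_subset_ball hrb hp.2
    refine ContinuousOn.add ?_ ?_
    · exact (d1.sub d2).norm.log fun p hp => norm_ne_zero_iff.2
        (hρ' _ (hpt _ hp.1 _ hp.2)).2.1
    · exact (d1.sub (Complex.continuous_conj.comp_continuousOn d2)).norm.log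
        fun p hp => norm_ne_zero_iff.2 (hρ' _ (hpt _ hp.1 _ hp.2)).2.2
  obtain ⟨hi, ho⟩ := dbl_int hθ hθ' hUo hVo hθU hθV hKc
  have hmain := dbl_close hθ hθ' (K := K) (c := c) (ε := ε') hi ho (fun ζ hζ ξ hξ =>
    (hρ' _ (hpt _ (hθU hζ) _ (hθV hξ))).1)
  -- identification of the energy
  have hen : en g (bump qa νa η θ) (bump qb νb η' θ') =
      -(1 / (2 * Real.pi)) * ∫ ζ, θ ζ * ∫ ξ, θ' ξ * K ζ ξ := by
    rw [en_bump hLa.norm hLb.norm hη hη']
    congr 1
    refine integral_congr_ae (Eventually.of_forall fun ζ => ?_)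
    simp only
    by_cases hζ : ζ ∈ tsupport θ
    · congr 1
      refine integral_congr_ae (Eventually.of_forall fun ξ => ?_)
      simp only
      by_cases hξ : ξ ∈ tsupport θ'
      · have e1 := (hLa.mem _ (ball_subset_ball hra (hθU hζ)) (by
          have : 0 < ζ.im := hθ.up hζ
          simpa using mul_pos hη this)).2
        have e2 := (hLb.mem _ (ball_subset_ball hrb (hθV hξ)) (by
          have : 0 < ξ.im := hθ'.up hξ
          simpa using mul_pos hη' this)).2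
        rw [e1, e2]
      · rw [image_eq_zero_of_notMem_tsupport hξ, zero_mul, zero_mul]
    · rw [image_eq_zero_of_notMem_tsupport hζ, zero_mul, zero_mul]
  have e3 : en g (bump qa νa η θ) (bump qb νb η' θ') + 1 / Real.pi * Real.log |xa - xb| =
      -(1 / (2 * Real.pi)) * ((∫ ζ, θ ζ * ∫ ξ, θ' ξ * K ζ ξ) - c) := by
    rw [hen, hc]
    have := Real.pi_ne_zero
    field_simp
    ring
  rw [e3, abs_mul, abs_neg, abs_of_pos (by positivity : (0:ℝ) < 1 / (2 * Real.pi))]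
  have hpi := Real.pi_pos
  calc 1 / (2 * Real.pi) * |(∫ ζ, θ ζ * ∫ ξ, θ' ξ * K ζ ξ) - c| ≤ 1 / (2 * Real.pi) * (ε' * M) :=
        mul_le_mul_of_nonneg_left hmain (by positivity)
    _ = ε * (M / (M + 1)) := by rw [hε']; field_simp
    _ ≤ ε * 1 := mul_le_mul_of_nonneg_left (by rw [div_le_one (by positivity)]; linarith) hε.le
    _ = ε := mul_one ε

/-- The half-plane with the identity. -/
theorem conf_id : Conf {z : ℂ | 0 < z.im} id :=
  ⟨isOpen_lt continuous_const Complex.continuous_im, differentiable_id.differentiableOn,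
    injOn_id _, fun _ hz => hz⟩

/-- Integrability of the inner kernel. -/
theorem integrable_nker {D : Set ℂ} {g : ℂ → ℂ} (hg : Conf D g) {f : ℂ → ℝ} (hf : Test D f)
    {z : ℂ} (hz : z ∈ D) : Integrable fun w => f w * nker (g z) (g w) := by
  have i1 := integrable_log hf.1.continuous hf.2.1 z
  have i2 : Integrable fun w => f w * kreg g z w := by
    refine Continuous.integrable_of_hasCompactSupport ?_ hf.2.1.mul_right
    refine cont_ext hg.isOpen (isClosed_tsupport f) hf.2.2 ?_ ?_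
    · refine hf.1.continuous.continuousOn.mul ?_
      exact (kreg_cont hg).comp (f := fun w => (z, w)) (by fun_prop) fun w hw => ⟨hz, hw⟩
    · intro w hw
      rw [image_eq_zero_of_notMem_tsupport hw, zero_mul]
  refine (i1.add i2).congr ?_
  have hne : ∀ᵐ w : ℂ, w ≠ z := by
    rw [ae_iff]; simp
  filter_upwards [hne] with w hw
  by_cases hwD : w ∈ tsupport f
  · have hwD' := hf.2.2 hwD
    have e : g z - g w = (z - w) * dslope g w z := by
      have := sub_smul_dslope g w z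
      rw [smul_eq_mul] at this
      exact this.symm
    have hne1 : z - w ≠ 0 := sub_ne_zero.2 (Ne.symm hw)
    simp only [Pi.add_apply]
    unfold nker kreg
    rw [e, norm_mul, Real.log_mul (norm_ne_zero_iff.2 hne1)
      (norm_ne_zero_iff.2 (dslope_ne_zero hg hz hwD'))]
    ring
  · simp only [Pi.add_apply]
    rw [image_eq_zero_of_notMem_tsupport hwD]; ring

theorem npot_cont {D : Set ℂ} {g : ℂ → ℂ} (hg : Conf D g) {f : ℂ → ℝ} (hf : Test D f) :
    ContinuousOn (npot g f) D := by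
  have h1 : ContinuousOn (fun z => -(1 / (2 * Real.pi)) * (lpot f z + ∫ w, f w * kreg g z w)) D := by
    refine continuousOn_const.mul (ContinuousOn.add ?_ ?_)
    · exact (lpot_contDiff hf.1 hf.2.1).continuous.continuousOn
    · exact cont_param (μ := (volume : Measure ℂ)) hg.isOpen hf.1.continuous hf.2.1 hf.2.2
        (kreg_cont hg)
  exact h1.congr fun z hz => npot_eq hg hf.1.continuous hf.2.1 hf.2.2 hz

theorem integrable_en {D : Set ℂ} {g : ℂ → ℂ} (hg : Conf D g) {f h : ℂ → ℝ} (hf : Test D f)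
    (hh : Test D h) : Integrable fun z => f z * npot g h z := by
  refine Continuous.integrable_of_hasCompactSupport ?_ hf.2.1.mul_right
  refine cont_ext hg.isOpen (isClosed_tsupport f) hf.2.2
    (hf.1.continuous.continuousOn.mul (npot_cont hg hh)) ?_
  intro w hw
  rw [image_eq_zero_of_notMem_tsupport hw, zero_mul]

/-- **Self-energy of a bump.** -/
theorem en_self {D : Set ℂ} {g H : ℂ → ℂ} {x : ℝ} {q ν : ℂ} {r₀ : ℝ}
    (hL : LocalH D g H x q ν r₀) {θ : ℂ → ℝ} (hθ : Shape θ) :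
    ∀ ε > 0, ∃ δ > 0, ∀ η : ℝ, 0 < η → η < δ →
      |en g (bump q ν η θ) (bump q ν η θ) +
        1 / Real.pi * (Real.log η + Real.log ‖deriv H 0‖) - en id θ θ| ≤ ε := by
  intro ε hε
  obtain ⟨R, hR0, hR⟩ := exists_radius hθ.supp
  set M : ℝ := (∫ ζ, |θ ζ|) * ∫ ξ, |θ ξ| with hM
  have hM0 : 0 ≤ M := mul_nonneg (integral_nonneg fun _ => abs_nonneg _)
    (integral_nonneg fun _ => abs_nonneg _)
  set c : ℝ := 2 * Real.log ‖deriv H 0‖ with hc
  have hds := dslope_cont isOpen_ball hL.diff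
  set k : ℂ × ℂ → ℝ := fun p => Real.log ‖dslope H p.2 p.1‖ + Real.log ‖dslope H (conj p.2) p.1‖
    with hk
  have h00 : ((0 : ℂ), (0 : ℂ)) ∈ ball (0 : ℂ) r₀ ×ˢ ball (0 : ℂ) r₀ :=
    ⟨mem_ball_self hL.pos, mem_ball_self hL.pos⟩
  have hcb : ∀ b ∈ ball (0 : ℂ) r₀, conj b ∈ ball (0 : ℂ) r₀ := by
    intro b hb
    rw [mem_ball_zero_iff] at hb ⊢
    rwa [norm_conj]
  have hne : ∀ a ∈ ball (0 : ℂ) r₀, ∀ b ∈ ball (0 : ℂ) r₀, dslope H b a ≠ 0 := by
    intro a ha b hb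
    by_cases h : a = b
    · subst h
      rw [dslope_same]
      exact P153.R2.L1.injOn_deriv_ne_zero isOpen_ball hL.diff hL.inj ha
    · rw [dslope_of_ne _ h, slope_def_field]
      refine div_ne_zero ?_ (sub_ne_zero.2 h)
      rw [sub_ne_zero]
      exact fun h2 => h (hL.inj ha hb h2)
  have hkc : ContinuousOn k (ball (0 : ℂ) r₀ ×ˢ ball (0 : ℂ) r₀) := by
    have d2 : ContinuousOn (fun p : ℂ × ℂ => dslope H (conj p.2) p.1)
        (ball (0 : ℂ) r₀ ×ˢ ball (0 : ℂ) r₀) :=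
      hds.comp (f := fun p : ℂ × ℂ => (p.1, conj p.2))
        (by fun_prop) fun p hp => ⟨hp.1, hcb _ hp.2⟩
    refine ContinuousOn.add ?_ ?_
    · exact hds.norm.log fun p hp => norm_ne_zero_iff.2 (hne _ hp.1 _ hp.2)
    · exact d2.norm.log fun p hp => norm_ne_zero_iff.2 (hne _ hp.1 _ (hcb _ hp.2))
  have hk0 : k (0, 0) = c := by
    simp only [hk, map_zero, dslope_same, hc]; ring
  set ε' : ℝ := 2 * Real.pi * ε / (M + 1) with hε'
  have hε'0 : 0 < ε' := by have := Real.pi_pos; positivity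
  have hev : ∀ᶠ p : ℂ × ℂ in 𝓝 (0, 0), |k p - c| < ε' := by
    have h1 : ContinuousAt k (0, 0) := hkc.continuousAt ((isOpen_ball.prod isOpen_ball).mem_nhds h00)
    have := Metric.continuousAt_iff'.1 h1 ε' hε'0
    rw [hk0] at this
    simpa [Real.dist_eq] using this
  obtain ⟨ρ, hρ, hρ'⟩ := Metric.eventually_nhds_iff_ball.1 hev
  set r : ℝ := min ρ r₀ with hr
  have hr0 : 0 < r := lt_min hρ hL.pos
  have hrr : r ≤ r₀ := min_le_right _ _
  have hrρ : r ≤ ρ := min_le_left _ _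
  refine ⟨r / R, by positivity, fun η hη hηδ => ?_⟩
  have hηR : η * R ≤ r := by
    have := hηδ.le
    rwa [le_div_iff₀ hR0] at this
  have hpt : ∀ a ∈ ball (0 : ℂ) r, ∀ b ∈ ball (0 : ℂ) r, (a, b) ∈ ball ((0 : ℂ), (0 : ℂ)) ρ := by
    intro a ha b hb
    rw [← ball_prod_same]
    exact ⟨ball_subset_ball hrρ ha, ball_subset_ball hrρ hb⟩
  set U : Set ℂ := {ζ | (η : ℂ) * ζ ∈ ball (0 : ℂ) r} with hU
  have hUo : IsOpen U := isOpen_ball.preimage (by fun_prop)
  have hθU : tsupport θ ⊆ U := fun ζ hζ => norm_smul_lt hη hηR (hR ζ hζ)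
  set K : ℂ → ℂ → ℝ := fun ζ ξ => k (η * ζ, η * ξ) with hK
  have hKc : ContinuousOn (Function.uncurry K) (U ×ˢ U) := by
    refine hkc.comp (f := fun p : ℂ × ℂ => ((η : ℂ) * p.1, (η : ℂ) * p.2)) (by fun_prop) ?_
    intro p hp
    exact ⟨ball_subset_ball hrr hp.1, ball_subset_ball hrr hp.2⟩
  obtain ⟨hi, ho⟩ := dbl_int hθ hθ hUo hUo hθU hθU hKc
  have hmain := dbl_close hθ hθ (K := K) (c := c) (ε := ε') hi ho (fun ζ hζ ξ hξ =>
    (hρ' _ (hpt _ (hθU hζ) _ (hθU hξ))).le)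
  have hT : Test {z : ℂ | 0 < z.im} θ := ⟨hθ.smooth, hθ.supp, hθ.up⟩
  have i1 : Integrable θ := hθ.smooth.continuous.integrable_of_hasCompactSupport hθ.supp
  -- identification of the energy
  have hin : ∀ ζ ∈ tsupport θ, ∫ ξ, θ ξ * nker (g (q - I * ν * (η * ζ))) (g (q - I * ν * (η * ξ))) =
      2 * Real.log η + (∫ ξ, θ ξ * nker ζ ξ) + ∫ ξ, θ ξ * K ζ ξ := by
    intro ζ hζ
    have j1 : Integrable fun ξ => θ ξ * nker ζ ξ := integrable_nker conf_id hT (hθ.up hζ)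
    have j2 := hi ζ hζ
    have e0 : 2 * Real.log η + (∫ ξ, θ ξ * nker ζ ξ) + ∫ ξ, θ ξ * K ζ ξ =
        ∫ ξ, (θ ξ * (2 * Real.log η) + θ ξ * nker ζ ξ + θ ξ * K ζ ξ) := by
      rw [int_add3 (i1.mul_const _) j1 j2, integral_mul_const, hθ.mass, one_mul]
    rw [e0]
    have hne' : ∀ᵐ ξ : ℂ, ξ ≠ ζ := by
      rw [ae_iff]; simp
    refine integral_congr_ae ?_
    filter_upwards [hne'] with ξ hξζ
    by_cases hξ : ξ ∈ tsupport θ
    · have p1 : 0 < ζ.im := hθ.up hζ
      have p2 : 0 < ξ.im := hθ.up hξ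
      have m1 : (η : ℂ) * ζ ∈ ball (0 : ℂ) r₀ := ball_subset_ball hrr (hθU hζ)
      have m2 : (η : ℂ) * ξ ∈ ball (0 : ℂ) r₀ := ball_subset_ball hrr (hθU hξ)
      have q1 := (hL.mem _ m1 (by simpa using mul_pos hη p1)).2
      have q2 := (hL.mem _ m2 (by simpa using mul_pos hη p2)).2
      rw [q1, q2]
      have s1 : H (η * ζ) - H (η * ξ) = (η * (ζ - ξ)) * dslope H (η * ξ) (η * ζ) := by
        have := sub_smul_dslope H (η * ξ) (η * ζ)
        rw [smul_eq_mul] at this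
        rw [← this]; ring
      have s2 : H (η * ζ) - conj (H (η * ξ)) =
          (η * (ζ - conj ξ)) * dslope H (conj (η * ξ)) (η * ζ) := by
        rw [← hL.conj_eq _ m2]
        have := sub_smul_dslope H (conj (η * ξ)) (η * ζ)
        rw [smul_eq_mul] at this
        rw [← this, map_mul, conj_ofReal]; ring
      have hη0 : ‖(η : ℂ)‖ = η := by rw [norm_real, Real.norm_eq_abs, abs_of_pos hη]
      have t1 : ‖ζ - ξ‖ ≠ 0 := norm_ne_zero_iff.2 (sub_ne_zero.2 (Ne.symm hξζ))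
      have t2 : ‖ζ - conj ξ‖ ≠ 0 := norm_ne_zero_iff.2 (sub_conj_ne p1 p2)
      have t3 : ‖dslope H (η * ξ) (η * ζ)‖ ≠ 0 := norm_ne_zero_iff.2 (hne _ m1 _ m2)
      have t4 : ‖dslope H (conj (η * ξ)) (η * ζ)‖ ≠ 0 :=
        norm_ne_zero_iff.2 (hne _ m1 _ (hcb _ m2))
      have hK' : K ζ ξ = Real.log ‖dslope H (η * ξ) (η * ζ)‖ +
          Real.log ‖dslope H (conj (η * ξ)) (η * ζ)‖ := rfl
      rw [hK']
      unfold nker
      rw [s1, s2, norm_mul, norm_mul, norm_mul, norm_mul, hη0,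
        Real.log_mul (mul_ne_zero hη.ne' t1) t3, Real.log_mul hη.ne' t1,
        Real.log_mul (mul_ne_zero hη.ne' t2) t4, Real.log_mul hη.ne' t2]
      ring
    · rw [image_eq_zero_of_notMem_tsupport hξ]; ring
  have hen : en g (bump q ν η θ) (bump q ν η θ) =
      -(1 / (2 * Real.pi)) * (2 * Real.log η + ∫ ζ, θ ζ * ∫ ξ, θ ξ * K ζ ξ) + en id θ θ := by
    rw [en_bump hL.norm hL.norm hη hη]
    have j3 : Integrable fun ζ => θ ζ * ∫ ξ, θ ξ * nker ζ ξ := by
      have := (integrable_en conf_id hT hT).const_mul (-(2 * Real.pi))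
      refine this.congr (Eventually.of_forall fun ζ => ?_)
      simp only [npot, id]
      have := Real.pi_ne_zero
      field_simp
    have e1 : ∫ ζ, θ ζ * ∫ ξ, θ ξ * nker (g (q - I * ν * (η * ζ))) (g (q - I * ν * (η * ξ))) =
        ∫ ζ, (θ ζ * (2 * Real.log η) + θ ζ * (∫ ξ, θ ξ * nker ζ ξ) + θ ζ * ∫ ξ, θ ξ * K ζ ξ) := by
      refine integral_congr_ae (Eventually.of_forall fun ζ => ?_)
      simp only
      by_cases hζ : ζ ∈ tsupport θ
      · rw [hin ζ hζ]; ring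
      · rw [image_eq_zero_of_notMem_tsupport hζ]; ring
    rw [e1, int_add3 (i1.mul_const _) j3 ho, integral_mul_const, hθ.mass, one_mul]
    have e2 : en id θ θ = -(1 / (2 * Real.pi)) * ∫ ζ, θ ζ * ∫ ξ, θ ξ * nker ζ ξ := by
      unfold en
      rw [← integral_const_mul]
      refine integral_congr_ae (Eventually.of_forall fun ζ => ?_)
      simp only [npot, id]
      ring
    rw [e2]; ring
  have e3 : en g (bump q ν η θ) (bump q ν η θ) +
        1 / Real.pi * (Real.log η + Real.log ‖deriv H 0‖) - en id θ θ =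
      -(1 / (2 * Real.pi)) * ((∫ ζ, θ ζ * ∫ ξ, θ ξ * K ζ ξ) - c) := by
    rw [hen, hc]
    have := Real.pi_ne_zero
    field_simp
    ring
  rw [e3, abs_mul, abs_neg, abs_of_pos (by positivity : (0:ℝ) < 1 / (2 * Real.pi))]
  have hpi := Real.pi_pos
  calc 1 / (2 * Real.pi) * |(∫ ζ, θ ζ * ∫ ξ, θ ξ * K ζ ξ) - c| ≤ 1 / (2 * Real.pi) * (ε' * M) :=
        mul_le_mul_of_nonneg_left hmain (by positivity)
    _ = ε * (M / (M + 1)) := by rw [hε']; field_simp
    _ ≤ ε * 1 := mul_le_mul_of_nonneg_left (by rw [div_le_one (by positivity)]; linarith) hε.le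
    _ = ε := mul_one ε

end Vale.Agent.P167.BVP
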