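import Vale.Agent.P167.BVP.Local

/-!
# P167, block BVP: bumps near flat boundary points and the energy of two bumps
-/

open Set Metric Filter Topology InnerProductSpace Complex MeasureTheory
open scoped ComplexConjugate ContDiff Convolution

namespace Vale.Agent.P167.BVP

/-- Shape of a bump: a smooth density in the open upper half-plane with total mass `1`. -/
structure Shape (θ : ℂ → ℝ) : Prop where
  smooth : ContDiff ℝ ∞ θ
  supp : HasCompactSupport θ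
  up : tsupport θ ⊆ {ζ | 0 < ζ.im}
  mass : ∫ ζ, θ ζ = 1

/-- The bump of shape `θ` and size `η` at the boundary point `q` with inner normal `ν`. -/
noncomputable def bump (q ν : ℂ) (η : ℝ) (θ : ℂ → ℝ) (z : ℂ) : ℝ :=
  (η ^ 2)⁻¹ * θ (I * (z - q) * conj ν / η)

theorem back_aux {q ν : ℂ} (hν : ‖ν‖ = 1) {η : ℝ} (hη : 0 < η) (ζ : ℂ) :
    I * ((q - I * ν * (η * ζ)) - q) * conj ν / η = ζ := by
  have hνν : ν * conj ν = 1 := by
    rw [Complex.mul_conj, Complex.normSq_eq_norm_sq, hν]; norm_num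
  have h1 : I * ((q - I * ν * (η * ζ)) - q) * conj ν = -(I * I) * (ν * conj ν) * (η * ζ) := by ring
  rw [h1, I_mul_I, hνν]
  have : (η : ℂ) ≠ 0 := by exact_mod_cast hη.ne'
  field_simp

theorem forth_aux {q ν : ℂ} (hν : ‖ν‖ = 1) {η : ℝ} (hη : 0 < η) (z : ℂ) :
    q - I * ν * (η * (I * (z - q) * conj ν / η)) = z := by
  have hνν : ν * conj ν = 1 := by
    rw [Complex.mul_conj, Complex.normSq_eq_norm_sq, hν]; norm_num
  have h0 : (η : ℂ) ≠ 0 := by exact_mod_cast hη.ne'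
  have h1 : (η : ℂ) * (I * (z - q) * conj ν / η) = I * (z - q) * conj ν := by field_simp
  have h2 : I * ν * (I * (z - q) * conj ν) = (I * I) * (ν * conj ν) * (z - q) := by ring
  rw [h1, h2, I_mul_I, hνν]
  ring

theorem bump_apply {q ν : ℂ} (hν : ‖ν‖ = 1) {η : ℝ} (hη : 0 < η) (θ : ℂ → ℝ) (ζ : ℂ) :
    bump q ν η θ (q - I * ν * (η * ζ)) = (η ^ 2)⁻¹ * θ ζ := by
  unfold bump
  rw [back_aux hν hη]

/-- Change of variables. -/
theorem integral_subst {q ν : ℂ} (hν : ‖ν‖ = 1) {η : ℝ} (hη : 0 < η) (F : ℂ → ℝ) :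
    ∫ ζ : ℂ, F (q - I * ν * (η * ζ)) = (η ^ 2)⁻¹ * ∫ z, F z := by
  have hc : ‖-(I * ν)‖ = 1 := by rw [norm_neg, norm_mul, norm_I, hν, one_mul]
  set c : Circle := ⟨-(I * ν), by simpa [Submonoid.unitSphere] using hc⟩ with hcdef
  have h1 : ∀ ζ : ℂ, q - I * ν * (η * ζ) = q + η • (rotation c ζ) := by
    intro ζ
    rw [rotation_apply, Complex.real_smul]
    simp only [hcdef]
    ring
  simp_rw [h1]
  have h2 := (rotation c).measurePreserving.integral_comp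
    (rotation c).toHomeomorph.measurableEmbedding (fun ζ : ℂ => F (q + η • ζ))
  have h3 : ∫ ζ : ℂ, F (q + η • (rotation c ζ)) = ∫ ζ : ℂ, F (q + η • ζ) := h2
  rw [h3]
  have h4 := Measure.integral_comp_smul (volume : Measure ℂ) (fun z => F (q + z)) η
  rw [h4, Complex.finrank_real_complex, integral_add_left_eq_self]
  rw [abs_of_pos (by positivity), smul_eq_mul]

theorem integral_bump {q ν : ℂ} (hν : ‖ν‖ = 1) {η : ℝ} (hη : 0 < η) (θ F : ℂ → ℝ) :
    ∫ z, bump q ν η θ z * F z = ∫ ζ, θ ζ * F (q - I * ν * (η * ζ)) := by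
  have h := integral_subst (q := q) hν hη (fun z => bump q ν η θ z * F z)
  simp only [bump_apply hν hη] at h
  have h2 : ∀ ζ, (η ^ 2)⁻¹ * θ ζ * F (q - I * ν * (η * ζ)) =
      (η ^ 2)⁻¹ * (θ ζ * F (q - I * ν * (η * ζ))) := fun ζ => by ring
  simp_rw [h2] at h
  rw [integral_const_mul] at h
  have h3 : (η ^ 2)⁻¹ ≠ 0 := by positivity
  exact (mul_left_cancel₀ h3 h).symm

theorem bump_contDiff {q ν : ℂ} {η : ℝ} {θ : ℂ → ℝ} (h : ContDiff ℝ ∞ θ) :
    ContDiff ℝ ∞ (bump q ν η θ) := by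
  unfold bump
  refine contDiff_const.mul (h.comp ?_)
  fun_prop

theorem bump_tsupport {q ν : ℂ} (hν : ‖ν‖ = 1) {η : ℝ} (hη : 0 < η) {θ : ℂ → ℝ}
    (hc : HasCompactSupport θ) :
    HasCompactSupport (bump q ν η θ) ∧
      tsupport (bump q ν η θ) ⊆ (fun ζ : ℂ => q - I * ν * (η * ζ)) '' tsupport θ := by
  have hcont : Continuous fun ζ : ℂ => q - I * ν * (η * ζ) := by fun_prop
  have hK : IsCompact ((fun ζ : ℂ => q - I * ν * (η * ζ)) '' tsupport θ) :=
    hc.isCompact.image hcont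
  have hsub : ∀ z, z ∉ (fun ζ : ℂ => q - I * ν * (η * ζ)) '' tsupport θ → bump q ν η θ z = 0 := by
    intro z hz
    unfold bump
    have h1 : I * (z - q) * conj ν / η ∉ tsupport θ := fun h =>
      hz ⟨_, h, forth_aux hν hη z⟩
    rw [image_eq_zero_of_notMem_tsupport h1, mul_zero]
  refine ⟨HasCompactSupport.intro hK hsub, closure_minimal ?_ hK.isClosed⟩
  intro z hz
  by_contra h
  exact hz (hsub z h)

theorem exists_radius {θ : ℂ → ℝ} (hc : HasCompactSupport θ) :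
    ∃ R : ℝ, 0 < R ∧ ∀ ζ ∈ tsupport θ, ‖ζ‖ < R := by
  obtain ⟨R, hR⟩ := hc.isCompact.isBounded.subset_closedBall (0 : ℂ)
  refine ⟨|R| + 1, by positivity, fun ζ hζ => ?_⟩
  have := hR hζ
  rw [mem_closedBall_zero_iff] at this
  have h2 := le_abs_self R
  linarith

/-- Bumps near a flat point are test functions of the domain. -/
theorem bump_test {D : Set ℂ} {g H : ℂ → ℂ} {x : ℝ} {q ν : ℂ} {r : ℝ} (hL : LocalH D g H x q ν r)
    {θ : ℂ → ℝ} (hθ : Shape θ) {R η : ℝ} (hR : ∀ ζ ∈ tsupport θ, ‖ζ‖ < R) (hη : 0 < η)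
    (hηR : η * R ≤ r) : Test D (bump q ν η θ) := by
  obtain ⟨h1, h2⟩ := bump_tsupport (q := q) hL.norm hη hθ.supp
  refine ⟨bump_contDiff hθ.smooth, h1, h2.trans ?_⟩
  rintro z ⟨ζ, hζ, rfl⟩
  have h3 := hR ζ hζ
  have h4 : (η : ℂ) * ζ ∈ ball (0 : ℂ) r := by
    rw [mem_ball_zero_iff, norm_mul, norm_real, Real.norm_eq_abs, abs_of_pos hη]
    exact (mul_lt_mul_of_pos_left h3 hη).trans_le hηR
  have h5 : 0 < ((η : ℂ) * ζ).im := by
    have : 0 < ζ.im := hθ.up hζ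
    simpa using mul_pos hη this
  exact (hL.mem _ h4 h5).1

/-- The energy of two charges. -/
noncomputable def en (g : ℂ → ℂ) (f h : ℂ → ℝ) : ℝ := ∫ z, f z * npot g h z

theorem en_bump {g : ℂ → ℂ} {q ν q' ν' : ℂ} (hν : ‖ν‖ = 1) (hν' : ‖ν'‖ = 1) {η η' : ℝ}
    (hη : 0 < η) (hη' : 0 < η') (θ θ' : ℂ → ℝ) :
    en g (bump q ν η θ) (bump q' ν' η' θ') = -(1 / (2 * Real.pi)) *
      ∫ ζ, θ ζ * ∫ ξ, θ' ξ * nker (g (q - I * ν * (η * ζ))) (g (q' - I * ν' * (η' * ξ))) := by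
  unfold en
  rw [integral_bump hν hη, ← integral_const_mul]
  refine integral_congr_ae (Eventually.of_forall fun ζ => ?_)
  simp only [npot]
  rw [integral_bump hν' hη']
  ring

/-- Comparison of double integrals with constants. -/
theorem dbl_close {θ θ' : ℂ → ℝ} (hθ : Shape θ) (hθ' : Shape θ') {K : ℂ → ℂ → ℝ} {c ε : ℝ}
    (hi : ∀ ζ ∈ tsupport θ, Integrable fun ξ => θ' ξ * K ζ ξ)
    (ho : Integrable fun ζ => θ ζ * ∫ ξ, θ' ξ * K ζ ξ)
    (h : ∀ ζ ∈ tsupport θ, ∀ ξ ∈ tsupport θ', |K ζ ξ - c| ≤ ε) :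
    |(∫ ζ, θ ζ * ∫ ξ, θ' ξ * K ζ ξ) - c| ≤ ε * ((∫ ζ, |θ ζ|) * ∫ ξ, |θ' ξ|) := by
  have i1 : Integrable θ := hθ.smooth.continuous.integrable_of_hasCompactSupport hθ.supp
  have i2 : Integrable θ' := hθ'.smooth.continuous.integrable_of_hasCompactSupport hθ'.supp
  have hin : ∀ ζ ∈ tsupport θ, |(∫ ξ, θ' ξ * K ζ ξ) - c| ≤ ε * ∫ ξ, |θ' ξ| := by
    intro ζ hζ
    have e : (∫ ξ, θ' ξ * K ζ ξ) - c = ∫ ξ, θ' ξ * (K ζ ξ - c) := by
      have : (fun ξ => θ' ξ * (K ζ ξ - c)) = fun ξ => θ' ξ * K ζ ξ - θ' ξ * c := by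
        funext ξ; ring
      rw [this, integral_sub (hi ζ hζ) (i2.mul_const _), integral_mul_const, hθ'.mass, one_mul]
    rw [e, ← Real.norm_eq_abs, ← integral_const_mul]
    refine (norm_integral_le_integral_norm _).trans ?_
    refine integral_mono_of_nonneg (Eventually.of_forall fun ξ => norm_nonneg _)
      (i2.abs.const_mul _) (Eventually.of_forall fun ξ => ?_)
    simp only [norm_mul, Real.norm_eq_abs]
    by_cases hξ : ξ ∈ tsupport θ'
    · rw [mul_comm ε]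
      exact mul_le_mul_of_nonneg_left (h ζ hζ ξ hξ) (abs_nonneg _)
    · rw [image_eq_zero_of_notMem_tsupport hξ]; simp
  have e : (∫ ζ, θ ζ * ∫ ξ, θ' ξ * K ζ ξ) - c = ∫ ζ, θ ζ * ((∫ ξ, θ' ξ * K ζ ξ) - c) := by
    have : (fun ζ => θ ζ * ((∫ ξ, θ' ξ * K ζ ξ) - c)) =
        fun ζ => θ ζ * (∫ ξ, θ' ξ * K ζ ξ) - θ ζ * c := by
      funext ζ; ring
    rw [this, integral_sub ho (i1.mul_const _), integral_mul_const, hθ.mass, one_mul]
  rw [e, ← Real.norm_eq_abs]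
  refine (norm_integral_le_integral_norm _).trans ?_
  have e2 : ε * ((∫ ζ, |θ ζ|) * ∫ ξ, |θ' ξ|) = ∫ ζ, |θ ζ| * (ε * ∫ ξ, |θ' ξ|) := by
    rw [integral_mul_const]; ring
  rw [e2]
  refine integral_mono_of_nonneg (Eventually.of_forall fun ξ => norm_nonneg _)
    (i1.abs.mul_const _) (Eventually.of_forall fun ζ => ?_)
  simp only [norm_mul, Real.norm_eq_abs]
  by_cases hζ : ζ ∈ tsupport θ
  · exact mul_le_mul_of_nonneg_left (hin ζ hζ) (abs_nonneg _)
  · rw [image_eq_zero_of_notMem_tsupport hζ]; simp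

/-- Integrability for kernels which are continuous near the product of the supports. -/
theorem dbl_int {θ θ' : ℂ → ℝ} (hθ : Shape θ) (hθ' : Shape θ') {K : ℂ → ℂ → ℝ} {U V : Set ℂ}
    (hU : IsOpen U) (hV : IsOpen V) (hθU : tsupport θ ⊆ U) (hθV : tsupport θ' ⊆ V)
    (hK : ContinuousOn (Function.uncurry K) (U ×ˢ V)) :
    (∀ ζ ∈ tsupport θ, Integrable fun ξ => θ' ξ * K ζ ξ) ∧
      Integrable fun ζ => θ ζ * ∫ ξ, θ' ξ * K ζ ξ := by
  constructor
  · intro ζ hζ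
    refine Continuous.integrable_of_hasCompactSupport ?_ hθ'.supp.mul_right
    refine cont_ext hV (isClosed_tsupport θ') hθV ?_ ?_
    · exact hθ'.smooth.continuous.continuousOn.mul
        (hK.comp (f := fun t => (ζ, t)) (by fun_prop) fun t ht => ⟨hθU hζ, ht⟩)
    · intro t ht
      rw [image_eq_zero_of_notMem_tsupport ht, zero_mul]
  · refine Continuous.integrable_of_hasCompactSupport ?_ hθ.supp.mul_right
    refine cont_ext hU (isClosed_tsupport θ) hθU ?_ ?_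
    · exact hθ.smooth.continuous.continuousOn.mul
        (cont_param (μ := (volume : Measure ℂ)) hV hθ'.smooth.continuous hθ'.supp hθV hK)
    · intro t ht
      rw [image_eq_zero_of_notMem_tsupport ht, zero_mul]

end Vale.Agent.P167.BVP
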