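import Vale.Agent.P167.BVP.Refl2

/-!
# P167, block BVP: flat sides, pointwise and averaged Neumann conditions
-/

open Set Metric Filter Topology InnerProductSpace Complex MeasureTheory
open scoped ComplexConjugate ContDiff Convolution

namespace Vale.Agent.P167.BVP

open P198W

/-- The averaged Neumann condition on the side through `q` with inner normal `ν`
(the points `q - i ν t`, `|t| < ρ`). -/
def NeuAvAt (W : ℂ → ℝ) (q ν : ℂ) (ρ : ℝ) : Prop :=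
  ∀ θ : ℝ → ℝ, ContDiff ℝ ∞ θ → HasCompactSupport θ → tsupport θ ⊆ Ioo (-ρ) ρ →
    Tendsto (fun r : ℝ => (∫ t : ℝ, θ t * (W (q - I * ν * t + r * ν) - W (q - I * ν * t))) / r)
      (𝓝[>] 0) (𝓝 0)

theorem Flat.mono {D : Set ℂ} {q ν : ℂ} {ρ ρ' : ℝ} (h : Flat D q ν ρ) (h0 : 0 < ρ') (h1 : ρ' ≤ ρ) :
    Flat D q ν ρ' :=
  ⟨h.norm, h0, fun z hz => h.mem z (ball_subset_ball h1 hz)⟩

theorem MapFlat.mono {D : Set ℂ} {φ : ℂ → ℂ} {x : ℝ} {q ν : ℂ} {ρ ρ' : ℝ}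
    (h : MapFlat D φ x q ν ρ) (h0 : 0 < ρ') (h1 : ρ' ≤ ρ) : MapFlat D φ x q ν ρ' :=
  ⟨h.flat.mono h0 h1, h.val, h.cont, h.diff, h.up, h.real⟩

theorem Flat.notMem {D : Set ℂ} {q ν : ℂ} {ρ : ℝ} (h : Flat D q ν ρ) : q ∉ D := by
  rw [h.mem q (mem_ball_self h.pos)]
  simp

theorem flat_even_av {D : Set ℂ} {q ν : ℂ} {ρ : ℝ} (hF : Flat D q ν ρ) {W : ℂ → ℝ}
    (hh : ∀ z ∈ D ∩ ball q ρ, HarmonicAt W z)
    (hc : ContinuousOn W (ball q ρ ∩ {z | 0 ≤ ((z - q) * conj ν).re}))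
    (hN : NeuAvAt W q ν ρ) : HarmonicAt (evenAt W q ν) 0 := by
  set ρ' : ℝ := ρ / 2 with hρdef
  have hρ' : 0 < ρ' := half_pos hF.pos
  have hρρ' : ρ' < ρ := half_lt_self hF.pos
  have hνν : ν * conj ν = 1 := by
    rw [Complex.mul_conj, Complex.normSq_eq_norm_sq, hF.norm]; norm_num
  have hmap : ∀ ζ : ℂ, ((q - I * ν * (ζ.re + |ζ.im| * I)) - q) * conj ν = |ζ.im| - I * ζ.re := by
    intro ζ
    have : ((q - I * ν * (ζ.re + |ζ.im| * I)) - q) * conj ν =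
        -(I * (ν * conj ν) * (ζ.re + |ζ.im| * I)) := by ring
    rw [this, hνν]
    have : -(I * 1 * (ζ.re + |ζ.im| * I)) = -(I * I) * |ζ.im| - I * ζ.re := by ring
    rw [this, I_mul_I]; ring
  have hre : ∀ ζ : ℂ, (((q - I * ν * (ζ.re + |ζ.im| * I)) - q) * conj ν).re = |ζ.im| := by
    intro ζ; rw [hmap]; simp
  have hnorm : ∀ ζ : ℂ, ‖(q - I * ν * (ζ.re + |ζ.im| * I)) - q‖ = ‖ζ‖ := by
    intro ζ
    have e1 : (q - I * ν * (ζ.re + |ζ.im| * I)) - q = -(I * ν * (ζ.re + |ζ.im| * I)) := by ring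
    rw [e1, norm_neg, norm_mul, norm_mul, norm_I, hF.norm, one_mul, one_mul]
    rw [Complex.norm_eq_sqrt_sq_add_sq, Complex.norm_eq_sqrt_sq_add_sq]
    simp
  have hmem : ∀ ζ ∈ closedBall (0 : ℂ) ρ', (q - I * ν * (ζ.re + |ζ.im| * I)) ∈ ball q ρ := by
    intro ζ hζ
    rw [mem_closedBall_zero_iff] at hζ
    rw [mem_ball, dist_eq_norm, hnorm]; linarith
  have key := refl_harmonic_av (x₀ := 0) (ρ := ρ') (u := evenAt W q ν) ?_ ?_ ?_ ?_
  · have h0 := key 0 (by rw [mem_ball]; simpa using hρ')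
    exact h0
  · simp only [ofReal_zero]
    refine hc.comp (f := fun ζ : ℂ => q - I * ν * (ζ.re + |ζ.im| * I)) ?_ ?_
    · fun_prop
    · intro ζ hζ
      refine ⟨hmem ζ hζ, ?_⟩
      have h9 := hre ζ
      simp only [mem_ofPred_eq, h9]
      exact abs_nonneg _
  · intro ζ hζ hpos
    simp only [ofReal_zero] at hζ
    have h1 := hmem ζ (ball_subset_closedBall hζ)
    have h2 : (q - I * ν * (ζ.re + |ζ.im| * I)) ∈ D := by
      rw [hF.mem _ h1, hre]; exact abs_pos.2 hpos.ne'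
    have h3 : HarmonicAt W (q - I * ν * ζ) := by
      have e : (ζ.re : ℂ) + |ζ.im| * I = ζ := by
        rw [abs_of_pos hpos]; exact Complex.re_add_im ζ
      have := hh _ ⟨h2, h1⟩
      rwa [e] at this
    have h4 : AnalyticAt ℂ (fun y : ℂ => q - I * ν * y) ζ :=
      analyticAt_const.sub (analyticAt_const.mul analyticAt_id)
    refine (harmonicAt_congr_nhds ?_).1 (harmonicAt_comp (g := fun y : ℂ => q - I * ν * y) h3 h4)
    have h5 : ∀ᶠ y : ℂ in 𝓝 ζ, 0 < y.im :=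
      (isOpen_lt continuous_const Complex.continuous_im).mem_nhds hpos
    filter_upwards [h5] with y hy
    have e : (y.re : ℂ) + |y.im| * I = y := by
      rw [abs_of_pos hy]; exact Complex.re_add_im y
    simp only [evenAt, e]
  · intro ζ _
    simp [evenAt]
  · intro θ h1 h2 h3
    have h4 := hN θ h1 h2 (h3.trans (Ioo_subset_Ioo (by linarith) (by linarith)))
    refine h4.congr' ?_
    filter_upwards [self_mem_nhdsWithin] with r hr
    have hr' : (0 : ℝ) < r := hr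
    congr 1
    refine integral_congr_ae (Eventually.of_forall fun t => ?_)
    have e1 : evenAt W q ν ((t : ℂ) + r * I) = W (q - I * ν * t + r * ν) := by
      unfold evenAt
      congr 1
      have a1 : ((t : ℂ) + r * I).re = t := by simp
      have a2 : ((t : ℂ) + r * I).im = r := by simp
      rw [a1, a2, abs_of_pos hr']
      have : I * ν * ((t : ℂ) + r * I) = I * ν * t + (I * I) * (ν * r) := by ring
      rw [this, I_mul_I]; ring
    have e2 : evenAt W q ν (t : ℂ) = W (q - I * ν * t) := by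
      simp [evenAt]
    simp only [e1, e2]

/-- The function `W` in `D` has a harmonic even reflection at the flat side which contains the
image `φ x` of the real point `x`. -/
def SideHarm (D : Set ℂ) (φ : ℂ → ℂ) (W : ℂ → ℝ) (x : ℝ) : Prop :=
  ∃ (q ν : ℂ) (ρ : ℝ), MapFlat D φ x q ν ρ ∧ HarmonicAt (evenAt W q ν) 0

theorem sideHarm_of_neu {D : Set ℂ} {φ : ℂ → ℂ} {W : ℂ → ℝ} {x : ℝ} {q ν : ℂ} {ρ : ℝ}
    (hM : MapFlat D φ x q ν ρ) (hh : ∀ z ∈ D ∩ ball q ρ, HarmonicAt W z)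
    (hc : ContinuousOn W (ball q ρ ∩ {z | 0 ≤ ((z - q) * conj ν).re}))
    (hN : ∀ z ∈ ball q ρ, ((z - q) * conj ν).re = 0 → NeuAt W z ν) : SideHarm D φ W x :=
  ⟨q, ν, ρ, hM, flat_even hM.flat hh hc hN (ρ / 2) (half_pos hM.flat.pos)
    (half_lt_self hM.flat.pos) 0 (mem_ball_self (half_pos hM.flat.pos))⟩

theorem sideHarm_of_av {D : Set ℂ} {φ : ℂ → ℂ} {W : ℂ → ℝ} {x : ℝ} {q ν : ℂ} {ρ : ℝ}
    (hM : MapFlat D φ x q ν ρ) (hh : ∀ z ∈ D ∩ ball q ρ, HarmonicAt W z)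
    (hc : ContinuousOn W (ball q ρ ∩ {z | 0 ≤ ((z - q) * conj ν).re}))
    (hN : NeuAvAt W q ν ρ) : SideHarm D φ W x :=
  ⟨q, ν, ρ, hM, flat_even_av hM.flat hh hc hN⟩

theorem SideHarm.evenExt {D : Set ℂ} {φ : ℂ → ℂ} {W : ℂ → ℝ} {x : ℝ} (h : SideHarm D φ W x) :
    EvenExt (fun z => W (φ z)) x := by
  obtain ⟨q, ν, ρ, hM, h0⟩ := h
  exact evenExt_of_even hM h0

end Vale.Agent.P167.BVP
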