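import Vale.Agent.P167.BVP.Neum
import Vale.Agent.P167.BVP.Side

/-!
# P167, block BVP: the Neumann problem in a domain with flat sides

`bvp_log`: general logarithmic singularities at finitely many boundary points;
`bvp_const`: functions which are bounded near the exceptional points are `s · npot + const`.
-/

open Set Metric Filter Topology InnerProductSpace Complex MeasureTheory
open scoped ComplexConjugate ContDiff Convolution

namespace Vale.Agent.P167.BVP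

open P198W

theorem EvenExt.sub_smul {u v : ℂ → ℝ} {x : ℝ} (hu : EvenExt u x) (hv : EvenExt v x) (c : ℝ) :
    EvenExt (fun z => u z - c * v z) x := by
  obtain ⟨u', h1, h2, h3⟩ := hu
  obtain ⟨v', k1, k2, k3⟩ := hv
  refine ⟨fun z => u' z - c * v' z, harmonicAt_sub' h1 (harmonicAt_smul' c k1), ?_, ?_⟩
  · filter_upwards [h2, k2] with z a b
    rw [a, b]
  · filter_upwards [h3, k3] with z a b hz
    rw [a hz, b hz]

/-- `W` is harmonic off the support of `f`. -/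
theorem harm_off {D : Set ℂ} (hD : IsOpen D) {f W : ℂ → ℝ} {s : ℝ} (hW : ContinuousOn W D)
    (hw : ∀ ψ, Test D ψ → ∫ z, W z * lap ψ z = - s * ∫ z, f z * ψ z) :
    ∀ z ∈ D \ tsupport f, HarmonicAt W z := by
  refine weyl (hD.sdiff (isClosed_tsupport f)) (hW.mono sdiff_subset) ?_
  intro ψ h1 h2 h3
  rw [hw ψ ⟨h1, h2, h3.trans sdiff_subset⟩]
  have : ∀ z, f z * ψ z = 0 := by
    intro z
    by_cases hz : z ∈ tsupport ψ
    · rw [image_eq_zero_of_notMem_tsupport (h3 hz).2, zero_mul]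
    · rw [image_eq_zero_of_notMem_tsupport hz, mul_zero]
  simp [this]

/-- Pointwise Neumann condition near the image of the real point `x`. -/
def NeuSide (D : Set ℂ) (φ : ℂ → ℂ) (W : ℂ → ℝ) (x : ℝ) : Prop :=
  ∃ (q ν : ℂ) (ρ : ℝ), MapFlat D φ x q ν ρ ∧
    ContinuousOn W (ball q ρ ∩ {z | 0 ≤ ((z - q) * conj ν).re}) ∧
    ∀ z ∈ ball q ρ, ((z - q) * conj ν).re = 0 → NeuAt W z ν

/-- Averaged Neumann condition near the image of the real point `x`. -/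
def NeuSideAv (D : Set ℂ) (φ : ℂ → ℂ) (W : ℂ → ℝ) (x : ℝ) : Prop :=
  ∃ (q ν : ℂ) (ρ : ℝ), MapFlat D φ x q ν ρ ∧
    ContinuousOn W (ball q ρ ∩ {z | 0 ≤ ((z - q) * conj ν).re}) ∧ NeuAvAt W q ν ρ

theorem NeuAvAt.mono {W : ℂ → ℝ} {q ν : ℂ} {ρ ρ' : ℝ} (h : NeuAvAt W q ν ρ) (h1 : ρ' ≤ ρ) :
    NeuAvAt W q ν ρ' := fun θ a b c =>
  h θ a b (c.trans (Ioo_subset_Ioo (by linarith) h1))

theorem sideHarm_of_neuSide {D : Set ℂ} (hD : IsOpen D) {φ : ℂ → ℂ} {f W : ℂ → ℝ} {s : ℝ}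
    (hf : Test D f) (hW : ContinuousOn W D)
    (hw : ∀ ψ, Test D ψ → ∫ z, W z * lap ψ z = - s * ∫ z, f z * ψ z) {x : ℝ}
    (h : NeuSide D φ W x) : SideHarm D φ W x := by
  obtain ⟨q, ν, ρ, hM, hc, hN⟩ := h
  have hq : q ∉ tsupport f := fun h => hM.flat.notMem (hf.2.2 h)
  obtain ⟨r, hr, hrs⟩ := Metric.isOpen_iff.1 (isClosed_tsupport f).isOpen_compl q hq
  have h0 : 0 < min ρ r := lt_min hM.flat.pos hr
  have hsub : ball q (min ρ r) ⊆ ball q ρ := ball_subset_ball (min_le_left _ _)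
  refine sideHarm_of_neu (hM.mono h0 (min_le_left _ _)) ?_
    (hc.mono (inter_subset_inter_left _ hsub)) fun z hz => hN z (hsub hz)
  intro z hz
  exact harm_off hD hW hw z ⟨hz.1, hrs (ball_subset_ball (min_le_right _ _) hz.2)⟩

theorem sideHarm_of_neuSideAv {D : Set ℂ} (hD : IsOpen D) {φ : ℂ → ℂ} {f W : ℂ → ℝ} {s : ℝ}
    (hf : Test D f) (hW : ContinuousOn W D)
    (hw : ∀ ψ, Test D ψ → ∫ z, W z * lap ψ z = - s * ∫ z, f z * ψ z) {x : ℝ}
    (h : NeuSideAv D φ W x) : SideHarm D φ W x := by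
  obtain ⟨q, ν, ρ, hM, hc, hN⟩ := h
  have hq : q ∉ tsupport f := fun h => hM.flat.notMem (hf.2.2 h)
  obtain ⟨r, hr, hrs⟩ := Metric.isOpen_iff.1 (isClosed_tsupport f).isOpen_compl q hq
  have h0 : 0 < min ρ r := lt_min hM.flat.pos hr
  have hsub : ball q (min ρ r) ⊆ ball q ρ := ball_subset_ball (min_le_left _ _)
  refine sideHarm_of_av (hM.mono h0 (min_le_left _ _)) ?_
    (hc.mono (inter_subset_inter_left _ hsub)) (hN.mono (min_le_left _ _))
  intro z hz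
  exact harm_off hD hW hw z ⟨hz.1, hrs (ball_subset_ball (min_le_right _ _) hz.2)⟩

/-- **The Neumann problem with a smooth charge and logarithmic singularities.** -/
theorem bvp_log {D : Set ℂ} {φ g : ℂ → ℂ} (hg : Conf D g)
    (hφd : ∀ ζ : ℂ, 0 < ζ.im → DifferentiableAt ℂ φ ζ)
    (hφ : ∀ ζ : ℂ, 0 < ζ.im → φ ζ ∈ D ∧ g (φ ζ) = ζ) (hgφ : ∀ z ∈ D, φ (g z) = z)
    {f W : ℂ → ℝ} {s : ℝ} (hf : Test D f) (hW : ContinuousOn W D)
    (hw : ∀ ψ, Test D ψ → ∫ z, W z * lap ψ z = - s * ∫ z, f z * ψ z)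
    {K : Finset ℝ} (hN : ∀ x : ℝ, x ∉ K → SideHarm D φ W x)
    (hl : ∀ x ∈ K, ∃ C : ℝ, ∀ᶠ z in 𝓝 (x : ℂ), 0 < z.im →
      |W (φ z)| ≤ C * (1 + |Real.log ‖z - x‖|))
    (hi : ∃ C R : ℝ, ∀ z : ℂ, 0 < z.im → R ≤ ‖z‖ → |W (φ z)| ≤ C * (1 + Real.log ‖z‖)) :
    ∃ (c : ℝ) (a : ℝ → ℝ), ∀ z ∈ D, W z = s * npot g f z + c + ∑ x ∈ K, a x * Real.log ‖g z - x‖ := by
  have hh := harm_sub_npot hg hf hW hw
  set v : ℂ → ℝ := fun ζ => W (φ ζ) - s * nhalf g f ζ with hv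
  have h1 : ∀ ζ : ℂ, 0 < ζ.im → HarmonicAt v ζ := by
    intro ζ hζ
    have hopen : IsOpen {z : ℂ | 0 < z.im} := isOpen_lt continuous_const Complex.continuous_im
    have han : AnalyticAt ℂ φ ζ := by
      have : DifferentiableOn ℂ φ {z : ℂ | 0 < z.im} := fun z hz =>
        (hφd z hz).differentiableWithinAt
      exact this.analyticAt (hopen.mem_nhds hζ)
    refine (harmonicAt_congr_nhds ?_).2 (harmonicAt_comp (hh _ (hφ ζ hζ).1) han)
    filter_upwards [hopen.mem_nhds hζ] with y hy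
    simp only [hv, npot_eq_nhalf, (hφ y hy).2]
  have h2 : ∀ x : ℝ, x ∉ K → EvenExt v x := fun x hx =>
    (hN x hx).evenExt.sub_smul (nhalf_evenExt hg hf x) s
  have h3 : ∀ x ∈ K, ∃ C : ℝ, ∀ᶠ z in 𝓝 (x : ℂ), 0 < z.im →
      |v z| ≤ C * (1 + |Real.log ‖z - x‖|) := by
    intro x hx
    obtain ⟨C, hC⟩ := hl x hx
    obtain ⟨u, hu1, hu2, hu3⟩ := nhalf_evenExt hg hf x
    have hb : ∀ᶠ z in 𝓝 (x : ℂ), |u z| ≤ |u x| + 1 := by
      have h5 : Tendsto (fun z => |u z|) (𝓝 (x : ℂ)) (𝓝 |u x|) := hu1.1.continuousAt.abs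
      filter_upwards [h5.eventually (gt_mem_nhds (lt_add_one _))] with z hz using hz.le
    refine ⟨C + |s| * (|u x| + 1), ?_⟩
    filter_upwards [hC, hb, hu3] with z a1 a2 a3 hz
    have h4 : |v z| ≤ |W (φ z)| + |s| * |u z| := by
      simp only [hv, a3 hz]
      have := abs_sub (W (φ z)) (s * u z)
      rwa [abs_mul] at this
    have h5 := a1 hz
    have h6 : |s| * |u z| ≤ |s| * (|u x| + 1) := mul_le_mul_of_nonneg_left a2 (abs_nonneg _)
    have h7 : |s| * (|u x| + 1) ≤ |s| * (|u x| + 1) * (1 + |Real.log ‖z - x‖|) := by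
      have : 0 ≤ |s| * (|u x| + 1) := by positivity
      nlinarith [abs_nonneg (Real.log ‖z - x‖)]
    calc |v z| ≤ C * (1 + |Real.log ‖z - x‖|) + |s| * (|u x| + 1) * (1 + |Real.log ‖z - x‖|) := by
          linarith
      _ = (C + |s| * (|u x| + 1)) * (1 + |Real.log ‖z - x‖|) := by ring
  have h4 : ∃ C R : ℝ, ∀ z : ℂ, 0 < z.im → R ≤ ‖z‖ → |v z| ≤ C * (1 + Real.log ‖z‖) := by
    obtain ⟨C, R, hC⟩ := hi
    obtain ⟨C', R', hC'⟩ := nhalf_inf hg hf
    refine ⟨C + |s| * (|C'| + |1 / Real.pi * ∫ w, f w|), max (max R R') 1, fun z hz hR => ?_⟩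
    have a1 : R ≤ ‖z‖ := ((le_max_left _ _).trans (le_max_left _ _)).trans hR
    have a2 : R' ≤ ‖z‖ := ((le_max_right _ _).trans (le_max_left _ _)).trans hR
    have a3 : 1 ≤ ‖z‖ := (le_max_right _ _).trans hR
    have hlog : 0 ≤ Real.log ‖z‖ := Real.log_nonneg a3
    have b1 := hC z hz a1
    have b2 := hC' z a2
    have b3 : |nhalf g f z| ≤ (|C'| + |1 / Real.pi * ∫ w, f w|) * (1 + Real.log ‖z‖) := by
      have e : nhalf g f z = (nhalf g f z + 1 / Real.pi * (∫ w, f w) * Real.log ‖z‖) -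
        (1 / Real.pi * (∫ w, f w)) * Real.log ‖z‖ := by ring
      have h5 : |nhalf g f z| ≤ C' + |1 / Real.pi * ∫ w, f w| * Real.log ‖z‖ := by
        rw [e]
        refine (abs_sub _ _).trans ?_
        rw [abs_mul (1 / Real.pi * ∫ w, f w), abs_of_nonneg hlog]
        linarith
      have h6 := le_abs_self C'
      nlinarith [abs_nonneg C', abs_nonneg (1 / Real.pi * ∫ w, f w), mul_nonneg (abs_nonneg C') hlog]
    have h4 : |v z| ≤ |W (φ z)| + |s| * |nhalf g f z| := by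
      have := abs_sub (W (φ z)) (s * nhalf g f z)
      rwa [abs_mul] at this
    have h6 := mul_le_mul_of_nonneg_left b3 (abs_nonneg s)
    calc |v z| ≤ C * (1 + Real.log ‖z‖) +
          |s| * ((|C'| + |1 / Real.pi * ∫ w, f w|) * (1 + Real.log ‖z‖)) := by linarith
      _ = _ := by ring
  obtain ⟨c, a, hca⟩ := half_log h1 h2 h3 h4
  refine ⟨c, a, fun z hz => ?_⟩
  have h5 := hca (g z) (hg.im_pos z hz)
  simp only [hv, hgφ z hz] at h5
  rw [npot_eq_nhalf]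
  linarith

theorem coef_zero {v : ℂ → ℝ} {K : Finset ℝ} {c : ℝ} {a : ℝ → ℝ}
    (h : ∀ z : ℂ, 0 < z.im → v z = c + ∑ x ∈ K, a x * Real.log ‖z - x‖) {x : ℝ} (hx : x ∈ K)
    (hb : ∃ M : ℝ, ∀ᶠ z in 𝓝 (x : ℂ), 0 < z.im → |v z| ≤ M) : a x = 0 := by
  classical
  by_contra hne
  obtain ⟨M, hM⟩ := hb
  -- approach along the vertical line
  have hline : Tendsto (fun t : ℝ => (x : ℂ) + t * I) (𝓝[>] 0) (𝓝 (x : ℂ)) := by
    have : Continuous fun t : ℝ => (x : ℂ) + t * I := by fun_prop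
    have h2 := this.tendsto 0
    simp only [ofReal_zero, zero_mul, add_zero] at h2
    exact h2.mono_left nhdsWithin_le_nhds
  have h1 : ∀ᶠ t : ℝ in 𝓝[>] 0, |v (x + t * I)| ≤ M := by
    filter_upwards [hline.eventually hM, self_mem_nhdsWithin] with t ht ht0
    refine ht ?_
    have : (0 : ℝ) < t := ht0
    simpa using this
  have hrest : Tendsto (fun t : ℝ => c + ∑ y ∈ K.erase x, a y * Real.log ‖(x : ℂ) + t * I - y‖)
      (𝓝[>] 0) (𝓝 (c + ∑ y ∈ K.erase x, a y * Real.log ‖(x : ℂ) - y‖)) := by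
    refine Tendsto.const_add c (tendsto_finsetSum _ fun y hy => Tendsto.const_mul _ ?_)
    have hyx : (x : ℂ) - y ≠ 0 := by
      rw [sub_ne_zero]
      exact fun h => (Finset.ne_of_mem_erase hy) (Complex.ofReal_injective h).symm
    have hc : ContinuousAt (fun z : ℂ => Real.log ‖z - y‖) (x : ℂ) :=
      ContinuousAt.log (by fun_prop) (norm_ne_zero_iff.2 hyx)
    exact hc.tendsto.comp hline
  have hmain : Tendsto (fun t : ℝ => |a x * Real.log t|) (𝓝[>] 0) atTop := by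
    have h2 : Tendsto (fun t : ℝ => |Real.log t|) (𝓝[>] 0) atTop :=
      tendsto_abs_atBot_atTop.comp Real.tendsto_log_nhdsGT_zero
    have h3 := h2.const_mul_atTop (abs_pos.2 hne)
    refine h3.congr fun t => ?_
    rw [abs_mul]
  set L := c + ∑ y ∈ K.erase x, a y * Real.log ‖(x : ℂ) - y‖ with hL
  have h4 : ∀ᶠ t : ℝ in 𝓝[>] 0,
      |c + ∑ y ∈ K.erase x, a y * Real.log ‖(x : ℂ) + t * I - y‖| ≤ |L| + 1 := by
    have h5 := hrest.abs
    filter_upwards [h5.eventually (gt_mem_nhds (lt_add_one _))] with t ht using ht.le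
  have h6 : ∀ᶠ t : ℝ in 𝓝[>] 0, |a x * Real.log t| ≤ M + (|L| + 1) := by
    filter_upwards [h1, h4, self_mem_nhdsWithin] with t b1 b2 b3
    have ht : (0 : ℝ) < t := b3
    have e := h ((x : ℂ) + t * I) (by simpa using ht)
    rw [← Finset.add_sum_erase _ _ hx] at e
    have e2 : ‖(x : ℂ) + t * I - x‖ = t := by
      have : (x : ℂ) + t * I - x = t * I := by ring
      rw [this, norm_mul, norm_I, mul_one, norm_real, Real.norm_eq_abs, abs_of_pos ht]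
    rw [e2] at e
    have e3 : a x * Real.log t = v (x + t * I) -
        (c + ∑ y ∈ K.erase x, a y * Real.log ‖(x : ℂ) + t * I - y‖) := by rw [e]; ring
    rw [e3]
    exact (abs_sub _ _).trans (add_le_add b1 b2)
  obtain ⟨t, h7, h8⟩ := ((hmain.eventually_gt_atTop (M + (|L| + 1))).and h6).exists
  exact absurd h8 (not_le.2 h7)

/-- **The Neumann problem with a smooth charge.** A function which is bounded near the exceptional
boundary points and grows at most logarithmically at infinity is `s` times the Neumann potential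
plus a constant. -/
theorem bvp_const {D : Set ℂ} {φ g : ℂ → ℂ} (hg : Conf D g)
    (hφd : ∀ ζ : ℂ, 0 < ζ.im → DifferentiableAt ℂ φ ζ)
    (hφ : ∀ ζ : ℂ, 0 < ζ.im → φ ζ ∈ D ∧ g (φ ζ) = ζ) (hgφ : ∀ z ∈ D, φ (g z) = z)
    {f W : ℂ → ℝ} {s : ℝ} (hf : Test D f) (hW : ContinuousOn W D)
    (hw : ∀ ψ, Test D ψ → ∫ z, W z * lap ψ z = - s * ∫ z, f z * ψ z)
    {K : Finset ℝ} (hN : ∀ x : ℝ, x ∉ K → SideHarm D φ W x)
    (hl : ∀ x ∈ K, ∃ M : ℝ, ∀ᶠ z in 𝓝 (x : ℂ), 0 < z.im → |W (φ z)| ≤ M)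
    (hi : ∃ C R : ℝ, ∀ z : ℂ, 0 < z.im → R ≤ ‖z‖ → |W (φ z)| ≤ C * (1 + Real.log ‖z‖)) :
    ∃ c : ℝ, ∀ z ∈ D, W z = s * npot g f z + c := by
  have hl' : ∀ x ∈ K, ∃ C : ℝ, ∀ᶠ z in 𝓝 (x : ℂ), 0 < z.im →
      |W (φ z)| ≤ C * (1 + |Real.log ‖z - x‖|) := by
    intro x hx
    obtain ⟨M, hM⟩ := hl x hx
    refine ⟨|M|, ?_⟩
    filter_upwards [hM] with z h1 h2
    have := h1 h2
    nlinarith [le_abs_self M, abs_nonneg M, abs_nonneg (Real.log ‖z - x‖),
      mul_nonneg (abs_nonneg M) (abs_nonneg (Real.log ‖z - x‖))]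
  obtain ⟨c, a, hca⟩ := bvp_log hg hφd hφ hgφ hf hW hw hN hl' hi
  have hv : ∀ ζ : ℂ, 0 < ζ.im → W (φ ζ) - s * nhalf g f ζ = c + ∑ x ∈ K, a x * Real.log ‖ζ - x‖ := by
    intro ζ hζ
    have := hca (φ ζ) (hφ ζ hζ).1
    rw [npot_eq_nhalf, (hφ ζ hζ).2] at this
    linarith
  have ha : ∀ x ∈ K, a x = 0 := by
    intro x hx
    refine coef_zero hv hx ?_
    obtain ⟨M, hM⟩ := hl x hx
    obtain ⟨u, hu1, hu2, hu3⟩ := nhalf_evenExt hg hf x
    have hb : ∀ᶠ z in 𝓝 (x : ℂ), |u z| ≤ |u x| + 1 := by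
      have h5 : Tendsto (fun z => |u z|) (𝓝 (x : ℂ)) (𝓝 |u x|) := hu1.1.continuousAt.abs
      filter_upwards [h5.eventually (gt_mem_nhds (lt_add_one _))] with z hz using hz.le
    refine ⟨M + |s| * (|u x| + 1), ?_⟩
    filter_upwards [hM, hb, hu3] with z a1 a2 a3 hz
    rw [a3 hz]
    refine (abs_sub _ _).trans ?_
    rw [abs_mul]
    exact add_le_add (a1 hz) (mul_le_mul_of_nonneg_left a2 (abs_nonneg _))
  refine ⟨c, fun z hz => ?_⟩
  rw [hca z hz, Finset.sum_eq_zero fun x hx => by rw [ha x hx, zero_mul], add_zero]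

end Vale.Agent.P167.BVP
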