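import Vale.Agent.P167.BVP.Hopf

/-!
# P167, block BVP: compositions of harmonic functions, the Dirichlet problem in a disc
-/

open Set Metric Filter Topology InnerProductSpace Complex Real
open scoped ComplexConjugate

namespace Vale.Agent.P167.BVP

/-- Local representation of a harmonic function as a real part. -/
theorem exists_re {v : ℂ → ℝ} {z : ℂ} (hv : HarmonicAt v z) :
    ∃ F : ℂ → ℂ, AnalyticAt ℂ F z ∧ ∀ᶠ w in 𝓝 z, v w = (F w).re := by
  obtain ⟨r, hr, hball⟩ := Metric.eventually_nhds_iff_ball.1 hv.eventually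
  obtain ⟨F, hF, hre⟩ := HarmonicOnNhd.exists_analyticOnNhd_ball_re_eq
    (f := v) (z := z) (R := r) (fun w hw => hball w hw)
  refine ⟨F, hF z (mem_ball_self hr), ?_⟩
  filter_upwards [ball_mem_nhds z hr] with w hw
  exact (hre hw).symm

theorem harmonicAt_of_re {v : ℂ → ℝ} {z : ℂ} {F : ℂ → ℂ} (hF : AnalyticAt ℂ F z)
    (h : ∀ᶠ w in 𝓝 z, v w = (F w).re) : HarmonicAt v z := by
  refine (harmonicAt_congr_nhds ?_).2 (AnalyticAt.harmonicAt_re hF)
  exact h

/-- Composition with an analytic map. -/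
theorem harmonicAt_comp {v : ℂ → ℝ} {g : ℂ → ℂ} {w : ℂ} (hv : HarmonicAt v (g w))
    (hg : AnalyticAt ℂ g w) : HarmonicAt (fun z => v (g z)) w := by
  obtain ⟨F, hF, h⟩ := exists_re hv
  exact harmonicAt_of_re (hF.fun_comp hg) (hg.continuousAt.eventually h)

theorem analyticAt_conj {F : ℂ → ℂ} {z : ℂ} (hF : AnalyticAt ℂ F (conj z)) :
    AnalyticAt ℂ (fun w => conj (F (conj w))) z := by
  rw [Complex.analyticAt_iff_eventually_differentiableAt] at hF ⊢
  have h1 : Tendsto (fun w : ℂ => conj w) (𝓝 z) (𝓝 (conj z)) := Complex.continuous_conj.continuousAt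
  filter_upwards [h1.eventually hF] with w hw
  have := hw.conj_conj
  simpa [Function.comp_def] using this

/-- Composition with the complex conjugation. -/
theorem harmonicAt_conj {v : ℂ → ℝ} {z : ℂ} (hv : HarmonicAt v (conj z)) :
    HarmonicAt (fun w => v (conj w)) z := by
  obtain ⟨F, hF, h⟩ := exists_re hv
  refine harmonicAt_of_re (analyticAt_conj hF) ?_
  have h1 : Tendsto (fun w : ℂ => conj w) (𝓝 z) (𝓝 (conj z)) := Complex.continuous_conj.continuousAt
  filter_upwards [h1.eventually h] with w hw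
  rw [hw, conj_re]

theorem harmonicAt_const (c : ℝ) (z : ℂ) : HarmonicAt (fun _ : ℂ => c) z :=
  harmonicAt_of_re (F := fun _ => (c : ℂ)) analyticAt_const (Eventually.of_forall fun _ => by simp)

theorem harmonicAt_sub' {u v : ℂ → ℝ} {z : ℂ} (hu : HarmonicAt u z) (hv : HarmonicAt v z) :
    HarmonicAt (fun w => u w - v w) z := hu.sub hv

theorem harmonicAt_neg' {u : ℂ → ℝ} {z : ℂ} (hu : HarmonicAt u z) :
    HarmonicAt (fun w => - u w) z := hu.neg

/-- The Poisson integral. -/
noncomputable def pint (g : ℂ → ℝ) (R : ℝ) (w : ℂ) : ℝ :=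
  circleAverage ((Complex.re ∘ herglotzRieszKernel 0 w) • g) 0 R

theorem pint_harmonic {g : ℂ → ℝ} {R : ℝ} (hg : CircleIntegrable g 0 R) :
    HarmonicOnNhd (pint g R) (ball 0 R) := by
  intro w hw
  have hg' : CircleIntegrable (fun ζ ↦ (g ζ : ℂ)) 0 R := by
    simp only [CircleIntegrable, intervalIntegrable_iff] at hg ⊢
    exact Complex.ofRealCLM.integrable_comp hg
  have h1 := analyticOnNhd_circleAverage_herglotzRieszKernel_smul (f := fun ζ ↦ (g ζ : ℂ)) hg' w hw
  refine harmonicAt_of_re h1 ?_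
  filter_upwards [isOpen_ball.mem_nhds hw] with z hz
  exact (re_circleAverage_herglotzRieszKernel_smul hg hz).symm

theorem kernel_continuousOn {R : ℝ} {w : ℂ} (hw : w ∈ ball 0 R) :
    ContinuousOn (Complex.re ∘ herglotzRieszKernel 0 w) (sphere 0 |R|) :=
  Complex.continuous_re.comp_continuousOn (continuousOn_herglotzRieszKernel_sphere hw)

theorem pint_const {R : ℝ} {w : ℂ} (hw : w ∈ ball 0 R) :
    circleAverage (Complex.re ∘ herglotzRieszKernel 0 w) 0 R = 1 := by
  have h1 := HarmonicOnNhd.circleAverage_re_herglotzRieszKernel_smul (f := fun _ : ℂ => (1 : ℝ))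
    (c := 0) (R := R) (fun z _ => harmonicAt_const 1 z) hw
  rw [← h1]
  congr 1
  ext z
  simp

theorem kernel_nonneg {R : ℝ} {w z : ℂ} (hw : w ∈ ball 0 R) (hz : z ∈ sphere 0 R) :
    0 ≤ (Complex.re ∘ herglotzRieszKernel 0 w) z := by
  rw [← poissonKernel_eq_re_herglotzRieszKernel, poissonKernel_def]
  rw [mem_ball_zero_iff] at hw
  rw [mem_sphere_zero_iff_norm] at hz
  have hR := norm_nonneg w
  apply div_nonneg _ (by positivity)
  simp only [sub_zero, hz]
  nlinarith

theorem kernel_le {R η : ℝ} {w z ζ₀ : ℂ} (hη : 0 < η) (hw : w ∈ ball 0 R) (hz : z ∈ sphere 0 R)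
    (h1 : η ≤ ‖z - ζ₀‖) (h2 : ‖w - ζ₀‖ ≤ η / 2) :
    (Complex.re ∘ herglotzRieszKernel 0 w) z ≤ 4 * (R ^ 2 - ‖w‖ ^ 2) / η ^ 2 := by
  rw [← poissonKernel_eq_re_herglotzRieszKernel, poissonKernel_def]
  rw [mem_ball_zero_iff] at hw
  rw [mem_sphere_zero_iff_norm] at hz
  simp only [sub_zero, hz]
  have h3 : η / 2 ≤ ‖z - w‖ := by
    have := norm_sub_le_norm_sub_add_norm_sub z w ζ₀
    linarith
  have h4 : 0 ≤ R ^ 2 - ‖w‖ ^ 2 := by nlinarith [norm_nonneg w]
  have h6 : 0 < ‖z - w‖ := by linarith [half_pos hη]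
  rw [div_le_div_iff₀ (by positivity) (by positivity)]
  have h5 : (η / 2) ^ 2 ≤ ‖z - w‖ ^ 2 := by gcongr
  nlinarith

theorem pint_tendsto {g : ℂ → ℝ} {R : ℝ} (hR : 0 < R) (hg : ContinuousOn g (sphere 0 R))
    {ζ₀ : ℂ} (hζ : ζ₀ ∈ sphere (0 : ℂ) R) :
    Tendsto (pint g R) (𝓝[ball 0 R] ζ₀) (𝓝 (g ζ₀)) := by
  have hRabs : |R| = R := abs_of_pos hR
  have hgi : CircleIntegrable g 0 R := by
    apply ContinuousOn.circleIntegrable' ; rw [hRabs]; exact hg
  obtain ⟨M, hM⟩ := (isCompact_sphere (0 : ℂ) R).exists_bound_of_continuousOn hg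
  have hM0 : 0 ≤ M := (norm_nonneg _).trans (hM ζ₀ hζ)
  -- one sided bound
  have key : ∀ (h : ℂ → ℝ), ContinuousOn h (sphere 0 R) → (∀ z ∈ sphere (0 : ℂ) R, ‖h z‖ ≤ M) →
      ∀ ε > 0, ∀ᶠ w in 𝓝[ball 0 R] ζ₀, pint h R w - h ζ₀ ≤ ε := by
    intro h hh hhM ε hε
    have hhi : CircleIntegrable h 0 R := by
      apply ContinuousOn.circleIntegrable' ; rw [hRabs]; exact hh
    obtain ⟨η, hη, hηε⟩ := Metric.continuousWithinAt_iff.1 (hh ζ₀ hζ) (ε / 2) (by positivity)
    have hT : Tendsto (fun w : ℂ => 2 * M * (4 * (R ^ 2 - ‖w‖ ^ 2) / η ^ 2)) (𝓝 ζ₀) (𝓝 0) := by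
      have : Continuous fun w : ℂ => 2 * M * (4 * (R ^ 2 - ‖w‖ ^ 2) / η ^ 2) := by fun_prop
      have h2 := this.tendsto ζ₀
      rw [mem_sphere_zero_iff_norm] at hζ
      simpa [hζ] using h2
    have h1 : ∀ᶠ w : ℂ in 𝓝 ζ₀, 2 * M * (4 * (R ^ 2 - ‖w‖ ^ 2) / η ^ 2) < ε / 2 :=
      hT.eventually_lt_const (half_pos hε)
    filter_upwards [nhdsWithin_le_nhds h1, self_mem_nhdsWithin,
      nhdsWithin_le_nhds (ball_mem_nhds ζ₀ (half_pos hη))] with w h1 hwR hw2
    have hker := kernel_continuousOn hwR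
    rw [hRabs] at hker
    have hki : CircleIntegrable (Complex.re ∘ herglotzRieszKernel 0 w) 0 R := by
      apply ContinuousOn.circleIntegrable' ; rw [hRabs]; exact hker
    have hkh : CircleIntegrable ((Complex.re ∘ herglotzRieszKernel 0 w) • h) 0 R := by
      apply ContinuousOn.circleIntegrable' ; rw [hRabs]; exact hker.smul hh
    set B : ℝ := 2 * M * (4 * (R ^ 2 - ‖w‖ ^ 2) / η ^ 2) with hB
    have hwR' := hwR
    rw [mem_ball_zero_iff] at hwR'
    have hB0 : 0 ≤ 4 * (R ^ 2 - ‖w‖ ^ 2) / η ^ 2 := by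
      have : 0 ≤ R ^ 2 - ‖w‖ ^ 2 := by nlinarith [norm_nonneg w]
      positivity
    have hpt : ∀ z ∈ sphere (0 : ℂ) R, ((Complex.re ∘ herglotzRieszKernel 0 w) • h) z ≤
        (Complex.re ∘ herglotzRieszKernel 0 w) z * (h ζ₀ + ε / 2) + B := by
      intro z hz
      have hk0 := kernel_nonneg hwR hz
      set k := (Complex.re ∘ herglotzRieszKernel 0 w) z with hk
      have hsm : ((Complex.re ∘ herglotzRieszKernel 0 w) • h) z = k * h z := rfl
      rw [hsm]
      by_cases hd : dist z ζ₀ < η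
      · have h3 := hηε hz hd
        rw [Real.dist_eq] at h3
        have h4 := (abs_lt.1 h3).2
        have h5 : k * h z ≤ k * (h ζ₀ + ε / 2) := by
          apply mul_le_mul_of_nonneg_left _ hk0; linarith
        have : 0 ≤ B := by rw [hB]; positivity
        linarith
      · push Not at hd
        rw [dist_eq_norm] at hd
        rw [mem_ball, dist_eq_norm] at hw2
        have h3 := kernel_le hη hwR hz hd hw2.le
        have h4 : h z - h ζ₀ ≤ 2 * M := by
          have a1 := (Real.norm_eq_abs (h z)) ▸ hhM z hz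
          have a2 := (Real.norm_eq_abs (h ζ₀)) ▸ hhM ζ₀ hζ
          have := (abs_le.1 a1).2
          have := (abs_le.1 a2).1
          linarith
        have h5 : k * (h z - h ζ₀) ≤ k * (2 * M) := mul_le_mul_of_nonneg_left h4 hk0
        have h6 : k * (2 * M) ≤ 4 * (R ^ 2 - ‖w‖ ^ 2) / η ^ 2 * (2 * M) :=
          mul_le_mul_of_nonneg_right h3 (by positivity)
        have h7 : 0 ≤ k * (ε / 2) := by positivity
        rw [hB]
        linarith
    have hle : pint h R w ≤ (h ζ₀ + ε / 2) + B := by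
      have hri : CircleIntegrable (fun z => (Complex.re ∘ herglotzRieszKernel 0 w) z *
          (h ζ₀ + ε / 2) + B) 0 R := by
        apply ContinuousOn.circleIntegrable'
        rw [hRabs]
        exact (hker.mul continuousOn_const).add continuousOn_const
      have h8 := circleAverage_mono hkh hri (fun z hz => hpt z (by rwa [hRabs] at hz))
      have h9 : circleAverage (fun z => (Complex.re ∘ herglotzRieszKernel 0 w) z *
          (h ζ₀ + ε / 2) + B) 0 R = (h ζ₀ + ε / 2) + B := by
        have e1 : (fun z => (Complex.re ∘ herglotzRieszKernel 0 w) z * (h ζ₀ + ε / 2) + B) =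
          (h ζ₀ + ε / 2) • (Complex.re ∘ herglotzRieszKernel 0 w) + fun _ => B := by
          ext z; simp [mul_comm]
        rw [e1, circleAverage_add (hki.const_smul) (circleIntegrable_const _ _ _),
          circleAverage_smul, pint_const hwR, circleAverage_const]
        simp
      rw [h9] at h8
      exact h8
    linarith
  rw [Metric.tendsto_nhds]
  intro ε hε
  have hup := key g hg hM (ε / 2) (by positivity)
  have hlo := key (fun z => - g z) hg.neg (fun z hz => by rw [norm_neg]; exact hM z hz) (ε / 2)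
    (by positivity)
  filter_upwards [hup, hlo] with w h1 h2
  have h3 : pint (fun z => - g z) R w = - pint g R w := by
    unfold pint
    have e1 : (Complex.re ∘ herglotzRieszKernel 0 w) • (fun z => - g z) =
        (-1 : ℝ) • ((Complex.re ∘ herglotzRieszKernel 0 w) • g) := by
      ext z; simp
    rw [e1, circleAverage_smul]; simp
  rw [h3] at h2
  rw [Real.dist_eq, abs_lt]
  constructor <;> linarith

/-- The Dirichlet problem in a disc. -/
theorem exists_dirichlet {g : ℂ → ℝ} {R : ℝ} (hR : 0 < R) (hg : ContinuousOn g (sphere 0 R)) :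
    ∃ v : ℂ → ℝ, ContinuousOn v (closedBall 0 R) ∧ HarmonicOnNhd v (ball 0 R) ∧
      ∀ z ∈ sphere (0 : ℂ) R, v z = g z := by
  classical
  have hRabs : |R| = R := abs_of_pos hR
  have hgi : CircleIntegrable g 0 R := by
    apply ContinuousOn.circleIntegrable' ; rw [hRabs]; exact hg
  set v : ℂ → ℝ := fun z => if z ∈ ball (0 : ℂ) R then pint g R z else g z with hv
  have hin : ∀ z ∈ ball (0 : ℂ) R, v =ᶠ[𝓝 z] pint g R := by
    intro z hz
    filter_upwards [isOpen_ball.mem_nhds hz] with w hw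
    simp [hv, mem_ball_zero_iff.1 hw]
  refine ⟨v, ?_, ?_, ?_⟩
  · intro z hz
    by_cases hzb : z ∈ ball (0 : ℂ) R
    · exact ((pint_harmonic hgi z hzb).1.continuousAt.congr (hin z hzb).symm).continuousWithinAt
    · have hzs : z ∈ sphere (0 : ℂ) R := by
        rw [mem_closedBall_zero_iff] at hz
        rw [mem_ball_zero_iff] at hzb
        rw [mem_sphere_zero_iff_norm]; linarith
      have hvz : v z = g z := by simp only [hv, if_neg hzb]
      have hcl : closedBall (0 : ℂ) R = ball 0 R ∪ sphere 0 R := ball_union_sphere.symm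
      rw [hcl]
      refine ContinuousWithinAt.union ?_ ?_
      · have h1 := pint_tendsto hR hg hzs
        rw [ContinuousWithinAt, hvz]
        refine h1.congr' ?_
        filter_upwards [self_mem_nhdsWithin] with w hw
        simp only [hv, if_pos hw]
      · refine (hg z hzs).congr ?_ hvz
        intro w hw
        have : w ∉ ball (0 : ℂ) R := by
          rw [mem_ball_zero_iff, mem_sphere_zero_iff_norm.1 hw]; exact lt_irrefl _
        simp only [hv, if_neg this]
  · intro z hz
    exact (harmonicAt_congr_nhds (hin z hz)).2 (pint_harmonic hgi z hz)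
  · intro z hz
    have : z ∉ ball (0 : ℂ) R := by
      rw [mem_ball_zero_iff, mem_sphere_zero_iff_norm.1 hz]; exact lt_irrefl _
    simp only [hv, if_neg this]

end Vale.Agent.P167.BVP
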