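import Vale.Agent.P167.BVP.Liou

/-!
# P167, block BVP: Liouville's theorem with logarithmic singularities, conclusion
-/

open Set Metric Filter Topology InnerProductSpace Complex Real

namespace Vale.Agent.P167.BVP

theorem eventually_notMem (K : Finset ℂ) (x : ℂ) : ∀ᶠ w in 𝓝[≠] x, w ∉ K := by
  classical
  have h1 : (K.erase x : Set ℂ).Finite := (K.erase x).finite_toSet
  have h2 : ∀ᶠ w in 𝓝 x, w ∉ (K.erase x : Set ℂ) :=
    h1.isClosed.isOpen_compl.mem_nhds (by simp)
  filter_upwards [nhdsWithin_le_nhds h2, self_mem_nhdsWithin] with w hw hwz hwK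
  exact hw (Finset.mem_coe.2 (Finset.mem_erase.2 ⟨hwz, hwK⟩))

/-- The residue. -/
theorem exists_residue {v : ℂ → ℝ} {x : ℂ} (hv : ∀ᶠ z in 𝓝[≠] x, HarmonicAt v z)
    (hl : LogAt v x) : ∃ a : ℂ, (fun z => dz v z - a / (z - x)) =o[𝓝[≠] x] fun z => (z - x)⁻¹ := by
  obtain ⟨C, hC, hb⟩ := dz_bound hv hl
  set h : ℂ → ℂ := fun z => (z - x) * dz v z with hh
  have hd : ∀ᶠ z in 𝓝[≠] x, DifferentiableAt ℂ h z := by
    filter_upwards [hv] with z hz
    exact ((differentiableAt_id).sub_const x).mul (dz_analytic hz).differentiableAt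
  have hnorm : Tendsto (fun z : ℂ => ‖z - x‖) (𝓝[≠] x) (𝓝[>] 0) := by
    rw [tendsto_nhdsWithin_iff]
    refine ⟨?_, ?_⟩
    · have h2 : Continuous fun w : ℂ => ‖w - x‖ := by fun_prop
      have := (h2.tendsto x).mono_left (nhdsWithin_le_nhds (s := {x}ᶜ))
      simpa using this
    · filter_upwards [self_mem_nhdsWithin] with w hw
      exact norm_pos_iff.2 (sub_ne_zero.2 hw)
  have hlog := (tendsto_mul_log.comp hnorm).const_mul C
  rw [mul_zero] at hlog
  have hzero : Tendsto (fun z => (z - x) * (h z - h x)) (𝓝[≠] x) (𝓝 0) := by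
    refine squeeze_zero_norm' ?_ hlog
    filter_upwards [hb, self_mem_nhdsWithin] with z hz hzx
    have hz0 : 0 < ‖z - x‖ := norm_pos_iff.2 (sub_ne_zero.2 hzx)
    have h1 : h x = 0 := by simp [hh]
    rw [h1, sub_zero, hh]
    simp only [norm_mul, Function.comp]
    have h2 : ‖z - x‖ * ‖dz v z‖ ≤ C * (1 + |Real.log ‖z - x‖|) := by
      calc ‖z - x‖ * ‖dz v z‖ ≤ ‖z - x‖ * (C * (1 + |Real.log ‖z - x‖|) / ‖z - x‖) := by gcongr
        _ = C * (1 + |Real.log ‖z - x‖|) := by field_simp
    calc ‖z - x‖ * (‖z - x‖ * ‖dz v z‖) ≤ ‖z - x‖ * (C * (1 + |Real.log ‖z - x‖|)) := by gcongr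
      _ = C * (‖z - x‖ * (1 + |Real.log ‖z - x‖|)) := by ring
  have ho : (fun z => h z - h x) =o[𝓝[≠] x] fun z => (z - x)⁻¹ := by
    rw [Asymptotics.isLittleO_iff_tendsto']
    · refine hzero.congr fun z => ?_
      rw [div_inv_eq_mul, mul_comm]
    · filter_upwards [self_mem_nhdsWithin] with z hz h0
      exact absurd h0 (inv_ne_zero (sub_ne_zero.2 hz))
  have hlim := Complex.tendsto_limUnder_of_differentiable_on_punctured_nhds_of_isLittleO hd ho
  set a : ℂ := limUnder (𝓝[≠] x) h with ha
  refine ⟨a, ?_⟩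
  rw [Asymptotics.isLittleO_iff_tendsto']
  · have h3 : Tendsto (fun z => h z - a) (𝓝[≠] x) (𝓝 0) := by
      have := hlim.sub_const a
      rwa [sub_self] at this
    refine h3.congr' ?_
    filter_upwards [self_mem_nhdsWithin] with z hz
    have hzx : z - x ≠ 0 := sub_ne_zero.2 hz
    rw [div_inv_eq_mul, hh]
    field_simp
  · filter_upwards [self_mem_nhdsWithin] with z hz h0
    exact absurd h0 (inv_ne_zero (sub_ne_zero.2 hz))

/-- **Liouville's theorem with logarithmic singularities.** -/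
theorem liouville_log {v : ℂ → ℝ} {K : Finset ℂ} (hv : ∀ z ∉ K, HarmonicAt v z)
    (hl : ∀ x ∈ K, LogAt v x) (hi : LogInf v) :
    ∃ (c : ℝ) (a : ℂ → ℝ), ∀ z ∉ K, v z = c + ∑ x ∈ K, a x * Real.log ‖z - x‖ := by
  classical
  have hvx : ∀ x, ∀ᶠ z in 𝓝[≠] x, HarmonicAt v z := fun x =>
    (eventually_notMem K x).mono fun z hz => hv z hz
  have hres : ∀ x, ∃ a : ℂ, x ∈ K → (fun z => dz v z - a / (z - x)) =o[𝓝[≠] x] fun z => (z - x)⁻¹ := by
    intro x
    by_cases hx : x ∈ K
    · obtain ⟨a, ha⟩ := exists_residue (hvx x) (hl x hx)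
      exact ⟨a, fun _ => ha⟩
    · exact ⟨0, fun h => absurd h hx⟩
  choose a ha using hres
  -- the entire function
  have hden : ∀ z ∉ K, ∀ x ∈ K, z - x ≠ 0 := fun z hz x hx =>
    sub_ne_zero.2 fun h => hz (h ▸ hx)
  have hEd : ∀ z ∉ K, DifferentiableAt ℂ (fun z => dz v z - ∑ x ∈ K, a x / (z - x)) z := by
    intro z hz
    refine (dz_analytic (hv z hz)).differentiableAt.sub ?_
    refine DifferentiableAt.fun_sum fun x hx => ?_
    exact (differentiableAt_const _).div (differentiableAt_id.sub_const x) (hden z hz x hx)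
  have hEo : ∀ x ∈ K, (fun z => dz v z - ∑ y ∈ K, a y / (z - y)) =o[𝓝[≠] x]
      fun z => (z - x)⁻¹ := by
    intro x hx
    have h1 : (fun z => ∑ y ∈ K.erase x, a y / (z - y)) =o[𝓝[≠] x] fun z => (z - x)⁻¹ := by
      refine Asymptotics.IsLittleO.fun_sum fun y hy => ?_
      have hyx : x - y ≠ 0 := sub_ne_zero.2 (Finset.ne_of_mem_erase hy).symm
      have h2 : Tendsto (fun z : ℂ => a y / (z - y)) (𝓝[≠] x) (𝓝 (a y / (x - y))) := by
        refine Tendsto.mono_left ?_ nhdsWithin_le_nhds
        exact (continuousAt_const.div (continuousAt_id.sub continuousAt_const) hyx).tendsto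
      have h3 : (fun z : ℂ => a y / (z - y)) =O[𝓝[≠] x] fun _ => (1 : ℂ) :=
        h2.isBigO_one ℂ
      have h4 : Tendsto (fun w : ℂ => w - x) (𝓝[≠] x) (𝓝[≠] 0) := by
        rw [tendsto_nhdsWithin_iff]
        refine ⟨?_, ?_⟩
        · have h2 : Continuous fun w : ℂ => w - x := by fun_prop
          have := (h2.tendsto x).mono_left (nhdsWithin_le_nhds (s := {x}ᶜ))
          simpa using this
        · filter_upwards [self_mem_nhdsWithin] with w hw
          exact sub_ne_zero.2 hw
      have h6 : Tendsto (fun x : ℂ ↦ ‖x⁻¹‖) (𝓝[≠] 0) atTop :=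
        tendsto_norm_cobounded_atTop.comp Filter.tendsto_inv₀_nhdsNE_zero
      have h7 : (fun _ : ℂ => (1 : ℂ)) =o[𝓝[≠] x] fun z => (z - x)⁻¹ :=
        Asymptotics.isLittleO_const_left.2 (Or.inr (h6.comp h4))
      exact h3.trans_isLittleO h7
    refine ((ha x hx).sub h1).congr_left fun z => ?_
    rw [← Finset.add_sum_erase K (fun y => a y / (z - y)) hx]
    ring
  obtain ⟨E', hE'd, hE'⟩ := entire_of_bounded hEd hEo
  have hKfar : ∃ R : ℝ, ∀ z : ℂ, R ≤ ‖z‖ → z ∉ K := by
    obtain ⟨R, hR⟩ := (K.finite_toSet.isBounded).subset_closedBall (0 : ℂ)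
    refine ⟨R + 1, fun z hz hzK => ?_⟩
    have := hR (Finset.mem_coe.2 hzK)
    rw [mem_closedBall_zero_iff] at this
    linarith
  obtain ⟨R₀, hR₀⟩ := hKfar
  have hE'0 : Tendsto E' (cocompact ℂ) (𝓝 0) := by
    have h1 := dz_inf (R₀ := R₀) (fun z hz => hv z (hR₀ z hz)) hi
    have h2 : Tendsto (fun z : ℂ => ∑ x ∈ K, a x / (z - x)) (cocompact ℂ) (𝓝 0) := by
      have : Tendsto (fun z : ℂ => ∑ x ∈ K, a x / (z - x)) (cocompact ℂ) (𝓝 (∑ x ∈ K, 0)) := by
        refine tendsto_finsetSum _ fun x _ => ?_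
        have h3 : Tendsto (fun z : ℂ => z - x) (cocompact ℂ) (cocompact ℂ) :=
          (Homeomorph.subRight x).isClosedEmbedding.tendsto_cocompact
        have h4 : Tendsto (fun z : ℂ => z⁻¹) (cocompact ℂ) (𝓝 0) := by
          rw [← Metric.cobounded_eq_cocompact]; exact Filter.tendsto_inv₀_cobounded
        have := (h4.comp h3).const_mul (a x)
        rw [mul_zero] at this
        exact this.congr fun z => rfl
      simpa using this
    have h3 := h1.sub h2
    rw [sub_zero] at h3
    refine h3.congr' ?_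
    have h9 := (tendsto_norm_cocompact_atTop (E := ℂ)).eventually_ge_atTop R₀
    filter_upwards [h9] with z hz
    exact (hE' z (hR₀ z hz)).symm
  have hzero : ∀ z ∉ K, dz v z = ∑ x ∈ K, a x / (z - x) := by
    intro z hz
    have h1 := hE'd.apply_eq_of_tendsto_cocompact z hE'0
    rw [hE' z hz] at h1
    exact sub_eq_zero.1 h1
  -- subtract the real parts of the residues
  set w : ℂ → ℝ := fun z => v z - ∑ x ∈ K, (a x).re * Real.log ‖z - x‖ with hw
  have hlogh : ∀ x z : ℂ, z ≠ x → HarmonicAt (fun w : ℂ => Real.log ‖w - x‖) z :=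
    fun x z h => harmonicAt_log_sub h
  have hsumh : ∀ z ∉ K, HarmonicAt (fun z : ℂ => ∑ x ∈ K, (a x).re * Real.log ‖z - x‖) z := by
    intro z hz
    have : ∀ S : Finset ℂ, S ⊆ K → HarmonicAt (fun z : ℂ => ∑ x ∈ S, (a x).re * Real.log ‖z - x‖) z := by
      intro S
      induction S using Finset.induction_on with
      | empty => intro _; simp only [Finset.sum_empty]; exact harmonicAt_const 0 z
      | insert x S hxS ih =>
        intro hS
        have h1 := (hlogh x z fun h => hz (h ▸ hS (Finset.mem_insert_self _ _))).const_smul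
          (c := (a x).re)
        have h2 := ih fun y hy => hS (Finset.mem_insert_of_mem hy)
        refine (harmonicAt_congr_nhds (Eventually.of_forall fun y => ?_)).1 (h1.add h2)
        simp [Finset.sum_insert hxS]
    exact this K le_rfl
  have hwh : ∀ z ∉ K, HarmonicAt w z := fun z hz => harmonicAt_sub' (hv z hz) (hsumh z hz)
  have hdlog : ∀ x z : ℂ, z ≠ x → HasFDerivAt (fun w : ℂ => Real.log ‖w - x‖)
      (Complex.reCLM.comp ((ContinuousLinearMap.toSpanSingleton ℂ ((z - x)⁻¹)).restrictScalars ℝ)) z := by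
    intro x z hzx
    have hne : z - x ≠ 0 := sub_ne_zero.2 hzx
    -- multiply by a constant so that the logarithm is differentiable
    set κ : ℂ := (z - x)⁻¹ with hκ
    have h1 : HasDerivAt (fun w : ℂ => Complex.log (κ * (w - x))) ((z - x)⁻¹) z := by
      have h2 : HasDerivAt (fun w : ℂ => κ * (w - x)) κ z := by
        simpa using ((hasDerivAt_id z).sub_const x).const_mul κ
      have h3 : κ * (z - x) = 1 := inv_mul_cancel₀ hne
      have h4 := h2.clog (by rw [h3]; exact Complex.one_mem_slitPlane)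
      rw [h3, div_one] at h4
      exact h4
    have h5 : HasFDerivAt (fun w : ℂ => Complex.log (κ * (w - x)))
        ((ContinuousLinearMap.toSpanSingleton ℂ ((z - x)⁻¹)).restrictScalars ℝ) z :=
      h1.hasFDerivAt.restrictScalars ℝ
    have h6 := Complex.reCLM.hasFDerivAt.comp z h5
    have h7 : HasFDerivAt (fun w : ℂ => (Complex.log (κ * (w - x))).re - Real.log ‖κ‖)
      (Complex.reCLM.comp ((ContinuousLinearMap.toSpanSingleton ℂ ((z - x)⁻¹)).restrictScalars ℝ)) z :=
      h6.sub_const _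
    refine h7.congr_of_eventuallyEq ?_
    have h8 : ∀ᶠ w in 𝓝 z, w ≠ x := isOpen_ne.mem_nhds hzx
    filter_upwards [h8] with w hwx
    have hκ0 : κ ≠ 0 := inv_ne_zero hne
    rw [Complex.log_re, norm_mul, Real.log_mul (norm_ne_zero_iff.2 hκ0)
      (norm_ne_zero_iff.2 (sub_ne_zero.2 hwx))]
    ring
  have hwd : ∀ z ∉ K, ∀ ζ : ℂ, fderiv ℝ w z ζ = (∑ x ∈ K, I * (a x).im / (z - x) * ζ).re := by
    intro z hz ζ
    have h1 : HasFDerivAt v (fderiv ℝ v z) z := ((hv z hz).1.differentiableAt (by norm_num)).hasFDerivAt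
    have h2 : HasFDerivAt (fun z : ℂ => ∑ x ∈ K, (a x).re * Real.log ‖z - x‖)
        (∑ x ∈ K, (a x).re • (Complex.reCLM.comp
          ((ContinuousLinearMap.toSpanSingleton ℂ ((z - x)⁻¹)).restrictScalars ℝ))) z := by
      refine HasFDerivAt.fun_sum fun x hx => ?_
      exact (hdlog x z fun h => hz (h ▸ hx)).const_mul _
    have h3 := (h1.sub h2).fderiv
    have h4 : fderiv ℝ w z = _ := h3
    rw [h4, sub_apply, fderiv_eq_dz, hzero z hz, sum_apply,
      Finset.sum_mul, Complex.re_sum, Complex.re_sum, ← Finset.sum_sub_distrib]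
    refine Finset.sum_congr rfl fun x _ => ?_
    have h5 : a x = (a x).re + (a x).im * I := (Complex.re_add_im (a x)).symm
    have h6 : a x / (z - x) * ζ = (a x).re * ((z - x)⁻¹ * ζ) + I * (a x).im / (z - x) * ζ := by
      conv_lhs => rw [h5]
      ring
    rw [h6, Complex.add_re, Complex.re_ofReal_mul]
    simp
    ring
  -- the imaginary parts of the residues vanish
  have him : ∀ x ∈ K, (a x).im = 0 := by
    intro x hx
    -- a small radius without other points of `K`
    obtain ⟨d, hd, hdK⟩ : ∃ d : ℝ, 0 < d ∧ ∀ y ∈ K, y ≠ x → d ≤ ‖x - y‖ := by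
      have h1 := eventually_notMem K x
      obtain ⟨d, hd, hsub⟩ := Metric.mem_nhdsWithin_iff.1 h1
      refine ⟨d, hd, fun y hy hyx => ?_⟩
      by_contra hlt
      push Not at hlt
      have : y ∈ ball x d ∩ {x}ᶜ := ⟨by rw [mem_ball, dist_eq_norm, norm_sub_rev]; exact hlt, hyx⟩
      exact hsub this hy
    set B : ℝ := ∑ y ∈ K.erase x, |(a y).im| * (2 / d) with hB
    have hkey : ∀ r : ℝ, 0 < r → r < d / 2 → |(a x).im| ≤ r * B := by
      intro r hr hrd
      set φ : ℝ → ℝ := fun θ => w (x + r * Complex.exp (θ * I)) with hφ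
      have hnot : ∀ θ : ℝ, x + r * Complex.exp (θ * I) ∉ K := by
        intro θ hmem
        have hne : x + r * Complex.exp (θ * I) ≠ x := by
          intro h
          have h1 : (r : ℂ) * Complex.exp (θ * I) = 0 := by
            have := sub_eq_zero.2 h; simpa using this
          rcases mul_eq_zero.1 h1 with h2 | h2
          · exact hr.ne' (by exact_mod_cast h2)
          · exact Complex.exp_ne_zero _ h2
        have h3 := hdK _ hmem hne
        have h4 : ‖x - (x + r * Complex.exp (θ * I))‖ = r := by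
          rw [sub_add_cancel_left, norm_neg, norm_mul, Complex.norm_exp_ofReal_mul_I, mul_one,
            Complex.norm_real, Real.norm_eq_abs, abs_of_pos hr]
        linarith
      have hcd : ∀ θ : ℝ, HasDerivAt (fun θ : ℝ => x + r * Complex.exp (θ * I))
          (r * (Complex.exp (θ * I) * I)) θ := by
        intro θ
        have h1 : HasDerivAt (fun θ : ℝ => (θ : ℂ) * I) I θ := by
          simpa using (Complex.ofRealCLM.hasDerivAt (x := θ)).mul_const I
        have h2 : HasDerivAt (fun θ : ℝ => Complex.exp (θ * I)) (Complex.exp (θ * I) * I) θ := h1.cexp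
        simpa using (h2.const_mul (r : ℂ)).const_add x
      have hφd : ∀ θ : ℝ, HasDerivAt φ (fderiv ℝ w (x + r * Complex.exp (θ * I))
          (r * (Complex.exp (θ * I) * I))) θ := by
        intro θ
        have h1 : HasFDerivAt w (fderiv ℝ w (x + r * Complex.exp (θ * I)))
            (x + r * Complex.exp (θ * I)) :=
          ((hwh _ (hnot θ)).1.differentiableAt (by norm_num)).hasFDerivAt
        exact h1.comp_hasDerivAt θ (hcd θ)
      have hper : φ 0 = φ (2 * π) := by
        simp only [hφ]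
        congr 2
        have : Complex.exp ((2 * π : ℝ) * I) = 1 := by
          push_cast; exact Complex.exp_two_pi_mul_I
        rw [this]; simp
      obtain ⟨θ, -, hθ⟩ := exists_hasDerivAt_eq_zero (f := φ) (f' := fun θ =>
        fderiv ℝ w (x + r * Complex.exp (θ * I)) (r * (Complex.exp (θ * I) * I)))
        (by positivity : (0 : ℝ) < 2 * π)
        (fun θ _ => (hφd θ).continuousAt.continuousWithinAt) hper (fun θ _ => hφd θ)
      rw [hwd _ (hnot θ), Complex.re_sum, ← Finset.add_sum_erase K _ hx] at hθ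
      set ζ : ℂ := r * Complex.exp (θ * I) with hζ
      have hζn : ‖ζ‖ = r := by
        rw [hζ, norm_mul, Complex.norm_exp_ofReal_mul_I, mul_one,
            Complex.norm_real, Real.norm_eq_abs, abs_of_pos hr]
      have hζ0 : ζ ≠ 0 := by rw [← norm_pos_iff, hζn]; exact hr
      have hmain : (I * (a x).im / (x + ζ - x) * (r * (Complex.exp (θ * I) * I))).re = -(a x).im := by
        have e1 : (r : ℂ) * (Complex.exp (θ * I) * I) = ζ * I := by rw [hζ]; ring
        rw [e1, add_sub_cancel_left]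
        have e2 : I * ((a x).im : ℂ) / ζ * (ζ * I) = -((a x).im : ℂ) := by
          field_simp
          rw [I_sq]; ring
        rw [e2]; simp
      rw [hmain] at hθ
      have hrest : |∑ y ∈ K.erase x, (I * (a y).im / (x + ζ - y) *
          (r * (Complex.exp (θ * I) * I))).re| ≤ r * B := by
        rw [hB, Finset.mul_sum]
        refine (Finset.abs_sum_le_sum_abs _ _).trans (Finset.sum_le_sum fun y hy => ?_)
        have hyx := hdK y (Finset.mem_of_mem_erase hy) (Finset.ne_of_mem_erase hy)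
        have h1 : d / 2 ≤ ‖x + ζ - y‖ := by
          have e3 : x - y = (x + ζ - y) - ζ := by ring
          have h2 : ‖x - y‖ ≤ ‖x + ζ - y‖ + ‖ζ‖ := by
            conv_lhs => rw [e3]
            exact norm_sub_le _ _
          linarith
        refine (Complex.abs_re_le_norm _).trans ?_
        rw [norm_mul, norm_div, norm_mul, norm_I, one_mul, Complex.norm_real, Real.norm_eq_abs,
          norm_mul, norm_mul, norm_I, mul_one, Complex.norm_exp_ofReal_mul_I, mul_one,
          Complex.norm_real, Real.norm_eq_abs, abs_of_pos hr]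
        have h3 : 0 < ‖x + ζ - y‖ := by linarith
        calc |(a y).im| / ‖x + ζ - y‖ * r ≤ |(a y).im| / (d / 2) * r := by gcongr
          _ = r * (|(a y).im| * (2 / d)) := by field_simp
      have h4 : (a x).im = ∑ y ∈ K.erase x, (I * (a y).im / (x + ζ - y) *
          (r * (Complex.exp (θ * I) * I))).re := by linarith
      rw [h4]
      exact hrest
    have hB0 : Tendsto (fun r : ℝ => r * B) (𝓝[>] 0) (𝓝 0) := by
      have : Continuous fun r : ℝ => r * B := by fun_prop
      have h1 := (this.tendsto 0).mono_left (nhdsWithin_le_nhds (s := Ioi 0))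
      simpa using h1
    have h5 : |(a x).im| ≤ 0 := by
      refine ge_of_tendsto hB0 ?_
      have h6 : ∀ᶠ r : ℝ in 𝓝[>] 0, r < d / 2 :=
        nhdsWithin_le_nhds (eventually_lt_nhds (by positivity))
      filter_upwards [self_mem_nhdsWithin, h6] with r hr hr2 using hkey r hr hr2
    exact abs_eq_zero.1 (le_antisymm h5 (abs_nonneg _))
  -- so `w` is constant
  have hconn : IsPreconnected ((K : Set ℂ)ᶜ) :=
    (K.countable_toSet.isConnected_compl_of_one_lt_rank (by simp)).isPreconnected
  have hopen : IsOpen ((K : Set ℂ)ᶜ) := K.finite_toSet.isClosed.isOpen_compl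
  have hconst : ∃ c, ∀ z ∈ ((K : Set ℂ)ᶜ), w z = c := by
    refine hopen.exists_is_const_of_fderiv_eq_zero (𝕜 := ℝ) (f := w) hconn ?_ ?_
    · intro z hz
      exact ((hwh z hz).1.differentiableAt (by norm_num)).differentiableWithinAt
    · intro z hz
      ext ζ
      rw [hwd z hz ζ]
      have : ∑ x ∈ K, I * ((a x).im : ℂ) / (z - x) * ζ = 0 :=
        Finset.sum_eq_zero fun x hx => by rw [him x hx]; simp
      rw [this]; simp
  obtain ⟨c, hc⟩ := hconst
  refine ⟨c, fun x => (a x).re, fun z hz => ?_⟩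
  have h1 := hc z hz
  simp only [hw] at h1
  linarith

end Vale.Agent.P167.BVP
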