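import Vale.Agent.P167.BVP.Refl
import Vale.Agent.P167.BVP.Liou2
import Vale.Agent.P153.R2.L1.HRefl

/-!
# P167, block BVP: even extensions, the Neumann problem in the half-plane
-/

open Set Metric Filter Topology InnerProductSpace Complex Real
open scoped ComplexConjugate

namespace Vale.Agent.P167.BVP

/-- `v` (given in the open upper half-plane) extends to an even harmonic function near the real
point `x`. -/
def EvenExt (v : ℂ → ℝ) (x : ℝ) : Prop :=
  ∃ u : ℂ → ℝ, HarmonicAt u x ∧ (∀ᶠ z in 𝓝 (x : ℂ), u (conj z) = u z) ∧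
    ∀ᶠ z in 𝓝 (x : ℂ), 0 < z.im → v z = u z

theorem conj_tendsto (x : ℝ) : Tendsto (fun z : ℂ => conj z) (𝓝 (x : ℂ)) (𝓝 (x : ℂ)) := by
  have := Complex.continuous_conj.tendsto (x : ℂ)
  rwa [conj_ofReal] at this

theorem upper_neBot (x : ℝ) : (𝓝[{z : ℂ | 0 < z.im}] (x : ℂ)).NeBot := by
  rw [← mem_closure_iff_nhdsWithin_neBot, Metric.mem_closure_iff]
  intro ε hε
  refine ⟨x + (ε / 2 : ℝ) * I, ?_, ?_⟩
  · simp [hε]
  · rw [dist_eq_norm]
    simp only [sub_add_cancel_left, norm_neg, norm_mul, norm_real, Real.norm_eq_abs, norm_I,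
      mul_one]
    rw [abs_of_pos (by positivity)]
    linarith

/-- The Neumann problem in the half-plane with logarithmic singularities. -/
theorem half_log {v : ℂ → ℝ} {K : Finset ℝ} (hh : ∀ z : ℂ, 0 < z.im → HarmonicAt v z)
    (he : ∀ x : ℝ, x ∉ K → EvenExt v x)
    (hl : ∀ x ∈ K, ∃ C : ℝ, ∀ᶠ z in 𝓝 (x : ℂ), 0 < z.im → |v z| ≤ C * (1 + |Real.log ‖z - x‖|))
    (hi : ∃ C R : ℝ, ∀ z : ℂ, 0 < z.im → R ≤ ‖z‖ → |v z| ≤ C * (1 + Real.log ‖z‖)) :
    ∃ (c : ℝ) (a : ℝ → ℝ), ∀ z : ℂ, 0 < z.im → v z = c + ∑ x ∈ K, a x * Real.log ‖z - x‖ := by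
  classical
  choose! u hu1 hu2 hu3 using he
  -- the even extension
  set w : ℂ → ℝ := fun z => if 0 < z.im then v z else if z.im < 0 then v (conj z)
    else u z.re z with hw
  have hwpos : ∀ z : ℂ, 0 < z.im → w z = v z := fun z hz => by simp [hw, hz]
  have hwneg : ∀ z : ℂ, z.im < 0 → w z = v (conj z) := fun z hz => by
    simp [hw, hz, not_lt.mpr hz.le]
  have hw0 : ∀ x : ℝ, w x = u x x := fun x => by simp [hw]
  -- two local extensions agree at nearby real points
  have hwu : ∀ x : ℝ, x ∉ K → ∀ᶠ z in 𝓝 (x : ℂ), w z = u x z := by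
    intro x hx
    have hcont : ∀ᶠ z in 𝓝 (x : ℂ), HarmonicAt (u x) z := (hu1 x hx).eventually
    have hKev : ∀ᶠ z : ℂ in 𝓝 (x : ℂ), z.re ∉ K := by
      have h1 : ∀ᶠ t : ℝ in 𝓝 x, t ∉ (K : Set ℝ) :=
        K.finite_toSet.isClosed.isOpen_compl.mem_nhds (by simpa using hx)
      have h2 : Tendsto (fun z : ℂ => z.re) (𝓝 (x : ℂ)) (𝓝 x) := by
        have := Complex.continuous_re.tendsto (x : ℂ); rwa [ofReal_re] at this
      exact (h2.eventually h1).mono fun z hz => by simpa using hz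
    have h3 := hu3 x hx
    have h3' := (conj_tendsto x).eventually h3
    have h2 := hu2 x hx
    have h4 : ∀ᶠ z in 𝓝 (x : ℂ), ∀ᶠ y in 𝓝 z, 0 < y.im → v y = u x y := h3.eventually_nhds
    filter_upwards [h3, h3', h2, hcont, hKev, h4] with z a1 a2 a3 a4 a5 a6
    rcases lt_trichotomy z.im 0 with h | h | h
    · rw [hwneg z h, a2 (by simpa using h), a3]
    · have hz : z = (z.re : ℂ) := by apply Complex.ext <;> simp [h]
      rw [hz, hw0]
      -- both are limits of `v`
      have := upper_neBot z.re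
      have b1 : Tendsto v (𝓝[{y : ℂ | 0 < y.im}] (z.re : ℂ)) (𝓝 (u z.re z.re)) := by
        have c1 : ContinuousAt (u z.re) (z.re : ℂ) := (hu1 z.re a5).1.continuousAt
        refine (c1.tendsto.mono_left nhdsWithin_le_nhds).congr' ?_
        filter_upwards [nhdsWithin_le_nhds (hu3 z.re a5), self_mem_nhdsWithin] with y hy1 hy2
        exact (hy1 hy2).symm
      have b2 : Tendsto v (𝓝[{y : ℂ | 0 < y.im}] (z.re : ℂ)) (𝓝 (u x z.re)) := by
        rw [hz] at a4 a6
        have c1 : ContinuousAt (u x) (z.re : ℂ) := a4.1.continuousAt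
        refine (c1.tendsto.mono_left nhdsWithin_le_nhds).congr' ?_
        filter_upwards [nhdsWithin_le_nhds a6, self_mem_nhdsWithin] with y hy1 hy2
        exact (hy1 hy2).symm
      exact tendsto_nhds_unique b1 b2
    · rw [hwpos z h, a1 h]
  set K' : Finset ℂ := K.image (fun x : ℝ => (x : ℂ)) with hK'
  have hmemK' : ∀ x : ℝ, (x : ℂ) ∈ K' ↔ x ∈ K := by
    intro x
    rw [hK', Finset.mem_image]
    constructor
    · rintro ⟨y, hy, hyx⟩
      rwa [← Complex.ofReal_injective hyx]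
    · intro hx; exact ⟨x, hx, rfl⟩
  have hwh : ∀ z ∉ K', HarmonicAt w z := by
    intro z hz
    rcases lt_trichotomy z.im 0 with h | h | h
    · have h1 : HarmonicAt v (conj z) := hh _ (by simpa using h)
      refine (harmonicAt_congr_nhds ?_).2 (harmonicAt_conj h1)
      have h2 : ∀ᶠ y : ℂ in 𝓝 z, y.im < 0 :=
        (isOpen_lt Complex.continuous_im continuous_const).mem_nhds h
      filter_upwards [h2] with y hy using hwneg y hy
    · have hzr : z = (z.re : ℂ) := by apply Complex.ext <;> simp [h]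
      rw [hzr] at hz ⊢
      rw [hmemK'] at hz
      exact (harmonicAt_congr_nhds (hwu z.re hz)).2 (hu1 z.re hz)
    · refine (harmonicAt_congr_nhds ?_).2 (hh z h)
      have h2 : ∀ᶠ y : ℂ in 𝓝 z, 0 < y.im :=
        (isOpen_lt continuous_const Complex.continuous_im).mem_nhds h
      filter_upwards [h2] with y hy using hwpos y hy
  have hnc : ∀ (z : ℂ) (x : ℝ), ‖conj z - x‖ = ‖z - x‖ := by
    intro z x
    have : conj z - (x : ℂ) = conj (z - x) := by simp
    rw [this, norm_conj]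
  have hwl : ∀ x ∈ K', LogAt w x := by
    intro x' hx'
    obtain ⟨x, hx, rfl⟩ := Finset.mem_image.1 hx'
    obtain ⟨C, hC⟩ := hl x hx
    -- real points: by continuity
    have hreal : ∀ᶠ y : ℝ in 𝓝[≠] x, |w y| ≤ C * (1 + |Real.log ‖(y : ℂ) - x‖|) := by
      have h1 : ∀ᶠ y : ℂ in 𝓝 (x : ℂ), ∀ᶠ z in 𝓝 y, 0 < z.im → |v z| ≤ C * (1 + |Real.log ‖z - x‖|) :=
        hC.eventually_nhds
      have h2 : Tendsto (fun y : ℝ => (y : ℂ)) (𝓝[≠] x) (𝓝 (x : ℂ)) :=
        (Complex.continuous_ofReal.tendsto x).mono_left nhdsWithin_le_nhds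
      have h3 : ∀ᶠ y : ℝ in 𝓝[≠] x, y ∉ K := by
        have h5 : (K.erase x : Set ℝ).Finite := (K.erase x).finite_toSet
        have h6 : ∀ᶠ w in 𝓝 x, w ∉ (K.erase x : Set ℝ) :=
          h5.isClosed.isOpen_compl.mem_nhds (by simp)
        filter_upwards [nhdsWithin_le_nhds h6, self_mem_nhdsWithin] with w hw hwz hwK
        exact hw (Finset.mem_coe.2 (Finset.mem_erase.2 ⟨hwz, hwK⟩))
      filter_upwards [h2.eventually h1, h3, self_mem_nhdsWithin] with y hy1 hy2 hy3
      have hyx : (y : ℂ) - x ≠ 0 := by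
        rw [sub_ne_zero]; exact fun h => hy3 (Complex.ofReal_injective h)
      have := upper_neBot y
      have b1 : Tendsto (fun z => |v z|) (𝓝[{z : ℂ | 0 < z.im}] (y : ℂ)) (𝓝 |w y|) := by
        have c1 : ContinuousAt w (y : ℂ) := (hwh _ (by rwa [hmemK'])).1.continuousAt
        refine ((c1.abs).tendsto.mono_left nhdsWithin_le_nhds).congr' ?_
        filter_upwards [self_mem_nhdsWithin] with z hz
        rw [hwpos z hz]
      have b2 : Tendsto (fun z : ℂ => C * (1 + |Real.log ‖z - x‖|)) (𝓝[{z : ℂ | 0 < z.im}] (y : ℂ))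
          (𝓝 (C * (1 + |Real.log ‖(y : ℂ) - x‖|))) := by
        have c1 : ContinuousAt (fun z : ℂ => Real.log ‖z - x‖) (y : ℂ) :=
          ContinuousAt.log (by fun_prop) (norm_ne_zero_iff.2 hyx)
        exact ((c1.abs.const_add 1).const_mul C).tendsto.mono_left nhdsWithin_le_nhds
      refine le_of_tendsto_of_tendsto b1 b2 ?_
      filter_upwards [nhdsWithin_le_nhds hy1, self_mem_nhdsWithin] with z hz1 hz2 using hz1 hz2
    rw [eventually_nhdsWithin_iff] at hreal
    have h2 : Tendsto (fun z : ℂ => z.re) (𝓝 (x : ℂ)) (𝓝 x) := by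
      have := Complex.continuous_re.tendsto (x : ℂ); rwa [ofReal_re] at this
    refine ⟨C, ?_⟩
    rw [eventually_nhdsWithin_iff]
    filter_upwards [hC, (conj_tendsto x).eventually hC, h2.eventually hreal] with z a1 a2 a3 hzx
    rcases lt_trichotomy z.im 0 with h | h | h
    · rw [hwneg z h]
      have := a2 (by simpa using h)
      rwa [hnc] at this
    · have hzr : z = (z.re : ℂ) := by apply Complex.ext <;> simp [h]
      have h5 := a3 (by
        intro h6
        apply hzx
        rw [mem_singleton_iff] at h6 ⊢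
        rw [hzr, h6])
      rw [← hzr] at h5
      exact h5
    · rw [hwpos z h]; exact a1 h
  have hwi : LogInf w := by
    obtain ⟨C, R, hC⟩ := hi
    obtain ⟨R', hR'⟩ : ∃ R' : ℝ, ∀ x ∈ K, |x| < R' := by
      obtain ⟨R', h⟩ := (K.finite_toSet.isBounded).subset_closedBall (0 : ℝ)
      refine ⟨R' + 1, fun x hx => ?_⟩
      have := h (Finset.mem_coe.2 hx)
      rw [mem_closedBall_zero_iff, Real.norm_eq_abs] at this
      linarith
    refine ⟨C, max (max (R + 1) R') 1, fun z hz => ?_⟩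
    have hz1 : R + 1 ≤ ‖z‖ := ((le_max_left _ _).trans (le_max_left _ _)).trans hz
    have hz2 : R' ≤ ‖z‖ := ((le_max_right _ _).trans (le_max_left _ _)).trans hz
    have hz3 : 1 ≤ ‖z‖ := (le_max_right _ _).trans hz
    rcases lt_trichotomy z.im 0 with h | h | h
    · rw [hwneg z h]
      have := hC (conj z) (by simpa using h) (by rw [norm_conj]; linarith)
      rwa [norm_conj] at this
    · have hzr : z = (z.re : ℂ) := by apply Complex.ext <;> simp [h]
      have hnr : ‖z‖ = |z.re| := by rw [hzr]; simp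
      have hzK : z.re ∉ K := fun h5 => by have := hR' _ h5; rw [hnr] at hz2; linarith
      have := upper_neBot z.re
      have b1 : Tendsto (fun y => |v y|) (𝓝[{y : ℂ | 0 < y.im}] (z.re : ℂ)) (𝓝 |w z.re|) := by
        have c1 : ContinuousAt w (z.re : ℂ) := (hwh _ (by rwa [hmemK'])).1.continuousAt
        refine ((c1.abs).tendsto.mono_left nhdsWithin_le_nhds).congr' ?_
        filter_upwards [self_mem_nhdsWithin] with y hy
        rw [hwpos y hy]
      have b2 : Tendsto (fun y : ℂ => C * (1 + Real.log ‖y‖)) (𝓝[{y : ℂ | 0 < y.im}] (z.re : ℂ))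
          (𝓝 (C * (1 + Real.log ‖(z.re : ℂ)‖))) := by
        have c1 : ContinuousAt (fun y : ℂ => Real.log ‖y‖) (z.re : ℂ) :=
          ContinuousAt.log (by fun_prop) (by rw [← hzr]; linarith)
        exact ((c1.const_add 1).const_mul C).tendsto.mono_left nhdsWithin_le_nhds
      rw [hzr]
      refine le_of_tendsto_of_tendsto b1 b2 ?_
      have h6 : ∀ᶠ y : ℂ in 𝓝 (z.re : ℂ), R < ‖y‖ :=
        (isOpen_lt continuous_const continuous_norm).mem_nhds (by
          show R < ‖(z.re : ℂ)‖; rw [← hzr]; linarith)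
      filter_upwards [nhdsWithin_le_nhds h6, self_mem_nhdsWithin] with y hy1 hy2
      exact hC y hy2 hy1.le
    · rw [hwpos z h]
      exact hC z h (by linarith)
  obtain ⟨c, a, hca⟩ := liouville_log hwh hwl hwi
  refine ⟨c, fun x => a x, fun z hz => ?_⟩
  have hzK' : z ∉ K' := by
    intro h
    obtain ⟨x, -, hx⟩ := Finset.mem_image.1 h
    rw [← hx, ofReal_im] at hz
    exact lt_irrefl _ hz
  rw [← hwpos z hz, hca z hzK', hK', Finset.sum_image (fun x _ y _ h => Complex.ofReal_injective h)]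

end Vale.Agent.P167.BVP
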