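import Vale.Agent.P167.BVP.Ext

/-!
# P167, block BVP: from a pointwise Neumann condition at the flat sides of a domain to even
extensions in the half-plane
-/

open Set Metric Filter Topology InnerProductSpace Complex Real
open scoped ComplexConjugate

namespace Vale.Agent.P167.BVP

/-- Schwarz reflection for a function which is continuous up to the real axis and real there. -/
theorem schwarz {g : ℂ → ℂ} {x ρ : ℝ} (hc : ContinuousOn g (ball (x : ℂ) ρ ∩ {z | 0 ≤ z.im}))
    (hd : ∀ z ∈ ball (x : ℂ) ρ, 0 < z.im → DifferentiableAt ℂ g z)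
    (hr : ∀ z ∈ ball (x : ℂ) ρ, z.im = 0 → (g z).im = 0) :
    ∃ G : ℂ → ℂ, DifferentiableOn ℂ G (ball (x : ℂ) ρ) ∧
      (∀ z ∈ ball (x : ℂ) ρ, 0 ≤ z.im → G z = g z) ∧
      (∀ z ∈ ball (x : ℂ) ρ, G (conj z) = conj (G z)) := by
  classical
  set B : Set ℂ := ball (x : ℂ) ρ with hB
  have hBconj : ∀ z ∈ B, conj z ∈ B := by
    intro z hz
    rw [hB, mem_ball, dist_eq_norm] at hz ⊢
    have : conj z - (x : ℂ) = conj (z - x) := by simp
    rwa [this, norm_conj]
  set G : ℂ → ℂ := fun z => if 0 ≤ z.im then g z else conj (g (conj z)) with hG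
  have hG1 : ∀ z : ℂ, 0 ≤ z.im → G z = g z := fun z hz => by simp [hG, hz]
  have hG2 : ∀ z : ℂ, z.im < 0 → G z = conj (g (conj z)) := fun z hz => by
    simp [hG, not_le.2 hz]
  have hG2' : ∀ z ∈ B, z.im ≤ 0 → G z = conj (g (conj z)) := by
    intro z hz h
    rcases h.lt_or_eq with h | h
    · exact hG2 z h
    · have hzr : z = (z.re : ℂ) := by apply Complex.ext <;> simp [h]
      rw [hG1 z h.ge]
      have h2 : conj z = z := by rw [hzr]; simp
      rw [h2]
      exact (Complex.conj_eq_iff_im.2 (hr z hz h)).symm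
  have hcont : ContinuousOn G B := by
    have h1 : ContinuousOn G (B ∩ {z | 0 ≤ z.im}) := hc.congr fun z hz => hG1 z hz.2
    have h2 : ContinuousOn G (B ∩ {z | z.im ≤ 0}) := by
      have h3 : ContinuousOn (fun z => conj (g (conj z))) (B ∩ {z | z.im ≤ 0}) := by
        refine Complex.continuous_conj.comp_continuousOn (hc.comp
          Complex.continuous_conj.continuousOn ?_)
        rintro z ⟨hz1, hz2⟩
        exact ⟨hBconj z hz1, by simpa using hz2⟩
      exact h3.congr fun z hz => hG2' z hz.1 hz.2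
    intro z hz
    have hcl1 : IsClosed {z : ℂ | 0 ≤ z.im} := isClosed_le continuous_const Complex.continuous_im
    have hcl2 : IsClosed {z : ℂ | z.im ≤ 0} := isClosed_le Complex.continuous_im continuous_const
    have e : B = (B ∩ {z | 0 ≤ z.im}) ∪ (B ∩ {z | z.im ≤ 0}) := by
      ext w
      constructor
      · intro hw
        rcases le_total 0 w.im with h | h
        · exact Or.inl ⟨hw, h⟩
        · exact Or.inr ⟨hw, h⟩
      · rintro (h | h) <;> exact h.1
    rw [e]
    refine ContinuousWithinAt.union ?_ ?_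
    · by_cases h : 0 ≤ z.im
      · exact h1 z ⟨hz, h⟩
      · refine continuousWithinAt_of_notMem_closure fun hmem => h ?_
        exact (closure_minimal (inter_subset_right) hcl1) hmem
    · by_cases h : z.im ≤ 0
      · exact h2 z ⟨hz, h⟩
      · refine continuousWithinAt_of_notMem_closure fun hmem => h ?_
        exact (closure_minimal (inter_subset_right) hcl2) hmem
  have hdiff : ∀ z ∈ B, z.im ≠ 0 → DifferentiableAt ℂ G z := by
    intro z hz hne
    rcases lt_or_gt_of_ne hne with h | h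
    · have h1 : DifferentiableAt ℂ g (conj z) := hd _ (hBconj z hz) (by simpa using h)
      have h2 := h1.conj_conj
      rw [Complex.conj_conj] at h2
      refine h2.congr_of_eventuallyEq ?_
      have h3 : ∀ᶠ y : ℂ in 𝓝 z, y.im < 0 :=
        (isOpen_lt Complex.continuous_im continuous_const).mem_nhds h
      filter_upwards [h3] with y hy
      rw [hG2 y hy]; rfl
    · refine (hd z hz h).congr_of_eventuallyEq ?_
      have h3 : ∀ᶠ y : ℂ in 𝓝 z, 0 < y.im :=
        (isOpen_lt continuous_const Complex.continuous_im).mem_nhds h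
      filter_upwards [h3] with y hy using hG1 y hy.le
  refine ⟨G, P153.R2.L1.diff_off_line isOpen_ball hcont hdiff, fun z _ hz => hG1 z hz, ?_⟩
  intro z hz
  rcases le_total 0 z.im with h | h
  · rw [hG2' (conj z) (hBconj z hz) (by simpa using h), Complex.conj_conj, hG1 z h]
  · rw [hG1 (conj z) (by simpa using h), hG2' z hz h, Complex.conj_conj]

/-- The point at the signed height `t` over the side through `q` with inner normal `ν`. -/
structure Flat (D : Set ℂ) (q ν : ℂ) (ρ : ℝ) : Prop where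
  norm : ‖ν‖ = 1
  pos : 0 < ρ
  mem : ∀ z ∈ ball q ρ, z ∈ D ↔ 0 < ((z - q) * conj ν).re

/-- The pointwise Neumann condition at `q` with normal `ν`. -/
def NeuAt (W : ℂ → ℝ) (q ν : ℂ) : Prop :=
  Tendsto (fun r : ℝ => (W (q + r * ν) - W q) / r) (𝓝[>] 0) (𝓝 0)

/-- Straightening of a flat side: the even function
`ζ ↦ W (q - i ν (re ζ + i |im ζ|))` is harmonic near `0`. -/
theorem flat_even {D : Set ℂ} {q ν : ℂ} {ρ : ℝ} (hF : Flat D q ν ρ) {W : ℂ → ℝ}
    (hh : ∀ z ∈ D ∩ ball q ρ, HarmonicAt W z)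
    (hc : ContinuousOn W (ball q ρ ∩ {z | 0 ≤ ((z - q) * conj ν).re}))
    (hN : ∀ z ∈ ball q ρ, ((z - q) * conj ν).re = 0 → NeuAt W z ν) :
    ∀ ρ' : ℝ, 0 < ρ' → ρ' < ρ →
    HarmonicOnNhd (fun ζ : ℂ => W (q - I * ν * (ζ.re + |ζ.im| * I))) (ball 0 ρ') := by
  intro ρ' hρ' hρρ'
  have hνν : ν * conj ν = 1 := by
    rw [Complex.mul_conj, Complex.normSq_eq_norm_sq, hF.norm]; norm_num
  have hmap : ∀ ζ : ℂ, ((q - I * ν * (ζ.re + |ζ.im| * I)) - q) * conj ν = |ζ.im| - I * ζ.re := by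
    intro ζ
    have : ((q - I * ν * (ζ.re + |ζ.im| * I)) - q) * conj ν =
        -(I * (ν * conj ν) * (ζ.re + |ζ.im| * I)) := by ring
    rw [this, hνν]
    have : -(I * 1 * (ζ.re + |ζ.im| * I)) = -(I * I) * |ζ.im| - I * ζ.re := by ring
    rw [this, I_mul_I]; ring
  have hre : ∀ ζ : ℂ, (((q - I * ν * (ζ.re + |ζ.im| * I)) - q) * conj ν).re = |ζ.im| := by
    intro ζ; rw [hmap]; simp
  have hnorm : ∀ ζ : ℂ, ‖(q - I * ν * (ζ.re + |ζ.im| * I)) - q‖ = ‖ζ‖ := by
    intro ζ
    have e1 : (q - I * ν * (ζ.re + |ζ.im| * I)) - q = -(I * ν * (ζ.re + |ζ.im| * I)) := by ring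
    rw [e1, norm_neg, norm_mul, norm_mul, norm_I, hF.norm, one_mul, one_mul]
    rw [Complex.norm_eq_sqrt_sq_add_sq, Complex.norm_eq_sqrt_sq_add_sq]
    simp
  have hmem : ∀ ζ ∈ closedBall (0 : ℂ) ρ', (q - I * ν * (ζ.re + |ζ.im| * I)) ∈ ball q ρ := by
    intro ζ hζ
    rw [mem_closedBall_zero_iff] at hζ
    rw [mem_ball, dist_eq_norm, hnorm]; linarith
  have key := refl_harmonic (x₀ := 0) hρ' (u := fun ζ : ℂ => W (q - I * ν * (ζ.re + |ζ.im| * I)))
    ?_ ?_ ?_ ?_
  · simpa using key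
  · simp only [ofReal_zero]
    refine hc.comp ?_ ?_
    · fun_prop
    · intro ζ hζ
      refine ⟨hmem ζ hζ, ?_⟩
      have h9 := hre ζ
      simp only [mem_ofPred_eq, h9]
      exact abs_nonneg _
  · intro ζ hζ hpos
    simp only [ofReal_zero] at hζ
    have h1 := hmem ζ (ball_subset_closedBall hζ)
    have h2 : (q - I * ν * (ζ.re + |ζ.im| * I)) ∈ D := by
      rw [hF.mem _ h1, hre]; exact abs_pos.2 hpos.ne'
    have h3 : HarmonicAt W (q - I * ν * ζ) := by
      have e : (ζ.re : ℂ) + |ζ.im| * I = ζ := by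
        rw [abs_of_pos hpos]; exact Complex.re_add_im ζ
      have := hh _ ⟨h2, h1⟩
      rwa [e] at this
    have h4 : AnalyticAt ℂ (fun y : ℂ => q - I * ν * y) ζ :=
      analyticAt_const.sub (analyticAt_const.mul analyticAt_id)
    refine (harmonicAt_congr_nhds ?_).1 (harmonicAt_comp (g := fun y : ℂ => q - I * ν * y) h3 h4)
    have h5 : ∀ᶠ y : ℂ in 𝓝 ζ, 0 < y.im :=
      (isOpen_lt continuous_const Complex.continuous_im).mem_nhds hpos
    filter_upwards [h5] with y hy
    have e : (y.re : ℂ) + |y.im| * I = y := by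
      rw [abs_of_pos hy]; exact Complex.re_add_im y
    simp only [e]
  · intro ζ _
    simp
  · intro t ht
    rw [sub_zero] at ht
    set q' : ℂ := q - I * ν * t with hq'
    have hq'b : q' ∈ ball q ρ := by
      have := hmem (t : ℂ) (by rw [mem_closedBall_zero_iff]; simpa using ht.le)
      simpa [hq'] using this
    have hq're : ((q' - q) * conj ν).re = 0 := by
      have := hre (t : ℂ)
      simpa [hq'] using this
    have h1 := hN q' hq'b hq're
    unfold Neu
    refine (h1.congr' ?_)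
    filter_upwards [self_mem_nhdsWithin] with r hr
    have hr' : (0 : ℝ) < r := hr
    have e1 : q - I * ν * ((((t : ℂ) + r * I).re : ℂ) + (|((t : ℂ) + r * I).im| : ℝ) * I) = q' + r * ν := by
      have a1 : ((t : ℂ) + r * I).re = t := by simp
      have a2 : ((t : ℂ) + r * I).im = r := by simp
      rw [a1, a2, abs_of_pos hr', hq']
      have : I * ν * ((t : ℂ) + r * I) = I * ν * t + (I * I) * (ν * r) := by ring
      rw [this, I_mul_I]; ring
    have e2 : q - I * ν * ((((t : ℂ)).re : ℂ) + (|((t : ℂ)).im| : ℝ) * I) = q' := by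
      simp [hq']
    simp only [e1, e2]

/-- Data of the conformal map near a real point which is mapped into a flat side. -/
structure MapFlat (D : Set ℂ) (φ : ℂ → ℂ) (x : ℝ) (q ν : ℂ) (ρ : ℝ) : Prop where
  flat : Flat D q ν ρ
  val : φ x = q
  cont : ∃ r > 0, ContinuousOn φ (ball (x : ℂ) r ∩ {z | 0 ≤ z.im})
  diff : ∀ z : ℂ, 0 < z.im → DifferentiableAt ℂ φ z
  up : ∀ z : ℂ, 0 < z.im → φ z ∈ D
  real : ∀ᶠ z in 𝓝 (x : ℂ), z.im = 0 → φ z ∉ D

/-- The straightened even function `ζ ↦ W (q - i ν (re ζ + i |im ζ|))` of a side with the inner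
normal `ν` through `q`. -/
noncomputable def evenAt (W : ℂ → ℝ) (q ν : ℂ) (ζ : ℂ) : ℝ := W (q - I * ν * (ζ.re + |ζ.im| * I))

/-- The straightened map near a real point which is mapped into a flat side. -/
theorem exists_straight {D : Set ℂ} {φ : ℂ → ℂ} {x : ℝ} {q ν : ℂ} {ρ : ℝ}
    (hM : MapFlat D φ x q ν ρ) : ∃ (G : ℂ → ℂ) (r : ℝ), 0 < r ∧
      DifferentiableOn ℂ G (ball (x : ℂ) r) ∧ G x = 0 ∧
      (∀ z ∈ ball (x : ℂ) r, G (conj z) = conj (G z)) ∧
      (∀ z ∈ ball (x : ℂ) r, 0 ≤ z.im → G z = I * ((φ z - q) * conj ν)) ∧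
      (∀ z ∈ ball (x : ℂ) r, 0 ≤ z.im → q - I * ν * G z = φ z) ∧
      ∀ z ∈ ball (x : ℂ) r, 0 < z.im → 0 < (G z).im := by
  have hF := hM.flat
  have hνν : ν * conj ν = 1 := by
    rw [Complex.mul_conj, Complex.normSq_eq_norm_sq, hF.norm]; norm_num
  have hρ := hF.pos
  -- the straightened map
  set g : ℂ → ℂ := fun z => I * ((φ z - q) * conj ν) with hg
  have hgim : ∀ z, (g z).im = ((φ z - q) * conj ν).re := by intro z; simp [hg]
  have hgn : ∀ z, ‖g z‖ = ‖φ z - q‖ := by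
    intro z; rw [hg]; simp only [norm_mul, norm_I, norm_conj, hF.norm]; ring
  have hback : ∀ z, q - I * ν * g z = φ z := by
    intro z
    have : q - I * ν * g z = q - (I * I) * ((φ z - q) * (ν * conj ν)) := by rw [hg]; ring
    rw [this, hνν, I_mul_I]; ring
  obtain ⟨r₁, hr₁, hcφ⟩ := hM.cont
  -- a small disc where `φ` is close to `q`
  have hx : (x : ℂ) ∈ ball (x : ℂ) r₁ ∩ {z | 0 ≤ z.im} := ⟨mem_ball_self hr₁, by simp⟩
  have hcl : ∀ᶠ z in 𝓝[ball (x : ℂ) r₁ ∩ {z | 0 ≤ z.im}] (x : ℂ), φ z ∈ ball q (ρ / 2) := by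
    have h1 := hcφ x hx
    have h2 : ball q (ρ / 2) ∈ 𝓝 (φ x) := by rw [hM.val]; exact ball_mem_nhds _ (by positivity)
    exact h1.eventually h2
  obtain ⟨r₂, hr₂, hsub⟩ := Metric.mem_nhdsWithin_iff.1 hcl
  obtain ⟨r₃, hr₃, hsub₃⟩ := Metric.eventually_nhds_iff_ball.1 hM.real
  set r : ℝ := min r₁ (min r₂ r₃) with hr
  have hrpos : 0 < r := by positivity
  have hb1 : ball (x : ℂ) r ⊆ ball (x : ℂ) r₁ := ball_subset_ball (min_le_left _ _)
  have hb2 : ball (x : ℂ) r ⊆ ball (x : ℂ) r₂ :=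
    ball_subset_ball ((min_le_right _ _).trans (min_le_left _ _))
  have hb3 : ball (x : ℂ) r ⊆ ball (x : ℂ) r₃ :=
    ball_subset_ball ((min_le_right _ _).trans (min_le_right _ _))
  have hclose : ∀ z ∈ ball (x : ℂ) r, 0 ≤ z.im → φ z ∈ ball q (ρ / 2) := fun z hz h =>
    hsub ⟨hb2 hz, hb1 hz, h⟩
  have hcg : ContinuousOn g (ball (x : ℂ) r ∩ {z | 0 ≤ z.im}) := by
    have h1 : ContinuousOn φ (ball (x : ℂ) r ∩ {z | 0 ≤ z.im}) :=
      hcφ.mono (inter_subset_inter_left _ hb1)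
    exact continuousOn_const.mul ((h1.sub continuousOn_const).mul continuousOn_const)
  have hdg : ∀ z ∈ ball (x : ℂ) r, 0 < z.im → DifferentiableAt ℂ g z := by
    intro z _ h
    exact ((hM.diff z h).sub_const q).mul_const _ |>.const_mul I
  have hrg : ∀ z ∈ ball (x : ℂ) r, z.im = 0 → (g z).im = 0 := by
    intro z hz h
    rw [hgim]
    have h1 : φ z ∈ ball q ρ := ball_subset_ball (by linarith) (hclose z hz h.ge)
    refine le_antisymm ?_ ?_
    · have h2 := hsub₃ z (hb3 hz) h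
      rw [hF.mem _ h1] at h2
      exact not_lt.1 h2
    · -- limit of values with positive imaginary part
      have hzr : z = (z.re : ℂ) := by apply Complex.ext <;> simp [h]
      have hne := upper_neBot z.re
      rw [← hzr] at hne
      have h3 : Tendsto (fun y => ((φ y - q) * conj ν).re)
          (𝓝[ball (x : ℂ) r ∩ {y | 0 < y.im}] z) (𝓝 ((φ z - q) * conj ν).re) := by
        have h4 : ContinuousWithinAt φ (ball (x : ℂ) r ∩ {z | 0 ≤ z.im}) z :=
          (hcφ.mono (inter_subset_inter_left _ hb1)) z ⟨hz, h.ge⟩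
        have h5 : ContinuousWithinAt φ (ball (x : ℂ) r ∩ {z | 0 < z.im}) z :=
          h4.mono fun y hy => ⟨hy.1, (show 0 < y.im from hy.2).le⟩
        exact (Complex.continuous_re.tendsto _).comp ((h5.sub_const q).mul_const (conj ν))
      have hne' : (𝓝[ball (x : ℂ) r ∩ {y | 0 < y.im}] z).NeBot := by
        rw [inter_comm, nhdsWithin_inter_of_mem'
          (mem_nhdsWithin_of_mem_nhds (isOpen_ball.mem_nhds hz))]
        exact hne
      refine ge_of_tendsto h3 ?_
      filter_upwards [self_mem_nhdsWithin] with y hy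
      have h6 : φ y ∈ ball q ρ := ball_subset_ball (by linarith) (hclose y hy.1 (show 0 < y.im from hy.2).le)
      exact ((hF.mem _ h6).1 (hM.up y hy.2)).le
  obtain ⟨G, hGd, hG1, hG2⟩ := schwarz hcg hdg hrg
  have hxb : (x : ℂ) ∈ ball (x : ℂ) r := mem_ball_self hrpos
  refine ⟨G, r, hrpos, hGd, ?_, hG2, hG1, ?_, ?_⟩
  · rw [hG1 x hxb (by simp), hg]; simp [hM.val]
  · intro z hz h
    rw [hG1 z hz h, hback]
  · intro z hz hpos
    rw [hG1 z hz hpos.le]
    have h1 : φ z ∈ ball q ρ := ball_subset_ball (by linarith) (hclose z hz hpos.le)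
    rw [hgim]; exact (hF.mem _ h1).1 (hM.up z hpos)

theorem evenExt_of_even {D : Set ℂ} {φ : ℂ → ℂ} {x : ℝ} {q ν : ℂ} {ρ : ℝ}
    (hM : MapFlat D φ x q ν ρ) {W : ℂ → ℝ} (h0 : HarmonicAt (evenAt W q ν) 0) :
    EvenExt (fun z => W (φ z)) x := by
  obtain ⟨G, r, hr, hGd, hG0, hG2, _, hback, hGp⟩ := exists_straight hM
  have hxb : (x : ℂ) ∈ ball (x : ℂ) r := mem_ball_self hr
  have hGan : AnalyticAt ℂ G x := hGd.analyticAt (isOpen_ball.mem_nhds hxb)
  refine ⟨fun z => evenAt W q ν (G z), ?_, ?_, ?_⟩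
  · refine harmonicAt_comp (v := evenAt W q ν) ?_ hGan
    rw [hG0]
    exact h0
  · filter_upwards [isOpen_ball.mem_nhds hxb] with z hz
    rw [hG2 z hz]
    simp [evenAt]
  · filter_upwards [isOpen_ball.mem_nhds hxb] with z hz hpos
    have h2 := hGp z hz hpos
    have e : ((G z).re : ℂ) + |(G z).im| * I = G z := by
      rw [abs_of_pos h2]; exact Complex.re_add_im _
    simp only [evenAt, e, hback z hz hpos.le]

theorem evenExt_of_flat {D : Set ℂ} {φ : ℂ → ℂ} {x : ℝ} {q ν : ℂ} {ρ : ℝ}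
    (hM : MapFlat D φ x q ν ρ) {W : ℂ → ℝ} (hh : ∀ z ∈ D ∩ ball q ρ, HarmonicAt W z)
    (hc : ContinuousOn W (ball q ρ ∩ {z | 0 ≤ ((z - q) * conj ν).re}))
    (hN : ∀ z ∈ ball q ρ, ((z - q) * conj ν).re = 0 → NeuAt W z ν) :
    EvenExt (fun z => W (φ z)) x :=
  evenExt_of_even hM (flat_even hM.flat hh hc hN (ρ / 2) (half_pos hM.flat.pos)
    (half_lt_self hM.flat.pos) 0 (mem_ball_self (half_pos hM.flat.pos)))

end Vale.Agent.P167.BVP
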