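import Vale.Agent.P167.BVP.Flat
import Vale.Agent.P198.W.Weyl

/-!
# P167, block BVP: the fundamental solution `∫ log ‖z‖ Δφ = 2π φ 0`

(Cauchy-Pompeiu and the logarithmic potential, taken from `P071/Bdl/B1.lean`.)
-/

open MeasureTheory Metric Filter Topology Set
open scoped ContDiff Real

namespace Vale.Agent.P167.BVP.Fund


/-- `e^{iθ}` -/
noncomputable def uu (θ : ℝ) : ℂ := Complex.exp (θ * Complex.I)

theorem norm_uu (θ : ℝ) : ‖uu θ‖ = 1 := Complex.norm_exp_ofReal_mul_I θ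

theorem continuous_uu : Continuous uu := by unfold uu; fun_prop

theorem hasDerivAt_uu (θ : ℝ) : HasDerivAt uu (Complex.I * uu θ) θ := by
  unfold uu
  have h1 : HasDerivAt (fun θ : ℝ => (θ : ℂ) * Complex.I) (1 * Complex.I) θ :=
    (Complex.ofRealCLM.hasDerivAt (x := θ)).mul_const Complex.I
  have h2 := h1.cexp
  simpa [mul_comm] using h2

theorem polar_eq (p : ℝ × ℝ) : Complex.polarCoord.symm p = (p.1 : ℂ) * uu p.2 := by
  rw [Complex.polarCoord_symm_apply, uu, Complex.exp_mul_I]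
  push_cast
  rfl

section

variable {ψ : ℂ → ℂ}

/-- twice the Wirtinger derivative -/
noncomputable def db (ψ : ℂ → ℂ) (w : ℂ) : ℂ := fderiv ℝ ψ w 1 + Complex.I * fderiv ℝ ψ w Complex.I

/-- the polar form of the d-bar operator -/
theorem db_polar (D : ℂ →L[ℝ] ℂ) (θ : ℝ) :
    (uu θ)⁻¹ * (D 1 + Complex.I * D Complex.I) =
      D (uu θ) + Complex.I * D (Complex.I * uu θ) := by
  have h1 : uu θ = (Real.cos θ : ℂ) + (Real.sin θ : ℂ) * Complex.I := by
    rw [uu, Complex.exp_mul_I]; simp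
  have h2 : (uu θ)⁻¹ = (Real.cos θ : ℂ) - (Real.sin θ : ℂ) * Complex.I := by
    rw [uu, ← Complex.exp_neg, ← neg_mul, Complex.exp_mul_I]
    simp only [Complex.cos_neg, Complex.sin_neg, neg_mul, Complex.ofReal_cos, Complex.ofReal_sin, sub_eq_add_neg]
  have h3 : D (uu θ) = (Real.cos θ : ℂ) * D 1 + (Real.sin θ : ℂ) * D Complex.I := by
    have : uu θ = Real.cos θ • (1 : ℂ) + Real.sin θ • Complex.I := by
      rw [h1]; simp
    rw [this, map_add, map_smul, map_smul]
    simp only [Complex.real_smul, Complex.ofReal_cos, Complex.ofReal_sin]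
  have h4 : D (Complex.I * uu θ) = (Real.cos θ : ℂ) * D Complex.I - (Real.sin θ : ℂ) * D 1 := by
    have : Complex.I * uu θ = Real.cos θ • Complex.I + (-Real.sin θ) • (1 : ℂ) := by
      rw [h1]
      simp only [Complex.real_smul]
      push_cast
      ring_nf
      rw [Complex.I_sq]
      ring
    rw [this, map_add, map_smul, map_smul]
    simp only [Complex.real_smul]
    push_cast
    ring
  rw [h2, h3, h4]
  ring_nf
  rw [Complex.I_sq]
  ring

theorem radial_integral (h : ContDiff ℝ 1 ψ) (hs : HasCompactSupport ψ) (θ : ℝ) :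
    ∫ r in Ioi (0 : ℝ), fderiv ℝ ψ ((r : ℂ) * uu θ) (uu θ) = - ψ 0 := by
  set g : ℝ → ℂ := fun r => ψ ((r : ℂ) * uu θ) with hg
  have hder : ∀ r : ℝ, HasDerivAt g (fderiv ℝ ψ ((r : ℂ) * uu θ) (uu θ)) r := by
    intro r
    have h1 : HasDerivAt (fun r : ℝ => (r : ℂ) * uu θ) (uu θ) r := by
      simpa only [Complex.ofRealCLM_apply, Complex.ofReal_one, one_mul] using     (Complex.ofRealCLM.hasDerivAt (x := r)).mul_const (uu θ)
    exact ((h.differentiable (by simp) _).hasFDerivAt).comp_hasDerivAt r h1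
  have hgs : HasCompactSupport g := by
    apply hs.comp_isClosedEmbedding
    apply Isometry.isClosedEmbedding
    intro x y
    rw [edist_dist, edist_dist, dist_eq_norm, dist_eq_norm, ← sub_mul, norm_mul, norm_uu, mul_one,
      ← Complex.ofReal_sub, Complex.norm_real]
  have hgc : ContDiff ℝ 1 g := by
    apply h.comp
    exact (Complex.ofRealCLM.contDiff).mul contDiff_const
  have h2 := hgs.integral_Ioi_deriv_eq hgc 0
  have h3 : (fun r : ℝ => fderiv ℝ ψ ((r : ℂ) * uu θ) (uu θ)) = deriv g := by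
    funext r
    exact (hder r).deriv.symm
  rw [h3, h2, hg]
  simp

theorem angular_integral (h : ContDiff ℝ 1 ψ) {r : ℝ} (hr : 0 < r) :
    ∫ θ in Ioo (-π) π, fderiv ℝ ψ ((r : ℂ) * uu θ) (Complex.I * uu θ) = 0 := by
  rw [← integral_Ioc_eq_integral_Ioo, ← intervalIntegral.integral_of_le (by linarith only [Real.pi_pos])]
  have hder : ∀ θ : ℝ, HasDerivAt (fun θ : ℝ => ψ ((r : ℂ) * uu θ))
      (fderiv ℝ ψ ((r : ℂ) * uu θ) ((r : ℂ) * (Complex.I * uu θ))) θ := by
    intro θ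
    have h1 : HasDerivAt (fun θ : ℝ => (r : ℂ) * uu θ) ((r : ℂ) * (Complex.I * uu θ)) θ :=
      (hasDerivAt_uu θ).const_mul _
    exact ((h.differentiable (by simp) _).hasFDerivAt).comp_hasDerivAt θ h1
  have hcont : Continuous fun θ : ℝ =>
      fderiv ℝ ψ ((r : ℂ) * uu θ) ((r : ℂ) * (Complex.I * uu θ)) := by
    have := h.continuous_fderiv (by simp)
    have := continuous_uu
    (clear * - h this; fun_prop)
  have h2 := intervalIntegral.integral_eq_sub_of_hasDerivAt (a := -π) (b := π)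
    (fun θ _ => hder θ) (hcont.intervalIntegrable _ _)
  have h3 : uu π = uu (-π) := by
    unfold uu
    rw [Complex.exp_pi_mul_I]
    push_cast
    rw [neg_mul, Complex.exp_neg, Complex.exp_pi_mul_I]
    norm_num
  rw [h3, sub_self] at h2
  have h4 : ∀ θ : ℝ, fderiv ℝ ψ ((r : ℂ) * uu θ) ((r : ℂ) * (Complex.I * uu θ)) =
      (r : ℂ) * fderiv ℝ ψ ((r : ℂ) * uu θ) (Complex.I * uu θ) := by
    intro θ
    have : (r : ℂ) * (Complex.I * uu θ) = r • (Complex.I * uu θ) := by simp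
    rw [this, map_smul]
    simp only [Complex.real_smul]
  simp_rw [h4] at h2
  rw [intervalIntegral.integral_const_mul] at h2
  rcases mul_eq_zero.1 h2 with h5 | h5
  · exact absurd h5 (by exact_mod_cast hr.ne')
  · exact h5

theorem integrableOn_polar {v : ℝ → ℂ} (hv : Continuous v) (h : ContDiff ℝ 1 ψ)
    (hs : HasCompactSupport ψ) :
    IntegrableOn (fun p : ℝ × ℝ => fderiv ℝ ψ ((p.1 : ℂ) * uu p.2) (v p.2))
      (Ioi (0 : ℝ) ×ˢ Ioo (-π) π) := by
  have hD := h.continuous_fderiv (by simp only [ne_eq, one_ne_zero, not_false_eq_true])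
  have hDs : HasCompactSupport (fderiv ℝ ψ) := hs.fderiv ℝ
  obtain ⟨R, hR⟩ := hDs.isCompact.isBounded.subset_closedBall 0
  have hcont : Continuous fun p : ℝ × ℝ => fderiv ℝ ψ ((p.1 : ℂ) * uu p.2) (v p.2) := by
    have := continuous_uu
    (clear * - h this hv; fun_prop)
  have h1 : IntegrableOn (fun p : ℝ × ℝ => fderiv ℝ ψ ((p.1 : ℂ) * uu p.2) (v p.2))
      (Icc (0 : ℝ) R ×ˢ Icc (-π) π) :=
    hcont.continuousOn.integrableOn_compact (isCompact_Icc.prod isCompact_Icc)
  refine h1.of_forall_sdiff_eq_zero (measurableSet_Ioi.prod measurableSet_Ioo) ?_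
  rintro ⟨r, θ⟩ ⟨h2, h3⟩
  have h4 : R < r := by
    by_contra hcon
    push Not at hcon
    exact h3 ⟨⟨(mem_Ioi.1 h2.1).le, hcon⟩, ⟨h2.2.1.le, h2.2.2.le⟩⟩
  have h5 : fderiv ℝ ψ ((r : ℂ) * uu θ) = 0 := by
    by_contra hcon
    have h6 : (r : ℂ) * uu θ ∈ tsupport (fderiv ℝ ψ) := subset_tsupport _ hcon
    have h7 := hR h6
    rw [mem_closedBall_zero_iff, norm_mul, norm_uu, mul_one, Complex.norm_real] at h7
    have := le_abs_self r
    rw [Real.norm_eq_abs] at h7
    linarith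
  simp only
  rw [h5]
  rfl

/-- Cauchy–Pompeiu -/
theorem pompeiu (h : ContDiff ℝ 1 ψ) (hs : HasCompactSupport ψ) :
    ∫ w : ℂ, w⁻¹ * db ψ w = - (2 * π) * ψ 0 := by
  rw [← Complex.integral_comp_polarCoord_symm, polarCoord_target]
  have h1 : ∀ p ∈ Ioi (0 : ℝ) ×ˢ Ioo (-π) π,
      p.1 • ((Complex.polarCoord.symm p)⁻¹ * db ψ (Complex.polarCoord.symm p)) =
      fderiv ℝ ψ ((p.1 : ℂ) * uu p.2) (uu p.2) +
        Complex.I * fderiv ℝ ψ ((p.1 : ℂ) * uu p.2) (Complex.I * uu p.2) := by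
    rintro ⟨r, θ⟩ ⟨hr, -⟩
    have hr0 : (r : ℂ) ≠ 0 := by exact_mod_cast (mem_Ioi.1 hr).ne'
    rw [polar_eq, ← db_polar, db, Complex.real_smul]
    simp only
    rw [mul_inv]
    field_simp
  rw [setIntegral_congr_fun (measurableSet_Ioi.prod measurableSet_Ioo) h1]
  have hA := integrableOn_polar (v := uu) continuous_uu h hs
  have hB := integrableOn_polar (v := fun θ => Complex.I * uu θ)
    (continuous_const.mul continuous_uu) h hs
  rw [integral_add hA (hB.const_mul Complex.I), integral_const_mul]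
  have e1 : ∫ p in Ioi (0 : ℝ) ×ˢ Ioo (-π) π, fderiv ℝ ψ ((p.1 : ℂ) * uu p.2) (uu p.2) =
      - (2 * π) * ψ 0 := by
    rw [IntegrableOn, Measure.volume_eq_prod, ← Measure.prod_restrict] at hA
    rw [Measure.volume_eq_prod, ← Measure.prod_restrict, integral_prod_symm _ hA]
    simp_rw [radial_integral h hs]
    rw [setIntegral_const]
    simp only [Real.volume_real_Ioo, sub_neg_eq_add]
    rw [max_eq_left (by linarith [Real.pi_pos]), Complex.real_smul]
    push_cast
    ring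
  have e2 : ∫ p in Ioi (0 : ℝ) ×ˢ Ioo (-π) π,
      fderiv ℝ ψ ((p.1 : ℂ) * uu p.2) (Complex.I * uu p.2) = 0 := by
    rw [Measure.volume_eq_prod, setIntegral_prod _ hB]
    rw [setIntegral_congr_fun measurableSet_Ioi (g := fun _ => 0)]
    · simp
    · intro r hr
      exact angular_integral h hr
  rw [e1, e2, mul_zero, add_zero]

end


end Vale.Agent.P167.BVP.Fund

open MeasureTheory Metric Filter Topology Real
open scoped ContDiff ENNReal

namespace Vale.Agent.P167.BVP.Fund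



/-! ### Local integrability -/

theorem lea_inv_ball (R : ℝ) : IntegrableOn (fun z : ℂ => ‖z‖⁻¹) (ball (0 : ℂ) R) := by
  rw [integrableOn_fun_norm_addHaar (volume : Measure ℂ) (f := fun r : ℝ => r⁻¹)]
  rw [Complex.finrank_real_complex]
  have : IntegrableOn (fun _ : ℝ => (1 : ℝ)) (Set.Ioo 0 R) := by
    simp only [enorm_one, ne_eq, ENNReal.one_ne_top, not_false_eq_true, integrableOn_const_iff, one_ne_zero, volume_Ioo, sub_zero, ENNReal.ofReal_lt_top, or_true]
  refine this.congr_fun ?_ measurableSet_Ioo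
  intro r hr
  have : r ≠ 0 := ne_of_gt hr.1
  simp only [smul_eq_mul]
  rw [show 2 - 1 = 1 from rfl, pow_one, mul_inv_cancel₀ this]

theorem lea_inv : LocallyIntegrable (fun z : ℂ => ‖z‖⁻¹) := by
  intro x
  exact ⟨ball 0 (‖x‖ + 1), isOpen_ball.mem_nhds (by rw [mem_ball_zero_iff]; linarith),
    lea_inv_ball _⟩

theorem lea_abs_log {x : ℝ} (hx : 0 ≤ x) : |log x| ≤ x⁻¹ + x := by
  rcases hx.eq_or_lt with h | h
  · rw [← h]
    simp
  · have h1 : log x ≤ x := (Real.log_le_sub_one_of_pos h).trans (by linarith only [])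
    have h2 : -log x ≤ x⁻¹ := by
      rw [← Real.log_inv]
      exact (Real.log_le_sub_one_of_pos (inv_pos.2 h)).trans (by linarith only [])
    have h3 : 0 < x⁻¹ := inv_pos.2 h
    rw [abs_le]
    constructor <;> linarith only [h, h2, h1, h3]

theorem lea_log_sq {x : ℝ} (hx : 0 ≤ x) : log x ^ 2 ≤ 4 * x⁻¹ + x ^ 2 := by
  rcases hx.eq_or_lt with h | h
  · rw [← h]
    simp
  · have h0 : 0 < x⁻¹ := inv_pos.2 h
    rcases le_total 1 x with h1 | h1
    · have h2 : 0 ≤ log x := log_nonneg h1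
      have h3 : log x ≤ x := (Real.log_le_sub_one_of_pos h).trans (by linarith only [])
      nlinarith only [h0, h3, h2]
    · have h2 : 0 ≤ log x⁻¹ := log_nonneg ((one_le_inv₀ h).2 h1)
      have h3 : log x⁻¹ ≤ 2 * √(x⁻¹) := by
        have h4 : log (√(x⁻¹)) ≤ √(x⁻¹) - 1 := Real.log_le_sub_one_of_pos (Real.sqrt_pos.2 h0)
        rw [Real.log_sqrt h0.le] at h4
        linarith only [h4]
      have h5 : log x ^ 2 = log x⁻¹ ^ 2 := by rw [Real.log_inv]; ring
      have h6 : √(x⁻¹) ^ 2 = x⁻¹ := Real.sq_sqrt h0.le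
      rw [h5]
      nlinarith only [h6, h2, h3]

theorem lea_log : LocallyIntegrable (fun z : ℂ => log ‖z‖) := by
  refine (lea_inv.add (continuous_norm.locallyIntegrable)).mono
    (Real.measurable_log.comp measurable_norm).aestronglyMeasurable ?_
  refine ae_of_all _ fun z => ?_
  simp only [Pi.add_apply]
  rw [Real.norm_eq_abs, Real.norm_eq_abs]
  refine (lea_abs_log (norm_nonneg z)).trans (le_abs_self _)

theorem lea_abslog : LocallyIntegrable (fun z : ℂ => |log ‖z‖|) := by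
  refine lea_log.mono (Real.measurable_log.comp measurable_norm).abs.aestronglyMeasurable ?_
  exact ae_of_all _ fun z => by rw [Real.norm_eq_abs, Real.norm_eq_abs, abs_abs]

theorem lea_logsq : LocallyIntegrable (fun z : ℂ => log ‖z‖ ^ 2) := by
  refine ((lea_inv.smul (4 : ℝ)).add ((continuous_norm.pow 2).locallyIntegrable)).mono
    ((Real.measurable_log.comp measurable_norm).pow_const 2).aestronglyMeasurable ?_
  refine ae_of_all _ fun z => ?_
  simp only [Pi.add_apply, Pi.smul_apply, smul_eq_mul]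
  rw [Real.norm_eq_abs, Real.norm_eq_abs, abs_of_nonneg (sq_nonneg _)]
  exact (lea_log_sq (norm_nonneg z)).trans (le_abs_self _)

/-- products with continuous functions of compact support -/
theorem lea_int {k g : ℂ → ℝ} (hk : LocallyIntegrable k) (hg : Continuous g)
    (hgs : HasCompactSupport g) : Integrable (fun z => k z * g z) := by
  have := hk.integrable_smul_left_of_hasCompactSupport hg hgs
  refine this.congr (ae_of_all _ fun z => ?_)
  simp only [smul_eq_mul]
  ring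

theorem lea_ibp {f g : ℂ → ℝ} (hf : ContDiff ℝ 1 f) (hg : ContDiff ℝ 1 g)
    (hgs : HasCompactSupport g) (v : ℂ) :
    ∫ z, f z * fderiv ℝ g z v = - ∫ z, fderiv ℝ f z v * g z := by
  have h1 : Continuous fun z => fderiv ℝ g z v :=
    (hg.continuous_fderiv one_ne_zero).clm_apply continuous_const
  have h2 : HasCompactSupport fun z => fderiv ℝ g z v :=
    (hgs.fderiv (𝕜 := ℝ)).comp_left (g := fun L : ℂ →L[ℝ] ℝ => L v) rfl
  have h3 : Continuous fun z => fderiv ℝ f z v :=
    (hf.continuous_fderiv one_ne_zero).clm_apply continuous_const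
  refine integral_mul_fderiv_eq_neg_fderiv_mul_of_integrable ?_ ?_ ?_ ?_ ?_
  · exact (h3.mul hg.continuous).integrable_of_hasCompactSupport hgs.mul_left
  · exact (hf.continuous.mul h1).integrable_of_hasCompactSupport h2.mul_left
  · exact (hf.continuous.mul hg.continuous).integrable_of_hasCompactSupport hgs.mul_left
  · intro z _
    exact hf.differentiable one_ne_zero z
  · intro z _
    exact hg.differentiable one_ne_zero z

/-! ### The regularised logarithm -/

/-- regularised logarithm -/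
noncomputable def lea_g (ε : ℝ) (z : ℂ) : ℝ := 1 / 2 * log (‖z‖ ^ 2 + ε ^ 2)

theorem lea_g_contDiff {ε : ℝ} (hε : 0 < ε) : ContDiff ℝ 1 (lea_g ε) := by
  unfold lea_g
  refine contDiff_const.mul (ContDiff.log ((contDiff_norm_sq ℝ).add contDiff_const) fun z => ?_)
  positivity

theorem lea_g_fderiv {ε : ℝ} (hε : 0 < ε) (z v : ℂ) :
    fderiv ℝ (lea_g ε) z v = inner ℝ z v / (‖z‖ ^ 2 + ε ^ 2) := by
  have h0 : ‖z‖ ^ 2 + ε ^ 2 ≠ 0 := by positivity
  have h1 : HasFDerivAt (fun z : ℂ => ‖z‖ ^ 2) (2 • innerSL ℝ z) z :=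
    (hasStrictFDerivAt_norm_sq z).hasFDerivAt
  have h2 := ((h1.add_const (ε ^ 2)).log h0).const_mul (1 / 2)
  have h3 : fderiv ℝ (lea_g ε) z = (1 / 2 : ℝ) • ((‖z‖ ^ 2 + ε ^ 2)⁻¹ • (2 • innerSL ℝ z)) :=
    h2.fderiv
  rw [h3]
  simp only [smul_apply, innerSL_apply_apply, smul_eq_mul, nsmul_eq_mul]
  push_cast
  field_simp

theorem lea_g_px {ε : ℝ} (hε : 0 < ε) (z : ℂ) :
    fderiv ℝ (lea_g ε) z 1 = z.re / (‖z‖ ^ 2 + ε ^ 2) := by
  rw [lea_g_fderiv hε, Complex.inner]
  simp only [one_mul, Complex.conj_re]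

theorem lea_g_py {ε : ℝ} (hε : 0 < ε) (z : ℂ) :
    fderiv ℝ (lea_g ε) z Complex.I = z.im / (‖z‖ ^ 2 + ε ^ 2) := by
  rw [lea_g_fderiv hε, Complex.inner]
  simp only [Complex.mul_re, Complex.I_re, Complex.conj_re, zero_mul, Complex.I_im, Complex.conj_im, mul_neg, one_mul, sub_neg_eq_add, zero_add]

theorem lea_g_abs {ε : ℝ} (h0 : 0 < ε) (h1 : ε ≤ 1) {z : ℂ} (hz : z ≠ 0) :
    |lea_g ε z| ≤ |Real.log ‖z‖| + ‖z‖ ^ 2 := by
  have hn : 0 < ‖z‖ := norm_pos_iff.2 hz
  have ht : 0 < ‖z‖ ^ 2 := by positivity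
  have he : ε ^ 2 ≤ 1 := pow_le_one₀ h0.le h1
  have e1 : Real.log ‖z‖ = 1 / 2 * Real.log (‖z‖ ^ 2) := by
    rw [Real.log_pow]
    push_cast
    ring
  have e2 : Real.log (‖z‖ ^ 2) ≤ Real.log (‖z‖ ^ 2 + ε ^ 2) :=
    Real.log_le_log ht (by positivity |> fun h : 0 ≤ ε ^ 2 => by linarith only [h])
  have e3 : Real.log (‖z‖ ^ 2 + ε ^ 2) ≤ ‖z‖ ^ 2 := by
    have := Real.log_le_sub_one_of_pos (show 0 < ‖z‖ ^ 2 + ε ^ 2 by (clear * - hz h0; positivity))
    linarith only [he, this]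
  have e4 := neg_abs_le (Real.log ‖z‖)
  have e5 := abs_nonneg (Real.log ‖z‖)
  unfold lea_g
  rw [abs_le]
  constructor <;> linarith

theorem lea_quot {ε : ℝ} (h0 : 0 < ε) (z : ℂ) (a b : ℝ) :
    ‖(z.re * a + z.im * b) / (‖z‖ ^ 2 + ε ^ 2)‖ ≤ ‖z‖⁻¹ * (|a| + |b|) := by
  rcases eq_or_ne z 0 with rfl | hz
  · simp only [Complex.zero_re, zero_mul, Complex.zero_im, add_zero, norm_zero, ne_eq, OfNat.ofNat_ne_zero, not_false_eq_true, zero_pow, zero_add, zero_div, inv_zero, Std.le_refl]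
  have hn : 0 < ‖z‖ := norm_pos_iff.2 hz
  have h1 : |z.re * a + z.im * b| ≤ ‖z‖ * (|a| + |b|) := by
    refine (abs_add_le _ _).trans ?_
    rw [abs_mul, abs_mul, mul_add]
    exact add_le_add (mul_le_mul_of_nonneg_right (Complex.abs_re_le_norm z) (abs_nonneg a))
      (mul_le_mul_of_nonneg_right (Complex.abs_im_le_norm z) (abs_nonneg b))
  have hp : 0 < ‖z‖ ^ 2 + ε ^ 2 := by positivity
  rw [Real.norm_eq_abs, abs_div, abs_of_pos hp, div_le_iff₀ hp]
  refine h1.trans ?_
  have h2 : ‖z‖ * (|a| + |b|) = ‖z‖⁻¹ * (|a| + |b|) * ‖z‖ ^ 2 := by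
    field_simp
  rw [h2]
  refine mul_le_mul_of_nonneg_left ?_ (by (clear * - hz; positivity))
  have : 0 ≤ ε ^ 2 := by positivity
  linarith only [this]

/-- regularised identity -/
theorem lea_reg {φ : ℂ → ℝ} (h : ContDiff ℝ 2 φ) (hs : HasCompactSupport φ) {ε : ℝ}
    (hε : 0 < ε) : ∫ z : ℂ, lea_g ε z * P198W.lap φ z =
      - ∫ z : ℂ, (z.re * (P198W.pd 1) φ z + z.im * (P198W.pd Complex.I) φ z) / (‖z‖ ^ 2 + ε ^ 2) := by
  have hd : ContDiff ℝ 1 (fderiv ℝ φ) := h.fderiv_right (m := 1) (by (clear * -; norm_num))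
  have hx : ContDiff ℝ 1 ((P198W.pd 1) φ) := hd.clm_apply contDiff_const
  have hy : ContDiff ℝ 1 ((P198W.pd Complex.I) φ) := hd.clm_apply contDiff_const
  have hxs : HasCompactSupport ((P198W.pd 1) φ) :=
    (hs.fderiv (𝕜 := ℝ)).comp_left (g := fun L : ℂ →L[ℝ] ℝ => L 1) rfl
  have hys : HasCompactSupport ((P198W.pd Complex.I) φ) :=
    (hs.fderiv (𝕜 := ℝ)).comp_left (g := fun L : ℂ →L[ℝ] ℝ => L Complex.I) rfl
  have hg := lea_g_contDiff hε
  have e1 := lea_ibp hg hx hxs 1
  have e2 := lea_ibp hg hy hys Complex.I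
  have hgx : Continuous fun z => fderiv ℝ (lea_g ε) z 1 :=
    (hg.continuous_fderiv one_ne_zero).clm_apply continuous_const
  have hgy : Continuous fun z => fderiv ℝ (lea_g ε) z Complex.I :=
    (hg.continuous_fderiv one_ne_zero).clm_apply continuous_const
  have c1 : Continuous fun z => fderiv ℝ ((P198W.pd 1) φ) z 1 :=
    (hx.continuous_fderiv one_ne_zero).clm_apply continuous_const
  have c2 : Continuous fun z => fderiv ℝ ((P198W.pd Complex.I) φ) z Complex.I :=
    (hy.continuous_fderiv one_ne_zero).clm_apply continuous_const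
  have s1 : HasCompactSupport fun z => fderiv ℝ ((P198W.pd 1) φ) z 1 :=
    (hxs.fderiv (𝕜 := ℝ)).comp_left (g := fun L : ℂ →L[ℝ] ℝ => L 1) rfl
  have s2 : HasCompactSupport fun z => fderiv ℝ ((P198W.pd Complex.I) φ) z Complex.I :=
    (hys.fderiv (𝕜 := ℝ)).comp_left (g := fun L : ℂ →L[ℝ] ℝ => L Complex.I) rfl
  have i1 : Integrable fun z => lea_g ε z * fderiv ℝ ((P198W.pd 1) φ) z 1 :=
    (hg.continuous.mul c1).integrable_of_hasCompactSupport s1.mul_left
  have i2 : Integrable fun z => lea_g ε z * fderiv ℝ ((P198W.pd Complex.I) φ) z Complex.I :=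
    (hg.continuous.mul c2).integrable_of_hasCompactSupport s2.mul_left
  have i3 : Integrable fun z => fderiv ℝ (lea_g ε) z 1 * (P198W.pd 1) φ z :=
    (hgx.mul hx.continuous).integrable_of_hasCompactSupport hxs.mul_left
  have i4 : Integrable fun z => fderiv ℝ (lea_g ε) z Complex.I * (P198W.pd Complex.I) φ z :=
    (hgy.mul hy.continuous).integrable_of_hasCompactSupport hys.mul_left
  have f1 : ∀ z, lea_g ε z * P198W.lap φ z =
      lea_g ε z * fderiv ℝ ((P198W.pd 1) φ) z 1 + lea_g ε z * fderiv ℝ ((P198W.pd Complex.I) φ) z Complex.I := by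
    intro z
    show lea_g ε z * (fderiv ℝ ((P198W.pd 1) φ) z 1 + fderiv ℝ ((P198W.pd Complex.I) φ) z Complex.I) = _
    rw [mul_add]
  have f2 : ∀ z : ℂ, (z.re * (P198W.pd 1) φ z + z.im * (P198W.pd Complex.I) φ z) / (‖z‖ ^ 2 + ε ^ 2) =
      fderiv ℝ (lea_g ε) z 1 * (P198W.pd 1) φ z + fderiv ℝ (lea_g ε) z Complex.I * (P198W.pd Complex.I) φ z := by
    intro z
    rw [lea_g_px hε, lea_g_py hε]
    ring
  simp_rw [f1, f2]
  rw [integral_add i1 i2, integral_add i3 i4, e1, e2]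
  ring

/-- the limit of the right hand side, from the Cauchy-Pompeiu formula -/
theorem lea_pomp {φ : ℂ → ℝ} (h : ContDiff ℝ 1 φ) (hs : HasCompactSupport φ) :
    ∫ z : ℂ, (z.re * (P198W.pd 1) φ z + z.im * (P198W.pd Complex.I) φ z) / ‖z‖ ^ 2 = - (2 * π) * φ 0 := by
  have hψ : ContDiff ℝ 1 (fun z => (φ z : ℂ)) := Complex.ofRealCLM.contDiff.comp h
  have hψs : HasCompactSupport (fun z => (φ z : ℂ)) :=
    hs.comp_left (g := fun x : ℝ => (x : ℂ)) (by simp)
  have hfd : ∀ z v, fderiv ℝ (fun z => (φ z : ℂ)) z v = ((fderiv ℝ φ z v : ℝ) : ℂ) := by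
    intro z v
    have h1 : HasFDerivAt (fun z => (φ z : ℂ)) (Complex.ofRealCLM.comp (fderiv ℝ φ z)) z :=
      Complex.ofRealCLM.hasFDerivAt.comp z (h.differentiable one_ne_zero z).hasFDerivAt
    rw [h1.fderiv]
    rfl
  have hdb : ∀ z, Vale.Agent.P167.BVP.Fund.db (fun z => (φ z : ℂ)) z =
      ((P198W.pd 1) φ z : ℂ) + Complex.I * ((P198W.pd Complex.I) φ z : ℂ) := by
    intro z
    rw [Vale.Agent.P167.BVP.Fund.db, hfd, hfd]
    rfl
  have hp := Vale.Agent.P167.BVP.Fund.pompeiu hψ hψs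
  have hx : Continuous ((P198W.pd 1) φ) := (h.continuous_fderiv one_ne_zero).clm_apply continuous_const
  have hy : Continuous ((P198W.pd Complex.I) φ) := (h.continuous_fderiv one_ne_zero).clm_apply continuous_const
  have hxs : HasCompactSupport ((P198W.pd 1) φ) :=
    (hs.fderiv (𝕜 := ℝ)).comp_left (g := fun L : ℂ →L[ℝ] ℝ => L 1) rfl
  have hys : HasCompactSupport ((P198W.pd Complex.I) φ) :=
    (hs.fderiv (𝕜 := ℝ)).comp_left (g := fun L : ℂ →L[ℝ] ℝ => L Complex.I) rfl
  have hint : Integrable fun z : ℂ => z⁻¹ * (((P198W.pd 1) φ z : ℂ) + Complex.I * ((P198W.pd Complex.I) φ z : ℂ)) := by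
    have i1 := lea_int lea_inv hx.abs hxs.norm
    have i2 := lea_int lea_inv hy.abs hys.norm
    refine (i1.add i2).mono' ?_ (ae_of_all _ fun z => ?_)
    · refine (measurable_inv.mul ?_).aestronglyMeasurable
      exact (by (clear * - hx hy; fun_prop) : Continuous fun z => ((P198W.pd 1) φ z : ℂ) + Complex.I * ((P198W.pd Complex.I) φ z : ℂ)).measurable
    · rw [norm_mul, norm_inv, Pi.add_apply, ← mul_add]
      refine mul_le_mul_of_nonneg_left ?_ (by (clear * -; positivity))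
      refine (norm_add_le _ _).trans ?_
      rw [norm_mul, Complex.norm_I, one_mul, Complex.norm_real, Complex.norm_real]
      rfl
  simp_rw [hdb] at hp
  have hre := congrArg Complex.reCLM hp
  rw [← ContinuousLinearMap.integral_comp_comm _ hint] at hre
  have e1 : ∀ z : ℂ, Complex.reCLM (z⁻¹ * (((P198W.pd 1) φ z : ℂ) + Complex.I * ((P198W.pd Complex.I) φ z : ℂ))) =
      (z.re * (P198W.pd 1) φ z + z.im * (P198W.pd Complex.I) φ z) / ‖z‖ ^ 2 := by
    intro z
    rw [Complex.reCLM_apply, Complex.mul_re, Complex.inv_re, Complex.inv_im,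
      Complex.normSq_eq_norm_sq]
    simp only [Complex.add_re, Complex.ofReal_re, Complex.mul_re, Complex.I_re, zero_mul, Complex.I_im, Complex.ofReal_im, mul_zero, sub_self, add_zero, Complex.add_im, Complex.mul_im, one_mul, zero_add]
    ring
  simp_rw [e1] at hre
  rw [hre]
  simp only [neg_mul, Complex.reCLM_apply, Complex.neg_re, Complex.mul_re, Complex.re_ofNat, Complex.ofReal_re, Complex.im_ofNat, Complex.ofReal_im, mul_zero, sub_zero, Complex.mul_im, zero_mul, add_zero]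

/-- Fundamental solution: `∫ log|z| Δφ = 2π φ(0)`. -/
theorem log_repr {φ : ℂ → ℝ} (h : ContDiff ℝ 2 φ) (hs : HasCompactSupport φ) :
    ∫ z : ℂ, Real.log ‖z‖ * P198W.lap φ z = 2 * π * φ 0 := by
  have hd : ContDiff ℝ 1 (fderiv ℝ φ) := h.fderiv_right (m := 1) (by (clear * -; norm_num))
  have hx : ContDiff ℝ 1 ((P198W.pd 1) φ) := hd.clm_apply contDiff_const
  have hy : ContDiff ℝ 1 ((P198W.pd Complex.I) φ) := hd.clm_apply contDiff_const
  have hxs : HasCompactSupport ((P198W.pd 1) φ) :=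
    (hs.fderiv (𝕜 := ℝ)).comp_left (g := fun L : ℂ →L[ℝ] ℝ => L 1) rfl
  have hys : HasCompactSupport ((P198W.pd Complex.I) φ) :=
    (hs.fderiv (𝕜 := ℝ)).comp_left (g := fun L : ℂ →L[ℝ] ℝ => L Complex.I) rfl
  have c1 : Continuous fun z => fderiv ℝ ((P198W.pd 1) φ) z 1 :=
    (hx.continuous_fderiv one_ne_zero).clm_apply continuous_const
  have c2 : Continuous fun z => fderiv ℝ ((P198W.pd Complex.I) φ) z Complex.I :=
    (hy.continuous_fderiv one_ne_zero).clm_apply continuous_const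
  have s1 : HasCompactSupport fun z => fderiv ℝ ((P198W.pd 1) φ) z 1 :=
    (hxs.fderiv (𝕜 := ℝ)).comp_left (g := fun L : ℂ →L[ℝ] ℝ => L 1) rfl
  have s2 : HasCompactSupport fun z => fderiv ℝ ((P198W.pd Complex.I) φ) z Complex.I :=
    (hys.fderiv (𝕜 := ℝ)).comp_left (g := fun L : ℂ →L[ℝ] ℝ => L Complex.I) rfl
  have hlc : Continuous (P198W.lap φ) := c1.add c2
  have hls : HasCompactSupport (P198W.lap φ) := s1.add s2
  set e : ℕ → ℝ := fun n => 1 / ((n : ℝ) + 1) with he
  have he0 : ∀ n, 0 < e n := fun n => by (clear * -; positivity)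
  have he1 : ∀ n, e n ≤ 1 := fun n => by
    rw [he]
    simp only
    rw [div_le_one (by (clear * -; positivity))]
    linarith only []
  have helim : Tendsto e atTop (𝓝 0) := tendsto_one_div_add_atTop_nhds_zero_nat
  -- the left hand sides
  have l1 : Tendsto (fun n => ∫ z : ℂ, lea_g (e n) z * P198W.lap φ z) atTop
      (𝓝 (∫ z : ℂ, Real.log ‖z‖ * P198W.lap φ z)) := by
    have hb : Integrable fun z : ℂ => (|Real.log ‖z‖| + ‖z‖ ^ 2) * |P198W.lap φ z| := by
      have i1 : LocallyIntegrable fun z : ℂ => |Real.log ‖z‖| + ‖z‖ ^ 2 :=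
        lea_abslog.add ((continuous_norm.pow 2).locallyIntegrable)
      exact lea_int i1 hlc.abs hls.norm
    refine tendsto_integral_of_dominated_convergence _ (fun n => ?_) hb (fun n => ?_) ?_
    · exact ((lea_g_contDiff (he0 n)).continuous.mul hlc).aestronglyMeasurable
    · have hne : ∀ᵐ z : ℂ, z ≠ 0 := by
        rw [ae_iff]
        simp
      filter_upwards [hne] with z hz
      rw [norm_mul, Real.norm_eq_abs, Real.norm_eq_abs]
      exact mul_le_mul_of_nonneg_right (lea_g_abs (he0 n) (he1 n) hz) (abs_nonneg _)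
    · have hne : ∀ᵐ z : ℂ, z ≠ 0 := by
        rw [ae_iff]
        simp
      filter_upwards [hne] with z hz
      refine Tendsto.mul_const _ ?_
      have h1 : Tendsto (fun n => ‖z‖ ^ 2 + e n ^ 2) atTop (𝓝 (‖z‖ ^ 2 + 0 ^ 2)) :=
        tendsto_const_nhds.add (helim.pow 2)
      have h2 : ‖z‖ ^ 2 + 0 ^ 2 ≠ 0 := by
        have := norm_pos_iff.2 hz
        (clear * - hz; positivity)
      have h3 := (h1.log h2).const_mul (1 / 2)
      have h4 : Real.log ‖z‖ = 1 / 2 * log (‖z‖ ^ 2 + 0 ^ 2) := by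
        rw [zero_pow two_ne_zero, add_zero, Real.log_pow]
        push_cast
        ring
      rw [h4]
      exact h3
  have l2 : Tendsto (fun n => ∫ z : ℂ, (z.re * (P198W.pd 1) φ z + z.im * (P198W.pd Complex.I) φ z) / (‖z‖ ^ 2 + e n ^ 2))
      atTop (𝓝 (∫ z : ℂ, (z.re * (P198W.pd 1) φ z + z.im * (P198W.pd Complex.I) φ z) / ‖z‖ ^ 2)) := by
    have hb : Integrable fun z : ℂ => ‖z‖⁻¹ * (|(P198W.pd 1) φ z| + |(P198W.pd Complex.I) φ z|) := by
      have i1 := lea_int lea_inv hx.continuous.abs hxs.norm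
      have i2 := lea_int lea_inv hy.continuous.abs hys.norm
      refine (i1.add i2).congr (ae_of_all _ fun z => ?_)
      simp only [Pi.add_apply]
      ring
    refine tendsto_integral_of_dominated_convergence _ (fun n => ?_) hb (fun n => ?_) ?_
    · refine (Continuous.div ?_ (by fun_prop) fun z => ?_).aestronglyMeasurable
      · exact ((Complex.continuous_re.mul hx.continuous).add
          (Complex.continuous_im.mul hy.continuous))
      · have := he0 n
        (clear * -; positivity)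
    · exact ae_of_all _ fun z => lea_quot (he0 n) z _ _
    · have hne : ∀ᵐ z : ℂ, z ≠ 0 := by
        rw [ae_iff]
        simp
      filter_upwards [hne] with z hz
      have h1 : Tendsto (fun n => ‖z‖ ^ 2 + e n ^ 2) atTop (𝓝 (‖z‖ ^ 2 + 0 ^ 2)) :=
        tendsto_const_nhds.add (helim.pow 2)
      rw [zero_pow two_ne_zero, add_zero] at h1
      refine Tendsto.div tendsto_const_nhds h1 ?_
      have := norm_pos_iff.2 hz
      positivity
  have l3 := tendsto_nhds_unique l1 ((l2.neg).congr fun n => (lea_reg h hs (he0 n)).symm)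
  rw [l3, lea_pomp (h.of_le (by norm_num)) hs]
  ring


end Vale.Agent.P167.BVP.Fund
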