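import Vale.Agent.P167.BVP.Dir

/-!
# P167, block BVP: the complex derivative of a harmonic function, gradient estimate
-/

open Set Metric Filter Topology InnerProductSpace Complex Real

namespace Vale.Agent.P167.BVP

/-- `v_x - i v_y`. -/
noncomputable def dz (v : ℂ → ℝ) (z : ℂ) : ℂ := fderiv ℝ v z 1 - I * fderiv ℝ v z I

theorem dz_analytic {v : ℂ → ℝ} {z : ℂ} (hv : HarmonicAt v z) : AnalyticAt ℂ (dz v) z :=
  HarmonicAt.analyticAt_complex_partial hv

theorem fderiv_eq_dz (v : ℂ → ℝ) (z w : ℂ) : fderiv ℝ v z w = (dz v z * w).re := by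
  have h : w = (w.re : ℝ) • (1 : ℂ) + (w.im : ℝ) • I := by
    apply Complex.ext <;> simp
  conv_lhs => rw [h, map_add, map_smul, map_smul]
  simp [dz, Complex.mul_re, Complex.mul_im]
  ring

theorem dz_congr {u v : ℂ → ℝ} {z : ℂ} (h : u =ᶠ[𝓝 z] v) : dz u z = dz v z := by
  simp only [dz, h.fderiv_eq]

theorem hasFDerivAt_re {F : ℂ → ℂ} {z : ℂ} (hF : DifferentiableAt ℂ F z) :
    fderiv ℝ (fun w => (F w).re) z = Complex.reCLM.comp
      ((ContinuousLinearMap.toSpanSingleton ℂ (deriv F z)).restrictScalars ℝ) := by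
  have h1 : HasFDerivAt F ((ContinuousLinearMap.toSpanSingleton ℂ (deriv F z)).restrictScalars ℝ) z :=
    hF.hasDerivAt.hasFDerivAt.restrictScalars ℝ
  exact (Complex.reCLM.hasFDerivAt.comp z h1).fderiv

theorem dz_re {F : ℂ → ℂ} {z : ℂ} (hF : DifferentiableAt ℂ F z) :
    dz (fun w => (F w).re) z = deriv F z := by
  unfold dz
  rw [hasFDerivAt_re hF]
  apply Complex.ext <;> simp

theorem dz_sub {u v : ℂ → ℝ} {z : ℂ} (hu : DifferentiableAt ℝ u z) (hv : DifferentiableAt ℝ v z) :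
    dz (fun w => u w - v w) z = dz u z - dz v z := by
  unfold dz
  rw [fderiv_fun_sub hu hv]
  simp
  ring

/-- Gradient estimate. -/
theorem norm_dz_le {v : ℂ → ℝ} {z : ℂ} {r M : ℝ} (hr : 0 < r) (hM : 0 < M)
    (hv : HarmonicOnNhd v (ball z r)) (hb : ∀ w ∈ ball z r, |v w| ≤ M) :
    ‖dz v z‖ ≤ 8 * M / r := by
  obtain ⟨F, hF, hre⟩ := HarmonicOnNhd.exists_analyticOnNhd_ball_re_eq hv
  have hz : z ∈ ball z r := mem_ball_self hr
  have h1 : v =ᶠ[𝓝 z] fun w => (F w).re := by
    filter_upwards [isOpen_ball.mem_nhds hz] with w hw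
    exact (hre hw).symm
  rw [dz_congr h1, dz_re (hF z hz).differentiableAt]
  refine norm_deriv_le_of_lip' (by positivity) ?_
  filter_upwards [ball_mem_nhds z (half_pos hr)] with w hw
  have hw' : ‖w - z‖ < r / 2 := by rwa [mem_ball, dist_eq_norm] at hw
  have h2 := Complex.borelCaratheodory_zero (f := fun ζ => F (z + ζ) - F z) (R := r) (M := 2 * M)
    (z := w - z) (by positivity) ?_ ?_ hr ?_ (by simp)
  · have h3 : z + (w - z) = w := by ring
    rw [h3] at h2
    refine h2.trans ?_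
    have h4 : 0 < r - ‖w - z‖ := by linarith
    rw [div_le_iff₀ h4]
    have h5 : r / 2 ≤ r - ‖w - z‖ := by linarith
    calc 2 * (2 * M) * ‖w - z‖ = 8 * M / r * ‖w - z‖ * (r / 2) := by field_simp; ring
      _ ≤ 8 * M / r * ‖w - z‖ * (r - ‖w - z‖) := by gcongr
  · intro ζ hζ
    have h3 : z + ζ ∈ ball z r := by
      rw [mem_ball_zero_iff] at hζ
      rw [mem_ball, dist_eq_norm]; simpa using hζ
    have h4 : DifferentiableAt ℂ F (z + ζ) := (hF _ h3).differentiableAt
    have h5 : DifferentiableAt ℂ (fun ζ => F (z + ζ)) ζ :=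
      h4.comp ζ ((differentiableAt_const z).add differentiableAt_id)
    exact (h5.sub_const _).differentiableWithinAt
  · intro ζ hζ
    have h3 : z + ζ ∈ ball z r := by
      rw [mem_ball_zero_iff] at hζ
      rw [mem_ball, dist_eq_norm]; simpa using hζ
    have h4 : (F (z + ζ)).re = v (z + ζ) := hre h3
    have h5 : (F z).re = v z := hre hz
    show (F (z + ζ) - F z).re ≤ 2 * M
    rw [sub_re, h4, h5]
    have a1 := (abs_le.1 (hb _ h3)).2
    have a2 := (abs_le.1 (hb _ hz)).1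
    linarith
  · rw [mem_ball_zero_iff]; linarith

end Vale.Agent.P167.BVP
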