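import Vale.Agent.P167.BVP.MaxP

/-!
# P167, block BVP: Hopf's lemma and the absence of boundary maxima under a Neumann condition
-/

open Set Metric Filter Topology InnerProductSpace Complex

namespace Vale.Agent.P167.BVP

/-- `log ‖z - a‖` is harmonic off `a`. -/
theorem harmonicAt_log_sub {a z : ℂ} (h : z ≠ a) : HarmonicAt (fun w => Real.log ‖w - a‖) z := by
  have h1 : AnalyticAt ℂ (fun w : ℂ => w - a) z := analyticAt_id.sub analyticAt_const
  exact AnalyticAt.harmonicAt_log_norm h1 (sub_ne_zero.2 h)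

/-- Hopf's lemma: `u < M` harmonic in the ball with centre `x + i δ` and radius `δ`, continuous on
the closed ball, `u ≤ M`: then `u` grows linearly (at least) at the boundary point `x`. -/
theorem hopf {u : ℂ → ℝ} {x : ℂ} {δ M : ℝ} (hδ : 0 < δ)
    (hc : ContinuousOn u (closedBall (x + δ * I) δ)) (hu : HarmonicOnNhd u (ball (x + δ * I) δ))
    (hlt : ∀ z ∈ ball (x + δ * I) δ, u z < M) (hle : ∀ z ∈ closedBall (x + δ * I) δ, u z ≤ M) :
    ∃ ε > 0, ∀ r : ℝ, 0 < r → r < δ / 2 → u (x + r * I) ≤ M - ε * r := by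
  set c : ℂ := x + δ * I with hcdef
  have hδ2 : 0 < δ / 2 := by positivity
  -- maximum on the inner circle
  have hcpt : IsCompact (sphere c (δ / 2)) := isCompact_sphere c (δ / 2)
  have hne : (sphere c (δ / 2)).Nonempty := NormedSpace.sphere_nonempty.2 hδ2.le
  have hsub : sphere c (δ / 2) ⊆ ball c δ := fun z hz => by
    rw [mem_sphere] at hz; rw [mem_ball]; linarith
  obtain ⟨z₀, hz₀, hmax⟩ := hcpt.exists_isMaxOn hne
    (hc.mono (hsub.trans ball_subset_closedBall))
  set m : ℝ := M - u z₀ with hm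
  have hmpos : 0 < m := by have := hlt z₀ (hsub hz₀); rw [hm]; linarith
  have hlog2 : 0 < Real.log 2 := Real.log_pos one_lt_two
  set κ : ℝ := m / Real.log 2 with hκ
  have hκpos : 0 < κ := by positivity
  -- the annulus
  set A : Set ℂ := {z | δ / 2 < ‖z - c‖ ∧ ‖z - c‖ < δ} with hA
  have hAo : IsOpen A := by
    have h1 : Continuous fun z : ℂ => ‖z - c‖ := by fun_prop
    exact (isOpen_lt continuous_const h1).inter (isOpen_lt h1 continuous_const)
  have hAb : Bornology.IsBounded A := by
    refine (Metric.isBounded_ball (x := c) (r := δ)).subset fun z hz => ?_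
    rw [mem_ball, dist_eq_norm]; exact hz.2
  have hAcl : closure A ⊆ {z | δ / 2 ≤ ‖z - c‖ ∧ ‖z - c‖ ≤ δ} := by
    refine closure_minimal (fun z hz => ⟨hz.1.le, hz.2.le⟩) ?_
    have h1 : Continuous fun z : ℂ => ‖z - c‖ := by fun_prop
    exact (isClosed_le continuous_const h1).inter (isClosed_le h1 continuous_const)
  set v : ℂ → ℝ := fun z => u z + κ * (Real.log δ - Real.log ‖z - c‖) with hv
  have hne0 : ∀ z, δ / 2 ≤ ‖z - c‖ → z ≠ c := by
    intro z hz h
    rw [h, sub_self, norm_zero] at hz
    linarith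
  have hvc : ContinuousOn v (closure A) := by
    refine ContinuousOn.add (hc.mono ?_) (ContinuousOn.mul continuousOn_const
      (continuousOn_const.sub (ContinuousOn.log (by fun_prop) ?_)))
    · intro z hz
      rw [mem_closedBall, dist_eq_norm]; exact (hAcl hz).2
    · intro z hz
      have := hne0 z (hAcl hz).1
      simpa [sub_eq_zero] using this
  have hvh : HarmonicOnNhd v A := by
    intro z hz
    have h1 : HarmonicAt u z := hu z (by rw [mem_ball, dist_eq_norm]; exact hz.2)
    have h2 : HarmonicAt (fun w => Real.log ‖w - c‖) z := harmonicAt_log_sub (hne0 z hz.1.le)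
    have h3 : HarmonicAt (fun _ : ℂ => Real.log δ) z := by
      refine ⟨contDiffAt_const, ?_⟩
      have : Laplacian.laplacian (fun _ : ℂ => Real.log δ) = 0 := by
        ext w
        rw [laplacian_eq_iteratedFDeriv_complexPlane]
        simp [iteratedFDeriv_const_of_ne]
      rw [this]
    have h4 := h1.add ((h3.sub h2).const_smul (c := κ))
    refine (harmonicAt_congr_nhds ?_).1 h4
    exact Filter.Eventually.of_forall fun w => by simp [hv]
  have hfr : ∀ z ∈ frontier A, v z ≤ M := by
    intro z hz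
    have hzc := hAcl (frontier_subset_closure hz)
    have hznA : z ∉ A := fun h => by
      rw [hAo.frontier_eq] at hz; exact hz.2 h
    rcases eq_or_lt_of_le hzc.1 with h1 | h1
    · have hzs : z ∈ sphere c (δ / 2) := by rw [mem_sphere, dist_eq_norm]; exact h1.symm
      have h2 := hmax hzs
      simp only [hv]
      rw [← h1, ← Real.log_div hδ.ne' hδ2.ne', show δ / (δ / 2) = 2 by field_simp, hκ,
        div_mul_cancel₀ _ hlog2.ne', hm]
      have h3 : u z ≤ u z₀ := h2
      linarith
    · rcases eq_or_lt_of_le hzc.2 with h2 | h2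
      · simp only [hv]
        rw [h2, sub_self, mul_zero, add_zero]
        exact hle z (by rw [mem_closedBall, dist_eq_norm]; exact hzc.2)
      · exact absurd ⟨h1, h2⟩ hznA
  have key := le_of_frontier hAo hAb hvc hvh hfr
  refine ⟨κ / δ, by positivity, ?_⟩
  intro r hr hr2
  have hnorm : ‖(x + r * I) - c‖ = δ - r := by
    have : (x + r * I) - c = ((r - δ : ℝ) : ℂ) * I := by
      rw [hcdef]; push_cast; ring
    rw [this, norm_mul, norm_I, mul_one, Complex.norm_real, Real.norm_eq_abs, abs_of_neg (by linarith)]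
    ring
  have hmem : x + r * I ∈ closure A := subset_closure ⟨by rw [hnorm]; linarith, by rw [hnorm]; linarith⟩
  have h1 := key _ hmem
  simp only [hv] at h1
  rw [hnorm] at h1
  have h2 : r / δ ≤ Real.log δ - Real.log (δ - r) := by
    rw [← Real.log_div hδ.ne' (by linarith)]
    have h3 := Real.one_sub_inv_le_log_of_pos (x := δ / (δ - r)) (by
      apply div_pos hδ; linarith)
    rw [inv_div] at h3
    calc r / δ = 1 - (δ - r) / δ := by field_simp; ring
      _ ≤ _ := h3
  have h4 : κ * (r / δ) ≤ κ * (Real.log δ - Real.log (δ - r)) := by gcongr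
  have h5 : κ / δ * r = κ * (r / δ) := by ring
  rw [h5]
  linarith

/-- The Neumann condition (from above) at the point `x`. -/
def Neu (u : ℂ → ℝ) (x : ℂ) : Prop :=
  Tendsto (fun r : ℝ => (u (x + r * I) - u x) / r) (𝓝[>] 0) (𝓝 0)

/-- Under a Neumann condition there is no strict boundary maximum. -/
theorem not_max_of_neu {u : ℂ → ℝ} {x : ℂ} {δ : ℝ} (hδ : 0 < δ)
    (hc : ContinuousOn u (closedBall (x + δ * I) δ)) (hu : HarmonicOnNhd u (ball (x + δ * I) δ))
    (hlt : ∀ z ∈ ball (x + δ * I) δ, u z < u x)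
    (hle : ∀ z ∈ closedBall (x + δ * I) δ, u z ≤ u x) : ¬ Neu u x := by
  intro hN
  obtain ⟨ε, hε, h⟩ := hopf hδ hc hu hlt hle
  have h1 : ∀ᶠ r : ℝ in 𝓝[>] 0, (u (x + r * I) - u x) / r ≤ -ε := by
    have h2 : ∀ᶠ r : ℝ in 𝓝[>] 0, r < δ / 2 :=
      nhdsWithin_le_nhds (eventually_lt_nhds (by positivity))
    filter_upwards [self_mem_nhdsWithin, h2] with r hr hr2
    have hr' : (0 : ℝ) < r := hr
    rw [div_le_iff₀ hr']
    have := h r hr' hr2
    linarith
  have h3 := le_of_tendsto hN h1
  linarith

end Vale.Agent.P167.BVP
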