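import Vale.Agent.P167.BVP.Poly
import Vale.Agent.P167.CA.Asm

/-!
# P167, block BVP: the input `I_BVP` of CORE-ASM
-/

namespace Vale.Agent.P167.BVP

/-- **The Neumann problem in a lattice polygon**, in the form of `CA/Asm.lean`. -/
theorem i_bvp : CA.I_BVP := by
  intro S ψ g hP f W s hf hW hw hN
  exact poly_bvp' S hP hf hW hw hN

end Vale.Agent.P167.BVP
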