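import Vale.Agent.P167.BVP.Grad

/-!
# P167, block BVP: Liouville's theorem with logarithmic singularities
-/

open Set Metric Filter Topology InnerProductSpace Complex Real

namespace Vale.Agent.P167.BVP

/-- Removing finitely many isolated singularities. -/
theorem entire_of_bounded {E : ℂ → ℂ} {K : Finset ℂ}
    (hE : ∀ z ∉ K, DifferentiableAt ℂ E z)
    (hb : ∀ x ∈ K, (fun z => E z) =o[𝓝[≠] x] fun z => (z - x)⁻¹) :
    ∃ E' : ℂ → ℂ, Differentiable ℂ E' ∧ ∀ z ∉ K, E' z = E z := by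
  classical
  refine ⟨fun z => if z ∈ K then limUnder (𝓝[≠] z) E else E z, ?_, fun z hz => by simp [hz]⟩
  intro z
  have hfin : ∀ᶠ w in 𝓝[≠] z, w ∉ K := by
    have h1 : (K.erase z : Set ℂ).Finite := (K.erase z).finite_toSet
    have h2 : ∀ᶠ w in 𝓝 z, w ∉ (K.erase z : Set ℂ) :=
      h1.isClosed.isOpen_compl.mem_nhds (by simp)
    filter_upwards [nhdsWithin_le_nhds h2, self_mem_nhdsWithin] with w hw hwz hwK
    exact hw (Finset.mem_coe.2 (Finset.mem_erase.2 ⟨hwz, hwK⟩))
  by_cases hz : z ∈ K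
  · have hd : ∀ᶠ w in 𝓝[≠] z, DifferentiableAt ℂ E w := hfin.mono fun w hw => hE w hw
    have hs : {w | w ∉ K} ∈ 𝓝[≠] z := hfin
    have hbE : (fun w => E w - E z) =o[𝓝[≠] z] fun w => (w - z)⁻¹ := by
      refine (hb z hz).sub ?_
      have h1 : Tendsto (fun w : ℂ => w - z) (𝓝[≠] z) (𝓝[≠] 0) := by
        rw [tendsto_nhdsWithin_iff]
        refine ⟨?_, ?_⟩
        · have h2 : Continuous fun w : ℂ => w - z := by fun_prop
          have := (h2.tendsto z).mono_left (nhdsWithin_le_nhds (s := {z}ᶜ))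
          simpa using this
        · filter_upwards [self_mem_nhdsWithin] with w hw
          exact sub_ne_zero.2 hw
      have h6 : Tendsto (fun x : ℂ ↦ ‖x⁻¹‖) (𝓝[≠] 0) atTop :=
        tendsto_norm_cobounded_atTop.comp Filter.tendsto_inv₀_nhdsNE_zero
      have h2 : Tendsto (fun w : ℂ => ‖(w - z)⁻¹‖) (𝓝[≠] z) atTop := h6.comp h1
      exact Asymptotics.isLittleO_const_left.2 (Or.inr h2)
    have h3 := Complex.differentiableOn_update_limUnder_insert_of_isLittleO (f := E) (c := z) hs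
      (fun w hw => (hE w hw).differentiableWithinAt) hbE
    have h4 : insert z {w | w ∉ K} ∈ 𝓝 z := insert_mem_nhds_iff.2 hs
    refine (h3.differentiableAt h4).congr_of_eventuallyEq ?_
    have h5 : ∀ᶠ w in 𝓝 z, w ≠ z → w ∉ K := eventually_nhdsWithin_iff.1 hfin
    filter_upwards [h5] with w hw
    by_cases hwz : w = z
    · subst hwz; simp [hz]
    · simp [Function.update_of_ne hwz, hw hwz]
  · refine (hE z hz).congr_of_eventuallyEq ?_
    have h5 : ∀ᶠ w in 𝓝 z, w ≠ z → w ∉ K := eventually_nhdsWithin_iff.1 hfin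
    filter_upwards [h5] with w hw
    by_cases hwz : w = z
    · subst hwz; simp [hz]
    · simp [hw hwz]

/-- `t log` bound used below. -/
theorem tendsto_mul_log : Tendsto (fun t : ℝ => t * (1 + |Real.log t|)) (𝓝[>] 0) (𝓝 0) := by
  have h1 : Tendsto (fun t : ℝ => t * |Real.log t|) (𝓝[>] 0) (𝓝 0) := by
    have h2 : Tendsto (fun t : ℝ => |Real.log t * t|) (𝓝[>] 0) (𝓝 0) := by
      have := (tendsto_log_mul_rpow_nhdsGT_zero (r := 1) one_pos).abs
      simpa using this
    refine h2.congr' ?_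
    filter_upwards [self_mem_nhdsWithin] with t ht
    rw [abs_mul, abs_of_pos (show (0 : ℝ) < t from ht), mul_comm]
  have h3 : Tendsto (fun t : ℝ => t) (𝓝[>] 0) (𝓝 0) := nhdsWithin_le_nhds
  have := h3.add h1
  rw [add_zero] at this
  refine this.congr fun t => ?_
  ring

/-- Logarithmic growth of `v` at `x`. -/
def LogAt (v : ℂ → ℝ) (x : ℂ) : Prop :=
  ∃ C : ℝ, ∀ᶠ z in 𝓝[≠] x, |v z| ≤ C * (1 + |Real.log ‖z - x‖|)

/-- Logarithmic growth of `v` at infinity. -/
def LogInf (v : ℂ → ℝ) : Prop :=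
  ∃ C R : ℝ, ∀ z : ℂ, R ≤ ‖z‖ → |v z| ≤ C * (1 + Real.log ‖z‖)

/-- At a logarithmic singularity `(z - x) v_z` grows at most logarithmically. -/
theorem dz_bound {v : ℂ → ℝ} {x : ℂ} (hv : ∀ᶠ z in 𝓝[≠] x, HarmonicAt v z) (hl : LogAt v x) :
    ∃ C : ℝ, 0 < C ∧ ∀ᶠ z in 𝓝[≠] x, ‖dz v z‖ ≤ C * (1 + |Real.log ‖z - x‖|) / ‖z - x‖ := by
  obtain ⟨C, hC⟩ := hl
  obtain ⟨ρ, hρ, hball⟩ := Metric.mem_nhdsWithin_iff.1 (hv.and hC)
  set C' : ℝ := max C 0 + 1 with hC'
  have hC'1 : 0 < C' := by positivity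
  have hCC' : C ≤ C' := by rw [hC']; have := le_max_left C 0; linarith
  refine ⟨16 * C' * 2, by positivity, ?_⟩
  rw [eventually_nhdsWithin_iff]
  filter_upwards [ball_mem_nhds x (show 0 < min (ρ / 2) 1 by positivity)] with z hz hzx
  rw [mem_ball, dist_eq_norm] at hz
  have hz0 : 0 < ‖z - x‖ := norm_pos_iff.2 (sub_ne_zero.2 hzx)
  set r : ℝ := ‖z - x‖ with hr
  have hr1 : r < ρ / 2 := hz.trans_le (min_le_left _ _)
  have hr2 : r < 1 := hz.trans_le (min_le_right _ _)
  have hlog : Real.log r ≤ 0 := Real.log_nonpos hz0.le hr2.le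
  have hmem : ∀ w ∈ ball z (r / 2), w ∈ ball x ρ ∩ {x}ᶜ ∧ r / 2 ≤ ‖w - x‖ ∧ ‖w - x‖ ≤ 2 * r := by
    intro w hw
    rw [mem_ball, dist_eq_norm] at hw
    have a1 : ‖w - x‖ ≤ ‖w - z‖ + ‖z - x‖ := norm_sub_le_norm_sub_add_norm_sub w z x
    have a2 : ‖z - x‖ ≤ ‖z - w‖ + ‖w - x‖ := norm_sub_le_norm_sub_add_norm_sub z w x
    rw [norm_sub_rev z w] at a2
    have a3 : r / 2 ≤ ‖w - x‖ := by linarith
    refine ⟨⟨?_, ?_⟩, a3, by linarith⟩
    · rw [mem_ball, dist_eq_norm]; linarith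
    · intro h
      rw [mem_singleton_iff] at h
      rw [h, sub_self, norm_zero] at a3
      linarith
  have hM : ∀ w ∈ ball z (r / 2), |v w| ≤ C' * (2 * (1 + |Real.log r|)) := by
    intro w hw
    obtain ⟨h1, h2, h3⟩ := hmem w hw
    have h4 := (hball h1).2
    have h5 : |Real.log ‖w - x‖| ≤ |Real.log r| + Real.log 2 := by
      have hw0 : 0 < ‖w - x‖ := by linarith
      have b1 : Real.log (r / 2) ≤ Real.log ‖w - x‖ := Real.log_le_log (by positivity) h2
      have b2 : Real.log ‖w - x‖ ≤ Real.log (2 * r) := Real.log_le_log hw0 h3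
      rw [Real.log_div hz0.ne' two_ne_zero] at b1
      rw [Real.log_mul two_ne_zero hz0.ne'] at b2
      rw [abs_of_nonpos hlog]
      have hl2 : 0 < Real.log 2 := Real.log_pos one_lt_two
      rw [abs_le]
      constructor <;> linarith
    have h6 : Real.log 2 ≤ 1 := by
      have := Real.log_two_lt_d9; linarith
    have h7 : 0 ≤ |Real.log r| := abs_nonneg _
    calc |v w| ≤ C * (1 + |Real.log ‖w - x‖|) := h4
      _ ≤ C' * (1 + |Real.log ‖w - x‖|) := by gcongr
      _ ≤ C' * (2 * (1 + |Real.log r|)) := by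
        apply mul_le_mul_of_nonneg_left _ hC'1.le
        linarith
  have h8 := norm_dz_le (v := v) (z := z) (r := r / 2) (M := C' * (2 * (1 + |Real.log r|)))
    (by positivity) (by positivity) (fun w hw => (hball (hmem w hw).1).1) hM
  refine h8.trans (le_of_eq ?_)
  field_simp
  ring

theorem dz_inf {v : ℂ → ℝ} {R₀ : ℝ} (hv : ∀ z : ℂ, R₀ ≤ ‖z‖ → HarmonicAt v z) (hl : LogInf v) :
    Tendsto (dz v) (cocompact ℂ) (𝓝 0) := by
  obtain ⟨C, R, hC⟩ := hl
  set C' : ℝ := max C 0 + 1 with hC'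
  have hC'1 : 0 < C' := by positivity
  have hCC' : C ≤ C' := by rw [hC']; have := le_max_left C 0; linarith
  -- bound
  have hbd : ∀ z : ℂ, 2 * (max (max R R₀) 1) < ‖z‖ →
      ‖dz v z‖ ≤ 16 * C' * 2 * ((1 + Real.log ‖z‖) / ‖z‖) := by
    intro z hz
    set r : ℝ := ‖z‖ with hr
    have hm1 : (1 : ℝ) ≤ max (max R R₀) 1 := le_max_right _ _
    have hm2 : R ≤ max (max R R₀) 1 := (le_max_left R R₀).trans (le_max_left _ _)
    have hm3 : R₀ ≤ max (max R R₀) 1 := (le_max_right R R₀).trans (le_max_left _ _)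
    have hr2 : 2 < r := by linarith
    have hlogr : 0 ≤ Real.log r := Real.log_nonneg (by linarith)
    have hmem : ∀ w ∈ ball z (r / 2), r / 2 ≤ ‖w‖ ∧ ‖w‖ ≤ 2 * r := by
      intro w hw
      rw [mem_ball, dist_eq_norm] at hw
      have a1 : ‖w‖ ≤ ‖w - z‖ + ‖z‖ := by
        have := norm_add_le (w - z) z; simpa using this
      have a2 : ‖z‖ ≤ ‖z - w‖ + ‖w‖ := by
        have := norm_add_le (z - w) w; simpa using this
      rw [norm_sub_rev z w] at a2
      constructor <;> linarith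
    have hM : ∀ w ∈ ball z (r / 2), |v w| ≤ C' * (2 * (1 + Real.log r)) := by
      intro w hw
      obtain ⟨h2, h3⟩ := hmem w hw
      have h4 := hC w (by linarith)
      have hw0 : 0 < ‖w‖ := by linarith
      have b2 : Real.log ‖w‖ ≤ Real.log (2 * r) := Real.log_le_log hw0 h3
      rw [Real.log_mul two_ne_zero (by linarith)] at b2
      have b3 : 0 ≤ Real.log ‖w‖ := Real.log_nonneg (by linarith)
      have h6 : Real.log 2 ≤ 1 := by
        have := Real.log_two_lt_d9; linarith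
      calc |v w| ≤ C * (1 + Real.log ‖w‖) := h4
        _ ≤ C' * (1 + Real.log ‖w‖) := by gcongr
        _ ≤ C' * (2 * (1 + Real.log r)) := by
          apply mul_le_mul_of_nonneg_left _ hC'1.le
          linarith
    have h8 := norm_dz_le (v := v) (z := z) (r := r / 2) (M := C' * (2 * (1 + Real.log r)))
      (by linarith) (by positivity) (fun w hw => hv w (by have := (hmem w hw).1; linarith)) hM
    refine h8.trans (le_of_eq ?_)
    have : r ≠ 0 := by linarith
    field_simp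
    ring
  have hT : Tendsto (fun t : ℝ => (1 + Real.log t) / t) atTop (𝓝 0) := by
    have h1 : Tendsto (fun t : ℝ => (1 : ℝ) / t) atTop (𝓝 0) :=
      (tendsto_const_nhds (x := (1 : ℝ))).div_atTop tendsto_id
    have h2 : Tendsto (fun t : ℝ => Real.log t / t) atTop (𝓝 0) := by
      have := Real.isLittleO_log_id_atTop.tendsto_div_nhds_zero
      simpa using this
    have := h1.add h2
    rw [add_zero] at this
    refine this.congr fun t => ?_
    ring
  have hT2 : Tendsto (fun z : ℂ => 16 * C' * 2 * ((1 + Real.log ‖z‖) / ‖z‖)) (cocompact ℂ) (𝓝 0) := by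
    have := (hT.comp (tendsto_norm_cocompact_atTop (E := ℂ))).const_mul (16 * C' * 2)
    simpa using this
  refine squeeze_zero_norm' ?_ hT2
  have h9 := (tendsto_norm_cocompact_atTop (E := ℂ)).eventually_gt_atTop (2 * (max (max R R₀) 1))
  filter_upwards [h9] with z hz using hbd z hz

end Vale.Agent.P167.BVP
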