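import Vale.Agent.P167.BVP.Bvp

/-!
# P167, block BVP: the conformal map near a flat boundary point
-/

open Set Metric Filter Topology InnerProductSpace Complex MeasureTheory
open scoped ComplexConjugate ContDiff Convolution

namespace Vale.Agent.P167.BVP

/-- Inverse conformal maps between the half-plane and `D`. -/
structure Pair (D : Set ℂ) (φ g : ℂ → ℂ) : Prop where
  conf : Conf D g
  diff : ∀ ζ : ℂ, 0 < ζ.im → DifferentiableAt ℂ φ ζ
  right : ∀ ζ : ℂ, 0 < ζ.im → φ ζ ∈ D ∧ g (φ ζ) = ζ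
  left : ∀ z ∈ D, φ (g z) = z

/-- The local form of `g` at the flat boundary point `q = φ x` with inner normal `ν`:
`g (q - i ν ζ) = H ζ`, `H` holomorphic near `0`, `H 0 = x`, `H' 0 ≠ 0`. -/
structure LocalH (D : Set ℂ) (g H : ℂ → ℂ) (x : ℝ) (q ν : ℂ) (r : ℝ) : Prop where
  pos : 0 < r
  norm : ‖ν‖ = 1
  diff : DifferentiableOn ℂ H (ball 0 r)
  zero : H 0 = x
  inj : InjOn H (ball 0 r)
  conj_eq : ∀ ζ ∈ ball (0 : ℂ) r, H (conj ζ) = conj (H ζ)
  mem : ∀ ζ ∈ ball (0 : ℂ) r, 0 < ζ.im → q - I * ν * ζ ∈ D ∧ g (q - I * ν * ζ) = H ζ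
  im_pos : ∀ ζ ∈ ball (0 : ℂ) r, 0 < ζ.im → 0 < (H ζ).im

theorem straight_deriv_ne {G : ℂ → ℂ} {x r : ℝ} (hr : 0 < r)
    (hd : DifferentiableOn ℂ G (ball (x : ℂ) r)) (h0 : G x = 0)
    (hc : ∀ z ∈ ball (x : ℂ) r, G (conj z) = conj (G z))
    (hp : ∀ z ∈ ball (x : ℂ) r, 0 < z.im → 0 < (G z).im) : deriv G x ≠ 0 := by
  intro hder
  have hxb : (x : ℂ) ∈ ball (x : ℂ) r := mem_ball_self hr
  have han : AnalyticOnNhd ℂ G (ball (x : ℂ) r) := hd.analyticOnNhd isOpen_ball
  set δ : ℝ := r / 4 with hδ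
  have hδ0 : 0 < δ := by positivity
  have hsub : closedBall ((x : ℂ) + δ * I) δ ⊆ ball (x : ℂ) r := by
    intro z hz
    rw [mem_closedBall, dist_eq_norm] at hz
    rw [mem_ball, dist_eq_norm]
    calc ‖z - x‖ = ‖(z - (x + δ * I)) + δ * I‖ := by congr 1; ring
      _ ≤ ‖z - (x + δ * I)‖ + ‖(δ : ℂ) * I‖ := norm_add_le _ _
      _ ≤ δ + δ := by
          refine add_le_add hz ?_
          rw [norm_mul, norm_I, mul_one, norm_real, Real.norm_eq_abs, abs_of_pos hδ0]
      _ < r := by linarith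
  set u : ℂ → ℝ := fun z => -(G z).im with hu
  have hucont : ContinuousOn u (closedBall ((x : ℂ) + δ * I) δ) :=
    (Complex.continuous_im.comp_continuousOn (hd.continuousOn.mono hsub)).neg
  have huharm : HarmonicOnNhd u (ball ((x : ℂ) + δ * I) δ) := by
    intro z hz
    have h1 : AnalyticAt ℂ (fun w => I * G w) z :=
      analyticAt_const.mul (han z (hsub (ball_subset_closedBall hz)))
    refine harmonicAt_of_re h1 (Eventually.of_forall fun w => ?_)
    simp [hu]
  have him : ∀ z ∈ ball ((x : ℂ) + δ * I) δ, 0 < z.im := by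
    intro z hz
    rw [mem_ball, dist_eq_norm] at hz
    have h1 := Complex.abs_im_le_norm (z - (x + δ * I))
    have h2 : (z - (x + δ * I)).im = z.im - δ := by simp
    rw [h2] at h1
    have h3 := (abs_lt.1 (h1.trans_lt hz)).1
    linarith
  have him' : ∀ z ∈ closedBall ((x : ℂ) + δ * I) δ, 0 ≤ z.im := by
    intro z hz
    rw [mem_closedBall, dist_eq_norm] at hz
    have h1 := Complex.abs_im_le_norm (z - (x + δ * I))
    have h2 : (z - (x + δ * I)).im = z.im - δ := by simp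
    rw [h2] at h1
    have h3 := (abs_le.1 (h1.trans hz)).1
    linarith
  have hlt : ∀ z ∈ ball ((x : ℂ) + δ * I) δ, u z < 0 := by
    intro z hz
    have := hp z (hsub (ball_subset_closedBall hz)) (him z hz)
    simp only [hu]; linarith
  have hle : ∀ z ∈ closedBall ((x : ℂ) + δ * I) δ, u z ≤ 0 := by
    intro z hz
    simp only [hu]
    rcases (him' z hz).lt_or_eq with h | h
    · have := hp z (hsub hz) h; linarith
    · have h1 := hc z (hsub hz)
      have h2 : conj z = z := by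
        apply Complex.ext <;> simp [← h]
      rw [h2] at h1
      have h3 := congrArg Complex.im h1
      simp at h3
      linarith
  obtain ⟨ε, hε, hH⟩ := hopf (u := u) (M := 0) hδ0 hucont huharm hlt hle
  · -- contradiction with the zero derivative
    have h1 : HasDerivAt G 0 x := by
      have := (han x hxb).differentiableAt.hasDerivAt
      rwa [hder] at this
    have h2 : HasDerivAt (fun t : ℝ => G (x + t * I)) 0 0 := by
      have h3 : HasDerivAt (fun t : ℝ => (x : ℂ) + t * I) (1 * I) 0 :=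
        ((Complex.ofRealCLM.hasDerivAt (x := 0)).mul_const I).const_add _
      have h4 : HasDerivAt G 0 ((x : ℂ) + ((0 : ℝ) : ℂ) * I) := by simpa using h1
      have := h4.comp_of_eq (0 : ℝ) h3 rfl
      simpa [Function.comp_def] using this
    have h5 : Tendsto (fun t : ℝ => t⁻¹ • (G (x + t * I) - G x)) (𝓝[≠] 0) (𝓝 0) := by
      have := hasDerivAt_iff_tendsto_slope_zero.1 h2
      simpa using this
    have h6 : Tendsto (fun t : ℝ => (t⁻¹ • (G (x + t * I) - G x)).im) (𝓝[>] 0) (𝓝 0) := by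
      exact (Complex.continuous_im.tendsto' 0 0 rfl).comp
        (h5.mono_left (nhdsWithin_mono _ fun t ht => ne_of_gt ht))
    have h8 : ∀ᶠ t : ℝ in 𝓝[>] 0, ε ≤ (t⁻¹ • (G (x + t * I) - G x)).im := by
      have h9 : ∀ᶠ t : ℝ in 𝓝[>] 0, t < δ / 2 :=
        nhdsWithin_le_nhds (gt_mem_nhds (by positivity))
      filter_upwards [h9, self_mem_nhdsWithin] with t ht ht0
      have ht0' : (0 : ℝ) < t := ht0
      have h10 := hH t ht0' ht
      simp only [hu, zero_sub] at h10
      rw [h0, sub_zero, Complex.smul_im, smul_eq_mul, inv_mul_eq_div, le_div_iff₀ ht0']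
      linarith
    have := ge_of_tendsto h6 h8
    linarith

theorem exists_local {D : Set ℂ} {φ g : ℂ → ℂ} (hP : Pair D φ g) {x : ℝ} {q ν : ℂ} {ρ : ℝ}
    (hM : MapFlat D φ x q ν ρ) : ∃ (H : ℂ → ℂ) (r : ℝ), LocalH D g H x q ν r ∧
      deriv H 0 ≠ 0 ∧ HasDerivWithinAt φ (-(I * ν) * (deriv H 0)⁻¹) {z | 0 ≤ z.im} x := by
  obtain ⟨G, r₀, hr₀, hGd, hG0, hGc, _, hback, hGp⟩ := exists_straight hM
  have hxb : (x : ℂ) ∈ ball (x : ℂ) r₀ := mem_ball_self hr₀
  have hne := straight_deriv_ne hr₀ hGd hG0 hGc hGp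
  have han : AnalyticOnNhd ℂ G (ball (x : ℂ) r₀) := hGd.analyticOnNhd isOpen_ball
  have hst : HasStrictDerivAt G (deriv G x) x := (han x hxb).hasStrictDerivAt
  set e := (hst.hasStrictFDerivAt_equiv hne).toOpenPartialHomeomorph G with he
  have hecoe : (e : ℂ → ℂ) = G := (hst.hasStrictFDerivAt_equiv hne).toOpenPartialHomeomorph_coe
  have hxs : (x : ℂ) ∈ e.source := (hst.hasStrictFDerivAt_equiv hne).mem_toOpenPartialHomeomorph_source
  -- a ball in the source on which everything is fine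
  have hdc : ContinuousAt (deriv G) x := (han x hxb).deriv.continuousAt
  have h1 : ∀ᶠ z in 𝓝 (x : ℂ), deriv G z ≠ 0 := hdc.eventually_ne hne
  obtain ⟨r₁, hr₁, hr₁'⟩ := Metric.eventually_nhds_iff_ball.1
    ((h1.and (e.open_source.mem_nhds hxs)).and (isOpen_ball.mem_nhds hxb))
  set H : ℂ → ℂ := fun ζ => e.symm ζ with hH
  have hH0 : H 0 = x := by
    have : e.symm (e x) = x := e.left_inv hxs
    rwa [hecoe, hG0] at this
  have h0t : (0 : ℂ) ∈ e.target := by
    have := e.map_source hxs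
    rwa [hecoe, hG0] at this
  have hHc : ContinuousAt H 0 := e.symm.continuousAt h0t
  have h2 : ∀ᶠ ζ in 𝓝 (0 : ℂ), H ζ ∈ ball (x : ℂ) r₁ := by
    have h3 : ball (x : ℂ) r₁ ∈ 𝓝 (H 0) := by rw [hH0]; exact ball_mem_nhds _ hr₁
    exact hHc.eventually h3
  obtain ⟨r, hr, hr'⟩ := Metric.eventually_nhds_iff_ball.1 (h2.and (e.open_target.mem_nhds h0t))
  have hmem : ∀ ζ ∈ ball (0 : ℂ) r, H ζ ∈ ball (x : ℂ) r₁ := fun ζ h => (hr' ζ h).1
  have htar : ∀ ζ ∈ ball (0 : ℂ) r, ζ ∈ e.target := fun ζ h => (hr' ζ h).2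
  have hGH : ∀ ζ ∈ ball (0 : ℂ) r, G (H ζ) = ζ := by
    intro ζ hζ
    have := e.right_inv (htar ζ hζ)
    rwa [hecoe] at this
  have hHder : ∀ ζ ∈ ball (0 : ℂ) r, HasDerivAt H (deriv G (H ζ))⁻¹ ζ := by
    intro ζ hζ
    have h4 := hmem ζ hζ
    have h5 : HasDerivAt G (deriv G (H ζ)) (H ζ) :=
      (han _ (hr₁' _ h4).2).differentiableAt.hasDerivAt
    refine e.hasDerivAt_symm (htar ζ hζ) (hr₁' _ h4).1.1 ?_
    rw [hecoe]; exact h5
  have hconjball : ∀ z ∈ ball (x : ℂ) r₁, conj z ∈ ball (x : ℂ) r₁ := by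
    intro z hz
    rw [mem_ball, dist_eq_norm] at hz ⊢
    have : conj z - (x : ℂ) = conj (z - x) := by simp
    rwa [this, norm_conj]
  have hHconj : ∀ ζ ∈ ball (0 : ℂ) r, H (conj ζ) = conj (H ζ) := by
    intro ζ hζ
    have h4 := hmem ζ hζ
    have h5 := hconjball _ h4
    have h6 : e.symm (e (conj (H ζ))) = conj (H ζ) := e.left_inv (hr₁' _ h5).1.2
    rw [hecoe, hGc _ (hr₁' _ h4).2, hGH ζ hζ] at h6
    exact h6
  have him : ∀ ζ ∈ ball (0 : ℂ) r, 0 < ζ.im → 0 < (H ζ).im := by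
    intro ζ hζ hpos
    have h4 := hmem ζ hζ
    rcases lt_trichotomy (H ζ).im 0 with h | h | h
    · exfalso
      have h5 := hGp _ (hr₁' _ (hconjball _ h4)).2 (by simpa using h)
      rw [hGc _ (hr₁' _ h4).2, hGH ζ hζ] at h5
      simp at h5
      linarith
    · exfalso
      have h5 : conj (H ζ) = H ζ := by apply Complex.ext <;> simp [h]
      have h6 := hGc _ (hr₁' _ h4).2
      rw [h5, hGH ζ hζ] at h6
      have h7 := congrArg Complex.im h6
      simp at h7
      linarith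
    · exact h
  have hG'0 : deriv H 0 = (deriv G x)⁻¹ := by
    have := (hHder 0 (mem_ball_self hr)).deriv
    rwa [hH0] at this
  refine ⟨H, r, ⟨hr, hM.flat.norm, fun ζ hζ => (hHder ζ hζ).differentiableAt.differentiableWithinAt,
    hH0, ?_, hHconj, ?_, him⟩, ?_, ?_⟩
  · intro a ha b hb hab
    have := congrArg G hab
    rwa [hGH a ha, hGH b hb] at this
  · intro ζ hζ hpos
    have h4 := hmem ζ hζ
    have h5 := him ζ hζ hpos
    have h6 := hback _ (hr₁' _ h4).2 h5.le
    rw [hGH ζ hζ] at h6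
    rw [h6]
    exact hP.right _ h5
  · rw [hG'0]; exact inv_ne_zero hne
  · rw [hG'0, inv_inv]
    have h4 : HasDerivAt (fun z => q - I * ν * G z) (-(I * ν) * deriv G x) x := by
      have := ((han x hxb).differentiableAt.hasDerivAt.const_mul (I * ν)).const_sub q
      simpa [neg_mul] using this
    refine h4.hasDerivWithinAt.congr_of_eventuallyEq ?_ ?_
    · filter_upwards [mem_nhdsWithin_of_mem_nhds (isOpen_ball.mem_nhds hxb), self_mem_nhdsWithin]
        with z hz hz0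
      exact (hback z hz hz0).symm
    · exact (hback x hxb (by simp)).symm

end Vale.Agent.P167.BVP
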