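import Mathlib

/-!
# P167, block BVP: maximum principles for real harmonic functions in the plane
-/

open Set Metric Filter Topology InnerProductSpace Complex

namespace Vale.Agent.P167.BVP

/-- A harmonic function with a local maximum is locally constant. -/
theorem eventually_const_of_isLocalMax {u : ℂ → ℝ} {z : ℂ} (hu : HarmonicAt u z)
    (hm : IsLocalMax u z) : ∀ᶠ w in 𝓝 z, u w = u z := by
  obtain ⟨r, hr, hball⟩ := Metric.eventually_nhds_iff_ball.1 hu.eventually
  obtain ⟨F, hF, hre⟩ := HarmonicOnNhd.exists_analyticOnNhd_ball_re_eq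
    (f := u) (z := z) (R := r) (fun w hw => hball w hw)
  have hz : z ∈ ball z r := mem_ball_self hr
  have hrz : (F z).re = u z := hre hz
  have hre' : ∀ᶠ w in 𝓝 z, (F w).re = u w := by
    filter_upwards [ball_mem_nhds z hr] with w hw using hre hw
  have hd : ∀ᶠ w in 𝓝 z, DifferentiableAt ℂ (fun w => Complex.exp (F w)) w := by
    filter_upwards [ball_mem_nhds z hr] with w hw
    exact (hF w hw).differentiableAt.cexp
  have hmax : IsLocalMax (norm ∘ fun w => Complex.exp (F w)) z := by
    filter_upwards [hm, hre'] with w h1 h2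
    simp only [Function.comp, Complex.norm_exp, Real.exp_le_exp]
    rw [h2, hrz]
    exact h1
  have h3 := Complex.eventually_eq_of_isLocalMax_norm hd hmax
  filter_upwards [h3, hre'] with w h4 h5
  have h6 : ‖Complex.exp (F w)‖ = ‖Complex.exp (F z)‖ := by rw [h4]
  rw [Complex.norm_exp, Complex.norm_exp, Real.exp_eq_exp] at h6
  rw [← h5, h6, hrz]

/-- Weak maximum principle. -/
theorem le_of_frontier {U : Set ℂ} (hU : IsOpen U) (hb : Bornology.IsBounded U) {u : ℂ → ℝ}
    (hc : ContinuousOn u (closure U)) (hu : HarmonicOnNhd u U) {M : ℝ}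
    (hM : ∀ z ∈ frontier U, u z ≤ M) : ∀ z ∈ closure U, u z ≤ M := by
  by_contra hcon
  push Not at hcon
  obtain ⟨z₁, hz₁, hz₁M⟩ := hcon
  have hK : IsCompact (closure U) := hb.isCompact_closure
  obtain ⟨z₀, hz₀, hmax⟩ := hK.exists_isMaxOn ⟨z₁, hz₁⟩ hc
  have hm : M < u z₀ := hz₁M.trans_le (hmax hz₁)
  have hnot : ∀ z ∈ closure U, u z = u z₀ → z ∈ U := by
    intro z hz h
    by_contra hzU
    have : z ∈ frontier U := by rw [hU.frontier_eq]; exact ⟨hz, hzU⟩
    linarith [hM z this]
  set S : Set ℂ := {z | z ∈ U ∧ u z = u z₀} with hS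
  have hSo : IsOpen S := by
    rw [isOpen_iff_mem_nhds]
    rintro z ⟨hzU, hz⟩
    have hloc : IsLocalMax u z := by
      filter_upwards [hU.mem_nhds hzU] with w hw
      rw [hz]; exact hmax (subset_closure hw)
    filter_upwards [eventually_const_of_isLocalMax (hu z hzU) hloc, hU.mem_nhds hzU] with w h1 h2
    exact ⟨h2, h1.trans hz⟩
  have hSc : IsClosed S := by
    have h1 : S = closure U ∩ u ⁻¹' {u z₀} := by
      ext z
      constructor
      · rintro ⟨h1, h2⟩; exact ⟨subset_closure h1, h2⟩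
      · rintro ⟨h1, h2⟩; exact ⟨hnot z h1 h2, h2⟩
    rw [h1]
    exact hc.preimage_isClosed_of_isClosed isClosed_closure isClosed_singleton
  have hclopen : IsClopen S := ⟨hSc, hSo⟩
  rcases isClopen_iff.1 hclopen with h | h
  · have : z₀ ∈ S := ⟨hnot z₀ hz₀ rfl, rfl⟩
    rw [h] at this
    exact this
  · have : (univ : Set ℂ) ⊆ U := fun z _ => by
      have : z ∈ S := by rw [h]; trivial
      exact this.1
    exact NoncompactSpace.noncompact_univ (X := ℂ)
      (Metric.isCompact_of_isClosed_isBounded isClosed_univ (hb.subset this))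

/-- Strong maximum principle. -/
theorem eqOn_of_le {U : Set ℂ} (hU : IsOpen U) (hUc : IsPreconnected U) {u : ℂ → ℝ}
    (hu : HarmonicOnNhd u U) {M : ℝ} (hM : ∀ z ∈ U, u z ≤ M) {z₀ : ℂ} (hz₀ : z₀ ∈ U)
    (h0 : u z₀ = M) : ∀ z ∈ U, u z = M := by
  set S : Set ℂ := {z | z ∈ U ∧ u z = M} with hS
  have hSo : IsOpen S := by
    rw [isOpen_iff_mem_nhds]
    rintro z ⟨hzU, hz⟩
    have hloc : IsLocalMax u z := by
      filter_upwards [hU.mem_nhds hzU] with w hw
      rw [hz]; exact hM w hw
    filter_upwards [eventually_const_of_isLocalMax (hu z hzU) hloc, hU.mem_nhds hzU] with w h1 h2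
    exact ⟨h2, h1.trans hz⟩
  have hcont : ContinuousOn u U := fun z hz => (hu z hz).1.continuousAt.continuousWithinAt
  have hsub : U ⊆ S := by
    refine hUc.subset_of_closure_inter_subset hSo ⟨z₀, hz₀, hz₀, h0⟩ ?_
    rintro z ⟨hz1, hz2⟩
    refine ⟨hz2, ?_⟩
    have h1 : ContinuousAt u z := hcont.continuousAt (hU.mem_nhds hz2)
    have h2 : z ∈ closure S := hz1
    rw [mem_closure_iff_clusterPt] at h2
    have h3 : (𝓝[S] z).NeBot := h2
    have h4 : Tendsto u (𝓝[S] z) (𝓝 (u z)) := h1.mono_left nhdsWithin_le_nhds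
    have h5 : Tendsto u (𝓝[S] z) (𝓝 M) := by
      refine (tendsto_const_nhds (x := M)).congr' ?_
      filter_upwards [self_mem_nhdsWithin] with w hw using hw.2.symm
    exact tendsto_nhds_unique h4 h5
  exact fun z hz => (hsub hz).2

/-- Two continuous functions on the closure which are harmonic inside and agree on the boundary
are equal. -/
theorem eq_of_frontier {U : Set ℂ} (hU : IsOpen U) (hb : Bornology.IsBounded U) {u v : ℂ → ℝ}
    (hcu : ContinuousOn u (closure U)) (hcv : ContinuousOn v (closure U))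
    (hu : HarmonicOnNhd u U) (hv : HarmonicOnNhd v U)
    (h : ∀ z ∈ frontier U, u z = v z) : ∀ z ∈ closure U, u z = v z := by
  intro z hz
  have h1 := le_of_frontier hU hb (u := u - v) (hcu.sub hcv) (hu.sub hv) (M := 0)
    (fun w hw => by simp [h w hw]) z hz
  have h2 := le_of_frontier hU hb (u := v - u) (hcv.sub hcu) (hv.sub hu) (M := 0)
    (fun w hw => by simp [h w hw]) z hz
  simp only [Pi.sub_apply] at h1 h2
  linarith

end Vale.Agent.P167.BVP
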