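import Vale.Agent.P167.BVP.Pot

/-!
# P167, block BVP: the Neumann potential of a smooth charge through a conformal map
-/

open Set Metric Filter Topology InnerProductSpace Complex MeasureTheory
open scoped ComplexConjugate ContDiff Convolution

namespace Vale.Agent.P167.BVP

open P198W

/-- `g` maps the open set `D` conformally into the upper half-plane. -/
structure Conf (D : Set ℂ) (g : ℂ → ℂ) : Prop where
  isOpen : IsOpen D
  diff : DifferentiableOn ℂ g D
  inj : InjOn g D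
  im_pos : ∀ z ∈ D, 0 < (g z).im

/-- The Neumann kernel (without the factor `-1/(2π)`). -/
noncomputable def nker (ζ ξ : ℂ) : ℝ := Real.log ‖ζ - ξ‖ + Real.log ‖ζ - conj ξ‖

/-- The Neumann potential of the charge `f`. -/
noncomputable def npot (g : ℂ → ℂ) (f : ℂ → ℝ) (z : ℂ) : ℝ :=
  -(1 / (2 * Real.pi)) * ∫ w, f w * nker (g z) (g w)

/-- The same in the coordinate of the half-plane. -/
noncomputable def nhalf (g : ℂ → ℂ) (f : ℂ → ℝ) (ζ : ℂ) : ℝ :=
  -(1 / (2 * Real.pi)) * ∫ w, f w * nker ζ (g w)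

theorem npot_eq_nhalf (g : ℂ → ℂ) (f : ℂ → ℝ) (z : ℂ) : npot g f z = nhalf g f (g z) := rfl

theorem dslope_cont {D : Set ℂ} (hD : IsOpen D) {g : ℂ → ℂ} (hg : DifferentiableOn ℂ g D) :
    ContinuousOn (fun p : ℂ × ℂ => dslope g p.2 p.1) (D ×ˢ D) := by
  rintro ⟨z₀, w₀⟩ ⟨hz, hw⟩
  simp only at hz hw
  refine ContinuousAt.continuousWithinAt ?_
  by_cases h : z₀ = w₀
  · subst h
    have han : AnalyticAt ℂ g z₀ := hg.analyticAt (hD.mem_nhds hz)
    have hst : HasStrictDerivAt g (deriv g z₀) z₀ := han.hasStrictDerivAt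
    have hdc : ContinuousAt (deriv g) z₀ := han.deriv.continuousAt
    rw [Metric.continuousAt_iff']
    intro ε hε
    have h1 : ∀ᶠ p : ℂ × ℂ in 𝓝 (z₀, z₀),
        ‖g p.1 - g p.2 - deriv g z₀ * (p.1 - p.2)‖ ≤ ε / 2 * ‖p.1 - p.2‖ := by
      have := (hasStrictDerivAt_iff_hasStrictFDerivAt.1 hst).isLittleO
      have h2 := this.def (show (0 : ℝ) < ε / 2 by positivity)
      filter_upwards [h2] with p hp
      simpa [mul_comm] using hp
    have h3 : ∀ᶠ p : ℂ × ℂ in 𝓝 (z₀, z₀), dist (deriv g p.1) (deriv g z₀) < ε :=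
      (continuous_fst.tendsto (z₀, z₀)).eventually (hdc.eventually (ball_mem_nhds _ hε))
    filter_upwards [h1, h3] with p hp1 hp2
    rw [dslope_same]
    by_cases hpp : p.1 = p.2
    · rw [hpp, dslope_same]
      rwa [hpp] at hp2
    · rw [dslope_of_ne _ hpp, slope_def_field, dist_eq_norm]
      have hne : p.1 - p.2 ≠ 0 := sub_ne_zero.2 hpp
      have e : (g p.1 - g p.2) / (p.1 - p.2) - deriv g z₀ =
          (g p.1 - g p.2 - deriv g z₀ * (p.1 - p.2)) / (p.1 - p.2) := by
        field_simp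
      rw [e, norm_div]
      have h4 : 0 < ‖p.1 - p.2‖ := norm_pos_iff.2 hne
      rw [div_lt_iff₀ h4]
      nlinarith
  · have h1 : ContinuousAt (fun p : ℂ × ℂ => (g p.1 - g p.2) / (p.1 - p.2)) (z₀, w₀) := by
      have hg1 : ContinuousAt g z₀ := (hg.differentiableAt (hD.mem_nhds hz)).continuousAt
      have hg2 : ContinuousAt g w₀ := (hg.differentiableAt (hD.mem_nhds hw)).continuousAt
      have a1 : ContinuousAt (fun p : ℂ × ℂ => g p.1) (z₀, w₀) :=
        ContinuousAt.comp (f := Prod.fst) (x := (z₀, w₀)) hg1 continuous_fst.continuousAt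
      have a2 : ContinuousAt (fun p : ℂ × ℂ => g p.2) (z₀, w₀) :=
        ContinuousAt.comp (f := Prod.snd) (x := (z₀, w₀)) hg2 continuous_snd.continuousAt
      refine (a1.sub a2).div (by fun_prop) ?_
      exact sub_ne_zero.2 h
    refine h1.congr ?_
    have h2 : ∀ᶠ p : ℂ × ℂ in 𝓝 (z₀, w₀), p.1 ≠ p.2 :=
      (isOpen_ne_fun continuous_fst continuous_snd).mem_nhds h
    filter_upwards [h2] with p hp
    rw [dslope_of_ne _ hp, slope_def_field]

theorem dslope_ne_zero {D : Set ℂ} {g : ℂ → ℂ} (hg : Conf D g) {z w : ℂ} (hz : z ∈ D)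
    (hw : w ∈ D) : dslope g w z ≠ 0 := by
  by_cases h : z = w
  · subst h
    rw [dslope_same]
    exact P153.R2.L1.injOn_deriv_ne_zero hg.isOpen hg.diff hg.inj hz
  · rw [dslope_of_ne _ h, slope_def_field]
    refine div_ne_zero ?_ (sub_ne_zero.2 h)
    rw [sub_ne_zero]
    exact fun h2 => h (hg.inj hz hw h2)

/-- The regular part of the kernel. -/
noncomputable def kreg (g : ℂ → ℂ) (z w : ℂ) : ℝ :=
  Real.log ‖dslope g w z‖ + Real.log ‖g z - conj (g w)‖

theorem sub_conj_ne {a b : ℂ} (ha : 0 < a.im) (hb : 0 < b.im) : a - conj b ≠ 0 := by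
  intro h
  have := congrArg Complex.im h
  simp at this
  linarith

theorem kreg_cont {D : Set ℂ} {g : ℂ → ℂ} (hg : Conf D g) :
    ContinuousOn (Function.uncurry (kreg g)) (D ×ˢ D) := by
  have h1 := dslope_cont hg.isOpen hg.diff
  have hgc : ContinuousOn g D := hg.diff.continuousOn
  have h2 : ContinuousOn (fun p : ℂ × ℂ => g p.1 - conj (g p.2)) (D ×ˢ D) := by
    have a1 : ContinuousOn (fun p : ℂ × ℂ => g p.1) (D ×ˢ D) :=
      hgc.comp continuousOn_fst fun p hp => hp.1
    have a2 : ContinuousOn (fun p : ℂ × ℂ => g p.2) (D ×ˢ D) :=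
      hgc.comp continuousOn_snd fun p hp => hp.2
    exact a1.sub (Complex.continuous_conj.comp_continuousOn a2)
  refine ContinuousOn.add ?_ ?_
  · exact h1.norm.log fun p hp => norm_ne_zero_iff.2 (dslope_ne_zero hg hp.1 hp.2)
  · exact h2.norm.log fun p hp => norm_ne_zero_iff.2
      (sub_conj_ne (hg.im_pos _ hp.1) (hg.im_pos _ hp.2))

theorem harmonicAt_add' {u v : ℂ → ℝ} {z : ℂ} (hu : HarmonicAt u z) (hv : HarmonicAt v z) :
    HarmonicAt (fun w => u w + v w) z := by
  have := harmonicAt_sub' hu (harmonicAt_neg' hv)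
  simpa using this

theorem harmonicAt_smul' {u : ℂ → ℝ} {z : ℂ} (c : ℝ) (hu : HarmonicAt u z) :
    HarmonicAt (fun w => c * u w) z := by
  have := hu.const_smul (c := c)
  exact this

theorem kreg_harm {D : Set ℂ} {g : ℂ → ℂ} (hg : Conf D g) {z w : ℂ} (hz : z ∈ D) (hw : w ∈ D) :
    HarmonicAt (fun z => kreg g z w) z := by
  have h1 : AnalyticAt ℂ (dslope g w) z := by
    have : DifferentiableOn ℂ (dslope g w) D :=
      (differentiableOn_dslope (hg.isOpen.mem_nhds hw)).2 hg.diff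
    exact this.analyticAt (hg.isOpen.mem_nhds hz)
  have h2 : AnalyticAt ℂ (fun z => g z - conj (g w)) z :=
    (hg.diff.analyticAt (hg.isOpen.mem_nhds hz)).sub analyticAt_const
  exact harmonicAt_add' (h1.harmonicAt_log_norm (dslope_ne_zero hg hz hw))
    (h2.harmonicAt_log_norm (sub_conj_ne (hg.im_pos _ hz) (hg.im_pos _ hw)))

theorem integrable_log {f : ℂ → ℝ} (hf : Continuous f) (hc : HasCompactSupport f) (z : ℂ) :
    Integrable fun w => f w * Real.log ‖z - w‖ := by
  have h1 : Integrable fun t : ℂ => Real.log ‖t‖ * f (z - t) :=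
    Fund.lea_int Fund.lea_log (hf.comp (continuous_const.sub continuous_id))
      (hc.comp_homeomorph (Homeomorph.subLeft z))
  have h2 := h1.comp_sub_left z
  refine h2.congr (Eventually.of_forall fun w => ?_)
  simp only [sub_sub_cancel]
  ring

theorem npot_eq {D : Set ℂ} {g : ℂ → ℂ} (hg : Conf D g) {f : ℂ → ℝ} (hf : Continuous f)
    (hc : HasCompactSupport f) (hfD : tsupport f ⊆ D) {z : ℂ} (hz : z ∈ D) :
    npot g f z = -(1 / (2 * Real.pi)) * (lpot f z + ∫ w, f w * kreg g z w) := by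
  unfold npot
  congr 1
  unfold lpot
  have i2 : Integrable fun w => f w * kreg g z w := by
    refine Continuous.integrable_of_hasCompactSupport ?_ hc.mul_right
    refine cont_ext hg.isOpen (isClosed_tsupport f) hfD ?_ ?_
    · refine hf.continuousOn.mul ?_
      exact (kreg_cont hg).comp (f := fun w => (z, w)) (by fun_prop) fun w hw => ⟨hz, hw⟩
    · intro w hw
      rw [image_eq_zero_of_notMem_tsupport hw, zero_mul]
  rw [← integral_add (integrable_log hf hc z) i2]
  have hne : ∀ᵐ w : ℂ, w ≠ z := by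
    rw [ae_iff]; simp
  refine integral_congr_ae ?_
  filter_upwards [hne] with w hw
  by_cases hwD : w ∈ tsupport f
  · have hwD' := hfD hwD
    have e : g z - g w = (z - w) * dslope g w z := by
      have := sub_smul_dslope g w z
      rw [smul_eq_mul] at this
      exact this.symm
    have hne1 : z - w ≠ 0 := sub_ne_zero.2 (Ne.symm hw)
    unfold nker kreg
    rw [e, norm_mul, Real.log_mul (norm_ne_zero_iff.2 hne1)
      (norm_ne_zero_iff.2 (dslope_ne_zero hg hz hwD'))]
    ring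
  · rw [image_eq_zero_of_notMem_tsupport hwD]; ring

/-- A solution of `-ΔW = s f` differs from `s` times the Neumann potential by a harmonic
function. -/
theorem harm_sub_npot {D : Set ℂ} {g : ℂ → ℂ} (hg : Conf D g) {f : ℂ → ℝ}
    (hf : Test D f) {W : ℂ → ℝ} {s : ℝ} (hW : ContinuousOn W D)
    (hw : ∀ ψ, Test D ψ → ∫ z, W z * lap ψ z = - s * ∫ z, f z * ψ z) :
    ∀ z ∈ D, HarmonicAt (fun z => W z - s * npot g f z) z := by
  obtain ⟨hf1, hf2, hf3⟩ := hf
  have hlc := lpot_contDiff hf1 hf2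
  have h1 : ∀ z ∈ D, HarmonicAt (fun z => W z + s / (2 * Real.pi) * lpot f z) z := by
    refine weyl hg.isOpen (hW.add (hlc.continuous.continuousOn.const_smul (s / (2 * Real.pi)))) ?_
    intro ψ h1 h2 h3
    have i1 : Integrable fun z => W z * lap ψ z := by
      refine Continuous.integrable_of_hasCompactSupport ?_ (hcs_lap h2).mul_left
      refine cont_ext hg.isOpen (isClosed_tsupport ψ) h3
        (hW.mul (cont_lap (h1.of_le two_le_infty)).continuousOn) ?_
      intro w hw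
      rw [lap_eq_zero_of_notMem hw, mul_zero]
    have i2 : Integrable fun z => s / (2 * Real.pi) * (lpot f z * lap ψ z) := by
      refine Integrable.const_mul ?_ _
      exact (hlc.continuous.mul (cont_lap (h1.of_le two_le_infty))).integrable_of_hasCompactSupport
        (hcs_lap h2).mul_left
    have e : (fun z => (W z + s / (2 * Real.pi) * lpot f z) * lap ψ z) =
        fun z => W z * lap ψ z + s / (2 * Real.pi) * (lpot f z * lap ψ z) := by
      funext z; ring
    rw [e, integral_add i1 i2, integral_const_mul, lpot_weak hf1 hf2 h1 h2, hw ψ ⟨h1, h2, h3⟩]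
    have := Real.pi_ne_zero
    field_simp
    ring
  have h2 := harm_param (μ := (volume : Measure ℂ)) hg.isOpen hg.isOpen hf1.continuous hf2 hf3 (kreg_cont hg)
    fun w hw z hz => kreg_harm hg hz hw
  intro z hz
  refine (harmonicAt_congr_nhds ?_).2 (harmonicAt_add' (h1 z hz)
    (harmonicAt_smul' (s / (2 * Real.pi)) (h2 z hz)))
  filter_upwards [hg.isOpen.mem_nhds hz] with y hy
  rw [npot_eq hg hf1.continuous hf2 hf3 hy]
  ring

/-- The image of the support stays in a compact part of the half-plane. -/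
theorem exists_bounds {D : Set ℂ} {g : ℂ → ℂ} (hg : Conf D g) {K : Set ℂ} (hK : IsCompact K)
    (hKD : K ⊆ D) : ∃ δ R : ℝ, 0 < δ ∧ 0 < R ∧ ∀ w ∈ K, δ < (g w).im ∧ ‖g w‖ < R := by
  have hgc : ContinuousOn g K := hg.diff.continuousOn.mono hKD
  rcases K.eq_empty_or_nonempty with rfl | hne
  · exact ⟨1, 1, one_pos, one_pos, by simp⟩
  · obtain ⟨a, ha, ha'⟩ := hK.exists_isMinOn hne (Complex.continuous_im.comp_continuousOn hgc)
    obtain ⟨b, hb, hb'⟩ := hK.exists_isMaxOn hne hgc.norm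
    have h1 := hg.im_pos a (hKD ha)
    refine ⟨(g a).im / 2, ‖g b‖ + 1, by positivity, by positivity, fun w hw => ⟨?_, ?_⟩⟩
    · have : (g a).im ≤ (g w).im := ha' hw
      linarith
    · have : ‖g w‖ ≤ ‖g b‖ := hb' hw
      linarith

theorem norm_sub_conj (ζ ξ : ℂ) : ‖conj ζ - ξ‖ = ‖ζ - conj ξ‖ := by
  have : conj ζ - ξ = conj (ζ - conj ξ) := by simp
  rw [this, norm_conj]

theorem nhalf_conj (g : ℂ → ℂ) (f : ℂ → ℝ) (ζ : ℂ) : nhalf g f (conj ζ) = nhalf g f ζ := by
  unfold nhalf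
  congr 1
  refine integral_congr_ae (Eventually.of_forall fun w => ?_)
  have h1 := norm_sub_conj ζ (g w)
  have h2 := norm_sub_conj ζ (conj (g w))
  rw [Complex.conj_conj] at h2
  unfold nker
  simp only [h1, h2]
  ring

/-- The potential is harmonic away from the support and its mirror image. -/
theorem nhalf_harm {D : Set ℂ} {g : ℂ → ℂ} (hg : Conf D g) {f : ℂ → ℝ} (hf : Test D f) {U V : Set ℂ}
    (hU : IsOpen U) (hV : IsOpen V) (hVD : V ⊆ D) (hfV : tsupport f ⊆ V)
    (hUV : ∀ ζ ∈ U, ∀ w ∈ V, ζ ≠ g w ∧ ζ ≠ conj (g w)) :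
    ∀ ζ ∈ U, HarmonicAt (nhalf g f) ζ := by
  intro ζ hζ
  refine harmonicAt_smul' (-(1 / (2 * Real.pi))) ?_
  refine harm_param (k := fun ζ w => nker ζ (g w)) hU hV hf.1.continuous hf.2.1 hfV ?_ ?_ ζ hζ
  · have hgc : ContinuousOn g D := hg.diff.continuousOn
    have a2 : ContinuousOn (fun p : ℂ × ℂ => g p.2) (U ×ˢ V) :=
      hgc.comp continuousOn_snd fun p hp => hVD hp.2
    have a1 : ContinuousOn (fun p : ℂ × ℂ => p.1) (U ×ˢ V) := continuousOn_fst
    refine ContinuousOn.add ?_ ?_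
    · exact (a1.sub a2).norm.log fun p hp => norm_ne_zero_iff.2 (sub_ne_zero.2 (hUV _ hp.1 _ hp.2).1)
    · exact (a1.sub (Complex.continuous_conj.comp_continuousOn a2)).norm.log
        fun p hp => norm_ne_zero_iff.2 (sub_ne_zero.2 (hUV _ hp.1 _ hp.2).2)
  · intro w hw z hz
    exact harmonicAt_add' (harmonicAt_log_sub (hUV z hz w hw).1)
      (harmonicAt_log_sub (hUV z hz w hw).2)

theorem nhalf_evenExt {D : Set ℂ} {g : ℂ → ℂ} (hg : Conf D g) {f : ℂ → ℝ} (hf : Test D f) (x : ℝ) :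
    EvenExt (nhalf g f) x := by
  obtain ⟨δ, R, hδ, hR, hb⟩ := exists_bounds hg hf.2.1.isCompact hf.2.2
  refine ⟨nhalf g f, ?_, Eventually.of_forall fun z => nhalf_conj g f z,
    Eventually.of_forall fun z _ => rfl⟩
  refine nhalf_harm hg hf (U := {ζ | |ζ.im| < δ}) (V := D ∩ g ⁻¹' {ζ | δ < ζ.im})
    (isOpen_lt Complex.continuous_im.abs continuous_const)
    (hg.diff.continuousOn.isOpen_inter_preimage hg.isOpen
      (isOpen_lt continuous_const Complex.continuous_im)) inter_subset_left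
    (fun w hw => ⟨hf.2.2 hw, (hb w hw).1⟩) ?_ x (by simpa using hδ)
  rintro ζ hζ w ⟨_, hw⟩
  have h1 : |ζ.im| < δ := hζ
  have h2 : δ < (g w).im := hw
  rw [abs_lt] at h1
  constructor
  · intro h; rw [h] at h1; linarith
  · intro h; rw [h] at h1; simp at h1; linarith

theorem abs_log_sub_le {ζ ξ : ℂ} {R : ℝ} (hR : 1 ≤ R) (hξ : ‖ξ‖ ≤ R) (hζ : 2 * R ≤ ‖ζ‖) :
    |Real.log ‖ζ - ξ‖ - Real.log ‖ζ‖| ≤ Real.log 2 := by
  have hζ0 : 0 < ‖ζ‖ := by linarith
  have h1 : ‖ζ‖ / 2 ≤ ‖ζ - ξ‖ := by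
    have := norm_sub_norm_le ζ ξ
    linarith
  have h2 : ‖ζ - ξ‖ ≤ 2 * ‖ζ‖ := by
    have := norm_sub_le ζ ξ
    linarith
  have h3 : 0 < ‖ζ - ξ‖ := by linarith
  rw [← Real.log_div h3.ne' hζ0.ne', abs_le]
  constructor
  · have : -Real.log 2 = Real.log (1 / 2) := by rw [one_div, Real.log_inv]
    rw [this]
    refine Real.log_le_log (by norm_num) ?_
    rw [le_div_iff₀ hζ0]; linarith
  · refine Real.log_le_log (by positivity) ?_
    rw [div_le_iff₀ hζ0]; linarith

/-- Behaviour at infinity. -/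
theorem nhalf_inf {D : Set ℂ} {g : ℂ → ℂ} (hg : Conf D g) {f : ℂ → ℝ} (hf : Test D f) :
    ∃ C R : ℝ, ∀ ζ : ℂ, R ≤ ‖ζ‖ →
      |nhalf g f ζ + 1 / Real.pi * (∫ w, f w) * Real.log ‖ζ‖| ≤ C := by
  obtain ⟨δ, R, hδ, hR, hb⟩ := exists_bounds hg hf.2.1.isCompact hf.2.2
  set R' : ℝ := max R 1 with hR'
  refine ⟨1 / (2 * Real.pi) * ∫ w, |f w| * (2 * Real.log 2), 2 * R', fun ζ hζ => ?_⟩
  have hfi : Integrable f := hf.1.continuous.integrable_of_hasCompactSupport hf.2.1
  have hb' : ∀ w ∈ tsupport f, ‖g w‖ ≤ R' := fun w hw => ((hb w hw).2.le).trans (le_max_left _ _)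
  have hR1 : 1 ≤ R' := le_max_right _ _
  -- integrability of the kernel
  have hcont : Continuous fun w => f w * nker ζ (g w) := by
    refine cont_ext (S := D ∩ g ⁻¹' {ξ | ‖ξ‖ < 2 * R'}) (K := tsupport f)
      (hg.diff.continuousOn.isOpen_inter_preimage hg.isOpen
      (isOpen_lt continuous_norm continuous_const)) (isClosed_tsupport f)
      (fun w hw => ⟨hf.2.2 hw, show ‖g w‖ < 2 * R' by linarith [hb' w hw]⟩) ?_ ?_
    · refine hf.1.continuous.continuousOn.mul ?_
      have hgc : ContinuousOn g (D ∩ g ⁻¹' {ξ | ‖ξ‖ < 2 * R'}) :=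
        hg.diff.continuousOn.mono inter_subset_left
      refine ContinuousOn.add ?_ ?_
      · refine (continuousOn_const.sub hgc).norm.log ?_
        rintro w ⟨_, hw⟩
        refine norm_ne_zero_iff.2 (sub_ne_zero.2 ?_)
        intro h
        have h9 : ‖g w‖ < 2 * R' := hw
        have h8 : ‖ζ‖ = ‖g w‖ := congrArg norm h
        linarith
      · refine (continuousOn_const.sub (Complex.continuous_conj.comp_continuousOn hgc)).norm.log ?_
        rintro w ⟨_, hw⟩
        refine norm_ne_zero_iff.2 (sub_ne_zero.2 ?_)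
        intro h
        have h9 : ‖g w‖ < 2 * R' := hw
        have h8 : ‖ζ‖ = ‖g w‖ := (congrArg norm h).trans (norm_conj (g w))
        linarith
    · intro w hw
      rw [image_eq_zero_of_notMem_tsupport hw, zero_mul]
  have hint : Integrable fun w => f w * nker ζ (g w) :=
    hcont.integrable_of_hasCompactSupport hf.2.1.mul_right
  have e : nhalf g f ζ + 1 / Real.pi * (∫ w, f w) * Real.log ‖ζ‖ =
      -(1 / (2 * Real.pi)) * ∫ w, f w * (nker ζ (g w) - 2 * Real.log ‖ζ‖) := by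
    have e1 : (fun w => f w * (nker ζ (g w) - 2 * Real.log ‖ζ‖)) =
        fun w => f w * nker ζ (g w) - f w * (2 * Real.log ‖ζ‖) := by funext w; ring
    rw [e1, integral_sub hint (hfi.mul_const _), integral_mul_const]
    unfold nhalf
    have := Real.pi_ne_zero
    field_simp
    ring
  rw [e, abs_mul, abs_neg, abs_of_pos (by positivity : (0:ℝ) < 1 / (2 * Real.pi))]
  refine mul_le_mul_of_nonneg_left ?_ (by positivity)
  rw [← Real.norm_eq_abs]
  refine (norm_integral_le_integral_norm _).trans ?_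
  refine integral_mono_of_nonneg (Eventually.of_forall fun w => norm_nonneg _)
    (hfi.abs.mul_const _) (Eventually.of_forall fun w => ?_)
  simp only [norm_mul, Real.norm_eq_abs]
  by_cases hw : w ∈ tsupport f
  · refine mul_le_mul_of_nonneg_left ?_ (abs_nonneg _)
    have h1 := abs_log_sub_le (ξ := g w) hR1 (hb' w hw) hζ
    have h2 := abs_log_sub_le (ξ := conj (g w)) hR1 (by rw [norm_conj]; exact hb' w hw) hζ
    have h3 : nker ζ (g w) - 2 * Real.log ‖ζ‖ = (Real.log ‖ζ - g w‖ - Real.log ‖ζ‖) +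
        (Real.log ‖ζ - conj (g w)‖ - Real.log ‖ζ‖) := by unfold nker; ring
    rw [h3]
    exact (abs_add_le _ _).trans (by linarith)
  · rw [image_eq_zero_of_notMem_tsupport hw]; simp

end Vale.Agent.P167.BVP
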