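import Mathlib

/-!
# P167, block BVP: the differential equation for `t ↦ V(t f)`, in the limit
-/

open Set Filter Topology MeasureTheory

namespace Vale.Agent.P167.BVP

/-- If `V_n' + (s t A + u_n) V_n → 0` pointwise and boundedly on `[0, 1]` and `V_n(0) = 1` then
`V_n(1) - exp (-u_n - (s/2) A) → 0`. -/
theorem ode_lim {V V' : ℕ → ℝ → ℝ} {u : ℕ → ℝ} {s A C : ℝ}
    (h0 : ∀ᶠ n in atTop, V n 0 = 1)
    (hd : ∀ᶠ n in atTop, ∀ t ∈ Icc (0 : ℝ) 1, HasDerivAt (V n) (V' n t) t)
    (hc : ∀ᶠ n in atTop, ContinuousOn (V' n) (Icc (0 : ℝ) 1))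
    (hb : ∀ᶠ n in atTop, ∀ t ∈ Icc (0 : ℝ) 1, |V n t| ≤ C ∧ |V' n t| ≤ C)
    (hu : ∀ᶠ n in atTop, |u n| ≤ C)
    (hl : ∀ t ∈ Icc (0 : ℝ) 1,
      Tendsto (fun n => V' n t + (s * t * A + u n) * V n t) atTop (𝓝 0)) :
    Tendsto (fun n => V n 1 - Real.exp (-u n - s / 2 * A)) atTop (𝓝 0) := by
  have huIcc : uIcc (0 : ℝ) 1 = Icc 0 1 := uIcc_of_le zero_le_one
  set E : ℕ → ℝ → ℝ := fun n t => Real.exp (s * A / 2 * t ^ 2 + u n * t) with hE
  set F : ℕ → ℝ → ℝ := fun n t => (V' n t + (s * t * A + u n) * V n t) * E n t with hF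
  set B : ℝ := Real.exp (|s * A / 2| + |C|) with hB
  have hEb : ∀ᶠ n in atTop, ∀ t ∈ Icc (0 : ℝ) 1, E n t ≤ B := by
    filter_upwards [hu] with n hn t ht
    refine Real.exp_le_exp.2 ?_
    have h1 : s * A / 2 * t ^ 2 ≤ |s * A / 2| := by
      have h2 : s * A / 2 * t ^ 2 ≤ |s * A / 2| * t ^ 2 :=
        mul_le_mul_of_nonneg_right (le_abs_self _) (by positivity)
      have h3 : |s * A / 2| * t ^ 2 ≤ |s * A / 2| * 1 := by
        refine mul_le_mul_of_nonneg_left ?_ (abs_nonneg _)
        exact pow_le_one₀ ht.1 ht.2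
      linarith
    have h4 : u n * t ≤ |C| := by
      have h5 : u n * t ≤ |u n| * t := mul_le_mul_of_nonneg_right (le_abs_self _) ht.1
      have h6 : |u n| * t ≤ |u n| * 1 := mul_le_mul_of_nonneg_left ht.2 (abs_nonneg _)
      have h7 := le_abs_self C
      linarith
    linarith
  -- the integral of `F n` tends to zero
  have hint0 : Tendsto (fun n => ∫ t in (0 : ℝ)..1, F n t) atTop (𝓝 (∫ _ in (0 : ℝ)..1, (0 : ℝ))) := by
    refine intervalIntegral.tendsto_integral_filter_of_dominated_convergence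
      (fun _ => (|C| + (|s * A| + |C|) * |C|) * B) ?_ ?_ ?_ ?_
    · filter_upwards [hd, hc] with n hn hcn
      have hVc : ContinuousOn (V n) (Icc (0 : ℝ) 1) := fun t ht => (hn t ht).continuousAt.continuousWithinAt
      have hFc : ContinuousOn (F n) (Icc (0 : ℝ) 1) := by
        simp only [hF, hE]
        exact (hcn.add (ContinuousOn.mul (by fun_prop) hVc)).mul (by fun_prop)
      refine (hFc.mono ?_).aestronglyMeasurable measurableSet_uIoc
      rw [uIoc_of_le zero_le_one]
      exact Ioc_subset_Icc_self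
    · filter_upwards [hb, hu, hEb] with n hn hun hEn
      refine Eventually.of_forall fun t ht => ?_
      rw [uIoc_of_le zero_le_one] at ht
      have ht' : t ∈ Icc (0 : ℝ) 1 := Ioc_subset_Icc_self ht
      obtain ⟨b1, b2⟩ := hn t ht'
      have b3 := hEn t ht'
      have hC := le_abs_self C
      simp only [hF]
      rw [norm_mul, Real.norm_eq_abs, Real.norm_eq_abs, abs_of_pos (Real.exp_pos _)]
      refine mul_le_mul ?_ b3 (Real.exp_pos _).le (by positivity)
      refine (abs_add_le _ _).trans ?_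
      rw [abs_mul]
      have h1 : |s * t * A + u n| ≤ |s * A| + |C| := by
        refine (abs_add_le _ _).trans (add_le_add ?_ (hun.trans hC))
        have : s * t * A = s * A * t := by ring
        rw [this, abs_mul, abs_of_nonneg ht'.1]
        have := mul_le_mul_of_nonneg_left ht'.2 (abs_nonneg (s * A))
        linarith
      have h2 : |s * t * A + u n| * |V n t| ≤ (|s * A| + |C|) * |C| :=
        mul_le_mul h1 (b1.trans hC) (abs_nonneg _) (by positivity)
      linarith
    · exact intervalIntegrable_const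
    · refine Eventually.of_forall fun t ht => ?_
      rw [uIoc_of_le zero_le_one] at ht
      have ht' : t ∈ Icc (0 : ℝ) 1 := Ioc_subset_Icc_self ht
      have h1 := hl t ht'
      rw [tendsto_zero_iff_abs_tendsto_zero] at h1 ⊢
      have h2 : Tendsto (fun n => |V' n t + (s * t * A + u n) * V n t| * B) atTop (𝓝 0) := by
        have := h1.mul_const B
        rwa [zero_mul] at this
      refine squeeze_zero' (Eventually.of_forall fun n => abs_nonneg _) ?_ h2
      filter_upwards [hEb] with n hn
      simp only [hF, Function.comp]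
      rw [abs_mul, abs_of_pos (Real.exp_pos _ : (0 : ℝ) < E n t)]
      exact mul_le_mul_of_nonneg_left (hn t ht') (abs_nonneg _)
  rw [intervalIntegral.integral_zero] at hint0
  -- the fundamental theorem
  have hftc : ∀ᶠ n in atTop, ∫ t in (0 : ℝ)..1, F n t = V n 1 * E n 1 - 1 := by
    filter_upwards [hd, hc, h0] with n hn hcn h0n
    have hder : ∀ t ∈ uIcc (0 : ℝ) 1, HasDerivAt (fun t => V n t * E n t) (F n t) t := by
      intro t ht
      rw [huIcc] at ht
      have h1 := hn t ht
      have h2 : HasDerivAt (fun t : ℝ => s * A / 2 * t ^ 2 + u n * t) (s * A / 2 * (2 * t) + u n) t := by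
        have h3 : HasDerivAt (fun t : ℝ => t ^ 2) (2 * t) t := by
          simpa using hasDerivAt_pow 2 t
        have h4 : HasDerivAt (fun t : ℝ => u n * t) (u n) t := by
          simpa using (hasDerivAt_id t).const_mul (u n)
        exact (h3.const_mul (s * A / 2)).add h4
      have h3 := h1.mul h2.exp
      refine h3.congr_deriv ?_
      simp only [hF, hE]
      ring
    have hVc : ContinuousOn (V n) (Icc (0 : ℝ) 1) := fun t ht => (hn t ht).continuousAt.continuousWithinAt
    have hFc : ContinuousOn (F n) (Icc (0 : ℝ) 1) := by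
      simp only [hF, hE]
      exact (hcn.add (ContinuousOn.mul (by fun_prop) hVc)).mul (by fun_prop)
    have hFi : IntervalIntegrable (F n) volume 0 1 := by
      refine ContinuousOn.intervalIntegrable ?_
      rwa [huIcc]
    rw [intervalIntegral.integral_eq_sub_of_hasDerivAt hder hFi]
    simp [hE, h0n]
  have h1 : Tendsto (fun n => V n 1 * E n 1 - 1) atTop (𝓝 0) := hint0.congr' hftc
  have h2 : ∀ᶠ n in atTop, |V n 1 - Real.exp (-u n - s / 2 * A)| ≤
      |V n 1 * E n 1 - 1| * Real.exp (|C| + |s / 2 * A|) := by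
    filter_upwards [hu] with n hn
    have e : V n 1 - Real.exp (-u n - s / 2 * A) =
        (V n 1 * E n 1 - 1) * Real.exp (-u n - s / 2 * A) := by
      have : E n 1 * Real.exp (-u n - s / 2 * A) = 1 := by
        simp only [hE]
        rw [← Real.exp_add]
        have : s * A / 2 * 1 ^ 2 + u n * 1 + (-u n - s / 2 * A) = 0 := by ring
        rw [this, Real.exp_zero]
      rw [sub_mul, mul_assoc, this, mul_one, one_mul]
    rw [e, abs_mul, abs_of_pos (Real.exp_pos _)]
    refine mul_le_mul_of_nonneg_left (Real.exp_le_exp.2 ?_) (abs_nonneg _)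
    have a1 := neg_abs_le (u n)
    have a2 := neg_abs_le (s / 2 * A)
    have a3 := le_abs_self C
    linarith
  rw [tendsto_zero_iff_abs_tendsto_zero]
  refine squeeze_zero' (Eventually.of_forall fun n => abs_nonneg _) h2 ?_
  have h3 := (tendsto_zero_iff_abs_tendsto_zero _).1 h1
  have := h3.mul_const (Real.exp (|C| + |s / 2 * A|))
  rwa [zero_mul] at this

end Vale.Agent.P167.BVP
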