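import Vale.Agent.P167.BVP.Local
import Vale.Agent.P167.CA.Defs
import Vale.Agent.P167.E6.Poly6

/-!
# P167, block BVP: the Neumann problem in lattice polygons
-/

open Set Metric Filter Topology InnerProductSpace Complex MeasureTheory
open scoped ComplexConjugate ContDiff Convolution

namespace Vale.Agent.P167.BVP

open P198W
open Vale.Agent.P167.E6 (pt dir face region IsPolygon Encloses)

/-! ### Conformal maps -/

theorem inverse_diff {P : Set ℂ} {ψ g : ℂ → ℂ} (hd : DifferentiableOn ℂ ψ {z | 0 < z.im})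
    (himg : ψ '' {z | 0 < z.im} = P) (hinj : InjOn ψ {z | 0 < z.im})
    (hinv : ∀ z : ℂ, 0 < z.im → g (ψ z) = z) : IsOpen P ∧ DifferentiableOn ℂ g P := by
  have hopen : IsOpen {z : ℂ | 0 < z.im} := isOpen_lt continuous_const Complex.continuous_im
  have hst : ∀ ζ : ℂ, 0 < ζ.im → HasStrictDerivAt ψ (deriv ψ ζ) ζ := fun ζ hζ =>
    (hd.analyticAt (hopen.mem_nhds hζ)).hasStrictDerivAt
  have hne : ∀ ζ : ℂ, 0 < ζ.im → deriv ψ ζ ≠ 0 := fun ζ hζ =>
    P153.R2.L1.injOn_deriv_ne_zero hopen hd hinj hζ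
  have hmap : ∀ ζ : ℂ, 0 < ζ.im → map ψ (𝓝 ζ) = 𝓝 (ψ ζ) := fun ζ hζ =>
    (hst ζ hζ).map_nhds_eq (hne ζ hζ)
  have hP : IsOpen P := by
    rw [isOpen_iff_mem_nhds, ← himg]
    rintro _ ⟨ζ, hζ, rfl⟩
    rw [← hmap ζ hζ]
    exact image_mem_map (hopen.mem_nhds hζ)
  refine ⟨hP, ?_⟩
  intro z hz
  rw [← himg] at hz
  obtain ⟨ζ, hζ, rfl⟩ := hz
  have hgζ : g (ψ ζ) = ζ := hinv ζ hζ
  have hcont : ContinuousAt g (ψ ζ) := by
    unfold ContinuousAt
    rw [hgζ, ← hmap ζ hζ, tendsto_map'_iff]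
    refine tendsto_id.congr' ?_
    filter_upwards [hopen.mem_nhds hζ] with y hy
    exact (hinv y hy).symm
  have hev : ∀ᶠ y in 𝓝 (ψ ζ), ψ (g y) = y := by
    rw [← hmap ζ hζ, eventually_map]
    filter_upwards [hopen.mem_nhds hζ] with y hy
    rw [hinv y hy]
  have h1 : HasDerivAt ψ (deriv ψ ζ) (g (ψ ζ)) := by rw [hgζ]; exact (hst ζ hζ).hasDerivAt
  exact (HasDerivAt.of_local_left_inverse hcont h1 (hne ζ hζ) hev).differentiableAt.differentiableWithinAt

/-- The conformal pair of `CA/Defs`. -/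
theorem pair_of {P : Set ℂ} {ψ g : ℂ → ℂ} (h : CA.Pair P ψ g) : Pair P ψ g := by
  have hopen : IsOpen {z : ℂ | 0 < z.im} := isOpen_lt continuous_const Complex.continuous_im
  have hsub : {z : ℂ | 0 < z.im} ⊆ {z : ℂ | 0 ≤ z.im} := fun z (hz : 0 < z.im) => hz.le
  have hinj : InjOn ψ {z | 0 < z.im} := h.inj.mono hsub
  obtain ⟨hP, hg⟩ := inverse_diff h.diff h.img hinj h.inv
  have hP' : ∀ z ∈ P, ∃ ζ : ℂ, 0 < ζ.im ∧ ψ ζ = z := by
    intro z hz
    rw [← h.img] at hz
    exact hz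
  refine ⟨⟨hP, hg, ?_, ?_⟩, ?_, ?_, ?_⟩
  · intro a ha b hb hab
    obtain ⟨ζ, hζ, rfl⟩ := hP' a ha
    obtain ⟨ξ, hξ, rfl⟩ := hP' b hb
    rw [h.inv ζ hζ, h.inv ξ hξ] at hab
    rw [hab]
  · intro z hz
    obtain ⟨ζ, hζ, rfl⟩ := hP' z hz
    rwa [h.inv ζ hζ]
  · exact fun ζ hζ => h.diff.differentiableAt (hopen.mem_nhds hζ)
  · intro ζ hζ
    exact ⟨by rw [← h.img]; exact ⟨ζ, hζ, rfl⟩, h.inv ζ hζ⟩
  · intro z hz
    obtain ⟨ζ, hζ, rfl⟩ := hP' z hz
    rw [h.inv ζ hζ]

theorem real_notMem {P : Set ℂ} {ψ g : ℂ → ℂ} (h : CA.Pair P ψ g) {z : ℂ} (hz : z.im = 0) :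
    ψ z ∉ P := by
  intro hm
  rw [← h.img] at hm
  obtain ⟨ζ, hζ, he⟩ := hm
  have hζ' : 0 < ζ.im := hζ
  have := h.inj (show ζ ∈ {z : ℂ | 0 ≤ z.im} from hζ'.le) (show z ∈ {z : ℂ | 0 ≤ z.im} from hz.ge) he
  rw [this, hz] at hζ'
  exact lt_irrefl _ hζ'

theorem real_mem_frontier {P : Set ℂ} {ψ g : ℂ → ℂ} (h : CA.Pair P ψ g) (x : ℝ) :
    ψ x ∈ frontier P := by
  have hopen := (pair_of h).conf.isOpen
  rw [hopen.frontier_eq]
  refine ⟨?_, real_notMem h (by simp)⟩
  have hne := upper_neBot x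
  have h1 : ContinuousWithinAt ψ {z | 0 < z.im} (x : ℂ) :=
    (h.cont x (by simp)).mono fun z (hz : 0 < z.im) => hz.le
  refine mem_closure_of_tendsto h1 ?_
  filter_upwards [self_mem_nhdsWithin] with z hz
  rw [← h.img]
  exact ⟨z, hz, rfl⟩

/-! ### Cells -/

theorem mem_region_of_open_cell {S : Finset (ℤ × ℤ)} {f : ℤ × ℤ} {z : ℂ}
    (h1 : (f.1 : ℝ) < z.re) (h2 : z.re < f.1 + 1) (h3 : (f.2 : ℝ) < z.im) (h4 : z.im < f.2 + 1) :
    z ∈ region 1 S ↔ f ∈ S := by
  constructor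
  · rintro ⟨f', hf', a1, a2, a3, a4⟩
    have e1 : f'.1 = f.1 := by
      have b1 : (f'.1 : ℝ) < f.1 + 1 := by linarith
      have b2 : (f.1 : ℝ) < f'.1 + 1 := by linarith
      have c1 : f'.1 < f.1 + 1 := by exact_mod_cast b1
      have c2 : f.1 < f'.1 + 1 := by exact_mod_cast b2
      omega
    have e2 : f'.2 = f.2 := by
      have b1 : (f'.2 : ℝ) < f.2 + 1 := by linarith
      have b2 : (f.2 : ℝ) < f'.2 + 1 := by linarith
      have c1 : f'.2 < f.2 + 1 := by exact_mod_cast b1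
      have c2 : f.2 < f'.2 + 1 := by exact_mod_cast b2
      omega
    have : f' = f := Prod.ext e1 e2
    rwa [this] at hf'
  · intro hf
    exact ⟨f, hf, by linarith, by linarith, by linarith, by linarith⟩

/-- The open cell as a set. -/
def ocell (f : ℤ × ℤ) : Set ℂ :=
  {z | (f.1 : ℝ) < z.re ∧ z.re < f.1 + 1 ∧ (f.2 : ℝ) < z.im ∧ z.im < f.2 + 1}

theorem isOpen_ocell (f : ℤ × ℤ) : IsOpen (ocell f) := by
  unfold ocell
  refine (isOpen_lt continuous_const Complex.continuous_re).inter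
    ((isOpen_lt Complex.continuous_re continuous_const).inter
    ((isOpen_lt continuous_const Complex.continuous_im).inter
      (isOpen_lt Complex.continuous_im continuous_const)))

theorem ocell_subset {S : Finset (ℤ × ℤ)} {f : ℤ × ℤ} (hf : f ∈ S) :
    ocell f ⊆ interior (region 1 S) := by
  refine interior_maximal ?_ (isOpen_ocell f)
  rintro z ⟨h1, h2, h3, h4⟩
  exact (mem_region_of_open_cell h1 h2 h3 h4).2 hf

theorem ocell_disjoint {S : Finset (ℤ × ℤ)} {f : ℤ × ℤ} (hf : f ∉ S) {z : ℂ} (hz : z ∈ ocell f) :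
    z ∉ region 1 S := fun h => hf ((mem_region_of_open_cell hz.1 hz.2.1 hz.2.2.1 hz.2.2.2).1 h)

/-- Coordinates along a directed edge: left of the edge. -/
theorem left_cell (w : ℤ × ℤ) (r : Fin 4) {s b : ℝ} (hs0 : 0 < s) (hs1 : s < 1) (hb0 : 0 < b)
    (hb1 : b < 1) : pt w + s * pt (dir r) + b * pt (dir (r + 1)) ∈ ocell (face w r) := by
  unfold ocell
  fin_cases r <;> simp [pt, dir, face] <;> refine ⟨?_, ?_, ?_, ?_⟩ <;> linarith

/-- Right of the edge. -/
theorem right_cell (w : ℤ × ℤ) (r : Fin 4) {s b : ℝ} (hs0 : 0 < s) (hs1 : s < 1) (hb0 : -1 < b)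
    (hb1 : b < 0) : pt w + s * pt (dir r) + b * pt (dir (r + 1)) ∈ ocell (face w (r - 1)) := by
  unfold ocell
  fin_cases r <;> simp [pt, dir, face] <;> refine ⟨?_, ?_, ?_, ?_⟩ <;> linarith

theorem pt_dir_succ (r : Fin 4) : pt (dir (r + 1)) = I * pt (dir r) := by
  fin_cases r <;> (apply Complex.ext <;> simp [pt, dir])

theorem norm_pt_dir (r : Fin 4) : ‖pt (dir r)‖ = 1 := by
  rw [Complex.norm_eq_sqrt_sq_add_sq]
  fin_cases r <;> simp [pt, dir]

theorem decomp {u z : ℂ} (hu : ‖u‖ = 1) :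
    z = (z * conj u).re * u + (z * conj (I * u)).re * (I * u) := by
  have h1 : u * conj u = 1 := by
    rw [Complex.mul_conj, Complex.normSq_eq_norm_sq, hu]; norm_num
  have h2 : (z * conj (I * u)).re = (z * conj u).im := by
    rw [map_mul, conj_I]
    have : z * (-I * conj u) = -I * (z * conj u) := by ring
    rw [this]; simp
  rw [h2]
  have h3 : ((z * conj u).re : ℂ) * u + ((z * conj u).im : ℂ) * (I * u) = (z * conj u) * u := by
    conv_rhs => rw [← Complex.re_add_im (z * conj u)]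
    ring
  rw [h3, mul_assoc, mul_comm (conj u) u, h1, mul_one]

/-- The domain is flat at the interior points of the unit sides. -/
theorem flat_side {Q : Finset (ℤ × ℤ)} {w : ℤ × ℤ} {r : Fin 4} (hl : face w r ∈ Q)
    (hr : face w (r - 1) ∉ Q) {t₀ : ℝ} (h0 : 0 < t₀) (h1 : t₀ < 1) :
    Flat (interior (region 1 Q)) (pt w + t₀ * pt (dir r)) (pt (dir (r + 1))) (min t₀ (1 - t₀)) := by
  set q : ℂ := pt w + t₀ * pt (dir r) with hq
  set ν : ℂ := pt (dir (r + 1)) with hν
  set ρ : ℝ := min t₀ (1 - t₀) with hρ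
  have hρ1 : ρ ≤ t₀ := min_le_left _ _
  have hρ2 : ρ ≤ 1 - t₀ := min_le_right _ _
  have hu := norm_pt_dir r
  have hνI : ν = I * pt (dir r) := pt_dir_succ r
  have hν1 : ‖ν‖ = 1 := norm_pt_dir (r + 1)
  have hνν : ν * conj ν = 1 := by
    rw [Complex.mul_conj, Complex.normSq_eq_norm_sq, hν1]; norm_num
  -- coordinates
  have hco : ∀ z : ℂ, z = pt w + ((t₀ + ((z - q) * conj (pt (dir r))).re : ℝ) : ℂ) * pt (dir r) +
      (((z - q) * conj ν).re : ℂ) * pt (dir (r + 1)) := by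
    intro z
    have := decomp (z := z - q) hu
    rw [← hνI] at this
    have e : z = q + (z - q) := by ring
    conv_lhs => rw [e, this]
    rw [hq]
    push_cast
    ring
  have hbd : ∀ z ∈ ball q ρ, |((z - q) * conj (pt (dir r))).re| < ρ ∧ |((z - q) * conj ν).re| < ρ := by
    intro z hz
    rw [mem_ball, dist_eq_norm] at hz
    constructor
    · refine lt_of_le_of_lt (Complex.abs_re_le_norm _) ?_
      rw [norm_mul, norm_conj, hu, mul_one]; exact hz
    · refine lt_of_le_of_lt (Complex.abs_re_le_norm _) ?_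
      rw [norm_mul, norm_conj, hν1, mul_one]; exact hz
  have hneg : ∀ z ∈ ball q ρ, ((z - q) * conj ν).re < 0 → z ∉ interior (region 1 Q) := by
    intro z hz hlt hm
    obtain ⟨a1, a2⟩ := hbd z hz
    rw [abs_lt] at a1 a2
    have h3 := right_cell w r (s := t₀ + ((z - q) * conj (pt (dir r))).re)
      (b := ((z - q) * conj ν).re) (by linarith) (by linarith) (by linarith) hlt
    rw [← hco z] at h3
    exact ocell_disjoint hr h3 (interior_subset hm)
  refine ⟨hν1, lt_min h0 (by linarith), ?_⟩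
  intro z hz
  obtain ⟨a1, a2⟩ := hbd z hz
  rw [abs_lt] at a1 a2
  constructor
  · intro hm
    by_contra hle
    rw [not_lt] at hle
    rcases hle.lt_or_eq with hlt | heq
    · exact hneg z hz hlt hm
    · -- push slightly down
      have hc : Tendsto (fun ε : ℝ => z - ε * ν) (𝓝[>] 0) (𝓝 z) := by
        have h3 : Continuous fun ε : ℝ => z - ε * ν := by fun_prop
        have h4 := h3.tendsto 0
        simp only [ofReal_zero, zero_mul, sub_zero] at h4
        exact h4.mono_left nhdsWithin_le_nhds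
      have h5 := hc.eventually (isOpen_interior.mem_nhds hm)
      have h6 := hc.eventually (isOpen_ball.mem_nhds hz)
      obtain ⟨ε, ⟨h7, h8⟩, h9⟩ := ((h5.and h6).and self_mem_nhdsWithin).exists
      have hε : (0 : ℝ) < ε := h9
      refine hneg _ h8 ?_ h7
      have e : (z - ε * ν - q) * conj ν = (z - q) * conj ν - ε * (ν * conj ν) := by ring
      rw [e, hνν, mul_one, Complex.sub_re, heq, ofReal_re]
      linarith
  · intro hpos
    have h3 := left_cell w r (s := t₀ + ((z - q) * conj (pt (dir r))).re)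
      (b := ((z - q) * conj ν).re) (by linarith) (by linarith) hpos (by linarith)
    rw [← hco z] at h3
    exact ocell_subset hl h3

/-! ### Real points -/

/-- The exceptional boundary points: the lattice points of the polygon and the points at the
position `tp` of the sides. -/
noncomputable def bad (S : CA.Dat) : Set ℂ :=
  ⋃ i : ZMod S.l, {pt (S.p i), pt (S.p i) + S.tp * (pt (S.p (i + 1)) - pt (S.p i))}

theorem bad_finite (S : CA.Dat) : (bad S).Finite := by
  have : NeZero S.l := ⟨by have := S.poly.1; omega⟩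
  exact Set.finite_iUnion fun i => by simp

theorem bad_preimage_finite (S : CA.Dat) {ψ g : ℂ → ℂ} (h : CA.Pair S.P ψ g) :
    {x : ℝ | ψ x ∈ bad S}.Finite := by
  refine (bad_finite S).preimage (f := fun x : ℝ => ψ x) ?_
  intro x _ y _ hxy
  have := h.inj (show (x : ℂ) ∈ {z : ℂ | 0 ≤ z.im} by simp) (show (y : ℂ) ∈ {z : ℂ | 0 ≤ z.im} by simp) hxy
  exact Complex.ofReal_injective this

theorem exists_side (S : CA.Dat) {ψ g : ℂ → ℂ} (h : CA.Pair S.P ψ g) {x : ℝ} (hx : ψ x ∉ bad S) :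
    ∃ (w : ℤ × ℤ) (r : Fin 4) (t₀ : ℝ), face w r ∈ S.Q ∧ face w (r - 1) ∉ S.Q ∧ 0 < t₀ ∧ t₀ < 1 ∧
      t₀ ≠ S.tp ∧ ψ x = pt w + t₀ * pt (dir r) := by
  have h1 := real_mem_frontier h x
  have h2 : frontier S.P = range (E6.PF6 S.p 1) := E6.frontier_D6 one_pos S.poly S.enc
  rw [h2, E6.range_PF6 (by have := S.poly.1; omega)] at h1
  obtain ⟨i, a, b, ha, hb, hab, he⟩ := mem_iUnion.1 h1
  obtain ⟨r, hr⟩ := S.poly.2.2 i
  have hpt : pt (S.p (i + 1)) = pt (S.p i) + pt (dir r) := by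
    rw [hr]; apply Complex.ext <;> simp [pt]
  simp only [ofReal_one, one_mul, Complex.real_smul] at he
  have ha' : (a : ℂ) = 1 - b := by
    have : a = 1 - b := by linarith
    rw [this]; push_cast; ring
  have he2 : ψ x = pt (S.p i) + b * pt (dir r) := by
    rw [← he, hpt, ha']; ring
  have hbad : ∀ z, z = pt (S.p i) ∨ z = pt (S.p i) + S.tp * (pt (S.p (i + 1)) - pt (S.p i)) →
      z ∈ bad S := by
    intro z hz
    exact mem_iUnion.2 ⟨i, by simpa using hz⟩
  have hbad' : pt (S.p (i + 1)) ∈ bad S := mem_iUnion.2 ⟨i + 1, by simp⟩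
  obtain ⟨hf1, hf2⟩ := (S.enc (S.p i) r).1 ⟨i, rfl, hr⟩
  refine ⟨S.p i, r, b, hf1, hf2, ?_, ?_, ?_, he2⟩
  · rcases hb.lt_or_eq with h | h
    · exact h
    · exfalso
      apply hx
      rw [he2, ← h]
      exact hbad _ (Or.inl (by simp))
  · rcases (show b ≤ 1 by linarith).lt_or_eq with h | h
    · exact h
    · exfalso
      apply hx
      rw [he2, h]
      simpa [hpt] using hbad'
  · intro h
    apply hx
    rw [he2, h]
    refine hbad _ (Or.inr ?_)
    rw [hpt]; ring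

theorem mapFlat_side (S : CA.Dat) {ψ g : ℂ → ℂ} (h : CA.Pair S.P ψ g) {x : ℝ} {w : ℤ × ℤ}
    {r : Fin 4} {t₀ : ℝ} (hl : face w r ∈ S.Q) (hr : face w (r - 1) ∉ S.Q) (h0 : 0 < t₀)
    (h1 : t₀ < 1) (hx : ψ x = pt w + t₀ * pt (dir r)) :
    MapFlat S.P ψ x (pt w + t₀ * pt (dir r)) (pt (dir (r + 1))) (min t₀ (1 - t₀)) where
  flat := flat_side hl hr h0 h1
  val := hx
  cont := ⟨1, one_pos, h.cont.mono inter_subset_right⟩
  diff := (pair_of h).diff
  up := fun z hz => ((pair_of h).right z hz).1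
  real := Eventually.of_forall fun _ hz => real_notMem h hz

/-- The averaged Neumann condition along all unit sides of the polygon. -/
def AvNeu (S : CA.Dat) (W : ℂ → ℝ) : Prop :=
  ∀ (w : ℤ × ℤ) (r : Fin 4), face w r ∈ S.Q → face w (r - 1) ∉ S.Q → ∀ θ : ℝ → ℝ,
    ContDiff ℝ ∞ θ → tsupport θ ⊆ Ioo 0 1 \ {S.tp} →
    Tendsto (fun h : ℝ => (∫ t : ℝ, θ t * (W (pt w + t * pt (dir r) + h * pt (dir (r + 1))) -
      W (pt w + t * pt (dir r)))) / h) (𝓝[>] 0) (𝓝 0)

theorem neuSideAv_of (S : CA.Dat) {ψ g : ℂ → ℂ} (h : CA.Pair S.P ψ g) {W : ℂ → ℝ}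
    (hW : ContinuousOn W (closure S.P)) (hN : AvNeu S W) {x : ℝ} (hx : ψ x ∉ bad S) :
    NeuSideAv S.P ψ W x := by
  obtain ⟨w, r, t₀, hl, hr, h0, h1, htp, hv⟩ := exists_side S h hx
  set q : ℂ := pt w + t₀ * pt (dir r) with hq
  set ν : ℂ := pt (dir (r + 1)) with hν
  have hM := mapFlat_side S h hl hr h0 h1 hv
  rw [← hq, ← hν] at hM
  set ρ : ℝ := min (min t₀ (1 - t₀)) |t₀ - S.tp| with hρ
  have hρ0 : 0 < ρ := lt_min (lt_min h0 (by linarith)) (abs_pos.2 (sub_ne_zero.2 htp))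
  have hM' := hM.mono hρ0 (min_le_left _ _)
  refine ⟨q, ν, ρ, hM', ?_, ?_⟩
  · refine hW.mono ?_
    rintro z ⟨hz1, hz2⟩
    have hz2' : 0 ≤ ((z - q) * conj ν).re := hz2
    have hνν : ν * conj ν = 1 := by
      rw [Complex.mul_conj, Complex.normSq_eq_norm_sq, hM'.flat.norm]; norm_num
    have hc : Tendsto (fun ε : ℝ => z + ε * ν) (𝓝[>] 0) (𝓝 z) := by
      have h3 : Continuous fun ε : ℝ => z + ε * ν := by fun_prop
      have h4 := h3.tendsto 0
      simp only [ofReal_zero, zero_mul, add_zero] at h4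
      exact h4.mono_left nhdsWithin_le_nhds
    refine mem_closure_of_tendsto hc ?_
    filter_upwards [hc.eventually (isOpen_ball.mem_nhds hz1), self_mem_nhdsWithin] with ε h5 h6
    have hε : (0 : ℝ) < ε := h6
    rw [hM'.flat.mem _ h5]
    have e : (z + ε * ν - q) * conj ν = (z - q) * conj ν + ε * (ν * conj ν) := by ring
    rw [e, hνν, mul_one, Complex.add_re, ofReal_re]
    linarith
  · intro θ hθ1 hθ2 hθ3
    -- the shifted test function
    have hs1 : ContDiff ℝ ∞ fun t : ℝ => θ (t - t₀) := hθ1.comp (contDiff_id.sub contDiff_const)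
    have hts : tsupport (fun t : ℝ => θ (t - t₀)) ⊆ Ioo 0 1 \ {S.tp} := by
      have h5 : tsupport (fun t : ℝ => θ (t - t₀)) ⊆ (fun t : ℝ => t - t₀) ⁻¹' tsupport θ := by
        refine closure_minimal ?_ ((isClosed_tsupport θ).preimage (by fun_prop))
        intro t ht
        exact subset_tsupport _ ht
      intro t ht
      have h6 := hθ3 (h5 ht)
      have h7 : |t - t₀| < ρ := abs_lt.2 h6
      have h8 : ρ ≤ min t₀ (1 - t₀) := min_le_left _ _
      have h9 : ρ ≤ |t₀ - S.tp| := min_le_right _ _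
      have h10 : min t₀ (1 - t₀) ≤ t₀ := min_le_left _ _
      have h11 : min t₀ (1 - t₀) ≤ 1 - t₀ := min_le_right _ _
      refine ⟨⟨?_, ?_⟩, ?_⟩
      · linarith [h6.1]
      · linarith [h6.2]
      · intro hh
        rw [mem_singleton_iff] at hh
        rw [hh, abs_sub_comm] at h7
        linarith
    refine (hN w r hl hr _ hs1 hts).congr fun h' => ?_
    congr 1
    rw [← integral_add_right_eq_self (fun t : ℝ => θ (t - t₀) *
      (W (pt w + t * pt (dir r) + h' * pt (dir (r + 1))) - W (pt w + t * pt (dir r)))) t₀]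
    refine integral_congr_ae (Eventually.of_forall fun t => ?_)
    have hI : -(I * ν) = pt (dir r) := by
      rw [hν, pt_dir_succ, ← mul_assoc, I_mul_I]; ring
    have e1 : pt w + ((t + t₀ : ℝ) : ℂ) * pt (dir r) = q - I * ν * t := by
      have : q - I * ν * t = q + -(I * ν) * t := by ring
      rw [this, hI, hq]; push_cast; ring
    simp only [add_sub_cancel_right, e1, ← hν]

/-- **The Neumann problem in a lattice polygon**: a continuous function on the closed polygon which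
satisfies `-ΔW = s f` weakly in the polygon and the averaged Neumann condition along the unit sides
is `s · npot + const`. -/
theorem poly_bvp (S : CA.Dat) {ψ g : ℂ → ℂ} (h : CA.Pair S.P ψ g) {f W : ℂ → ℝ} {s : ℝ}
    (hf : Test S.P f) (hW : ContinuousOn W (closure S.P))
    (hw : ∀ χ, Test S.P χ → ∫ z, W z * lap χ z = - s * ∫ z, f z * χ z)
    (hN : AvNeu S W) : ∃ c : ℝ, ∀ z ∈ S.P, W z = s * npot g f z + c := by
  have hP := pair_of h
  have hcomp : IsCompact (closure S.P) := (E6.isBounded_D6 one_pos S.Q).isCompact_closure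
  obtain ⟨M, hM⟩ := hcomp.exists_bound_of_continuousOn hW
  have hbd : ∀ ζ : ℂ, 0 < ζ.im → |W (ψ ζ)| ≤ M := fun ζ hζ =>
    hM _ (subset_closure (hP.right ζ hζ).1)
  refine bvp_const hP.conf hP.diff hP.right hP.left hf (hW.mono subset_closure) hw
    (K := (bad_preimage_finite S h).toFinset) ?_ ?_ ?_
  · intro x hx
    rw [Set.Finite.mem_toFinset] at hx
    exact sideHarm_of_neuSideAv hP.conf.isOpen hf (hW.mono subset_closure) hw
      (neuSideAv_of S h hW hN hx)
  · intro x _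
    exact ⟨M, Eventually.of_forall fun z hz => hbd z hz⟩
  · refine ⟨|M|, 1, fun z hz h1 => (hbd z hz).trans ((le_abs_self M).trans ?_)⟩
    have := Real.log_nonneg h1
    nlinarith [abs_nonneg M]

/-- The same with the hypotheses in the form of `CA/Neu.lean`. -/
theorem poly_bvp' (S : CA.Dat) {ψ g : ℂ → ℂ} (h : CA.Pair S.P ψ g) {f W : ℂ → ℝ} {s : ℝ}
    (hf : Test S.P f) (hW : ContinuousOn W (region 1 S.Q))
    (hw : ∀ χ, Test S.P χ → ∫ z, W z * lap χ z = - s * ∫ z, f z * χ z)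
    (hN : ∀ (w : ℤ × ℤ) (r : Fin 4), face w r ∈ S.Q → face w (r - 1) ∉ S.Q → ∀ θ : ℝ → ℝ,
      ContDiff ℝ ∞ θ → tsupport θ ⊆ Ioo 0 1 \ {S.tp} → ∀ ε > 0, ∃ r₀ > 0, ∀ η : ℝ, 0 < η → η < r₀ →
      |∫ t : ℝ, θ t * (W (pt w + t * pt (dir r) + η * (I * pt (dir r))) -
        W (pt w + t * pt (dir r)))| ≤ ε * η) : ∃ c : ℝ, ∀ z ∈ S.P, W z = s * npot g f z + c := by
  have hcl : closure S.P = region 1 S.Q := E6.closure_D6 one_pos S.Q
  refine poly_bvp S h hf (by rw [hcl]; exact hW) hw ?_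
  intro w r hl hr θ h1 h2
  rw [Metric.tendsto_nhdsWithin_nhds]
  intro ε hε
  obtain ⟨r₀, hr₀, hr₀'⟩ := hN w r hl hr θ h1 h2 (ε / 2) (by positivity)
  refine ⟨r₀, hr₀, fun {η} hη0 hηd => ?_⟩
  have hη : (0 : ℝ) < η := hη0
  rw [Real.dist_eq, sub_zero, abs_of_pos hη] at hηd
  have h3 := hr₀' η hη hηd
  rw [← pt_dir_succ] at h3
  rw [Real.dist_eq, sub_zero, abs_div, abs_of_pos hη, div_lt_iff₀ hη]
  have : ε / 2 * η < ε * η := by nlinarith
  linarith

/-- Pairing with a neutral charge. -/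
theorem poly_pair (S : CA.Dat) {g : ℂ → ℂ} {f k W : ℂ → ℝ} {s c : ℝ} (hk : S.FF k)
    (hc : ∀ z ∈ S.P, W z = s * npot g f z + c) : ∫ z, k z * W z = s * CA.en g k f := by
  have e : ∀ z, k z * W z = s * (k z * npot g f z) + c * k z := by
    intro z
    by_cases hz : z ∈ tsupport k
    · rw [hc z (hk.1.2.2 hz)]; ring
    · rw [image_eq_zero_of_notMem_tsupport hz]; ring
  have hki : Integrable k := hk.1.1.continuous.integrable_of_hasCompactSupport hk.1.2.1
  simp_rw [e]
  by_cases hi : Integrable fun z => s * (k z * npot g f z)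
  · rw [integral_add hi (hki.const_mul c), integral_const_mul, integral_const_mul, hk.2, mul_zero,
      add_zero]
    rfl
  · have h1 : ¬ Integrable fun z => s * (k z * npot g f z) + c * k z := by
      intro h2
      apply hi
      have := h2.sub (hki.const_mul c)
      refine this.congr (Eventually.of_forall fun z => ?_)
      simp
    rw [integral_undef h1]
    have hs : s ≠ 0 := by
      rintro rfl
      apply hi
      simp
    have h3 : ¬ Integrable fun z => k z * npot g f z := fun h4 => hi (h4.const_mul s)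
    unfold CA.en
    rw [integral_undef h3, mul_zero]

end Vale.Agent.P167.BVP
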