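import Vale.Agent.P167.BVP.Fund
import Vale.Agent.P198.W.Conf
import Vale.Agent.P153.R2.L1.HMax

/-!
# P167, block BVP: the logarithmic potential of a smooth charge
-/

open Set Metric Filter Topology InnerProductSpace Complex MeasureTheory
open scoped ComplexConjugate ContDiff Convolution

namespace Vale.Agent.P167.BVP

open P198W

/-- Test functions of an open set. -/
def Test (U : Set ℂ) (ψ : ℂ → ℝ) : Prop := ContDiff ℝ ∞ ψ ∧ HasCompactSupport ψ ∧ tsupport ψ ⊆ U

theorem two_le_inf : (2 : WithTop ℕ∞) ≤ ∞ := two_le_infty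

theorem hcs_lap {ψ : ℂ → ℝ} (h : HasCompactSupport ψ) : HasCompactSupport (lap ψ) :=
  (hasCompactSupport_pd (hasCompactSupport_pd h 1) 1).add
    (hasCompactSupport_pd (hasCompactSupport_pd h I) I)

theorem cont_lap {ψ : ℂ → ℝ} (h : ContDiff ℝ 2 ψ) : Continuous (lap ψ) := by
  have h1 : ∀ e, Continuous (pd e (pd e ψ)) := fun e =>
    (contDiff_pd (m := 0) (contDiff_pd (m := 1) h (by norm_num) e) (by norm_num) e).continuous
  exact (h1 1).add (h1 I)

theorem lap_eq_zero_of_notMem {ψ : ℂ → ℝ} {z : ℂ} (h : z ∉ tsupport ψ) : lap ψ z = 0 := by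
  have h2 : ∀ e, z ∉ tsupport (pd e (pd e ψ)) := fun e h3 =>
    h (tsupport_pd_subset _ _ (tsupport_pd_subset _ _ h3))
  unfold lap
  rw [image_eq_zero_of_notMem_tsupport (h2 1), image_eq_zero_of_notMem_tsupport (h2 I)]
  simp

/-- Green's formula on the plane. -/
theorem green {v ψ : ℂ → ℝ} (hv : ContDiff ℝ 2 v) (hψ : ContDiff ℝ 2 ψ)
    (hs : HasCompactSupport ψ) : ∫ z, v z * lap ψ z = ∫ z, lap v z * ψ z := by
  have key : ∀ e : ℂ, ∫ z, v z * pd e (pd e ψ) z = ∫ z, pd e (pd e v) z * ψ z := by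
    intro e
    have h1 : ContDiff ℝ 1 (pd e ψ) := contDiff_pd hψ (by norm_num) e
    have h2 : ContDiff ℝ 1 (pd e v) := contDiff_pd hv (by norm_num) e
    have a1 := Fund.lea_ibp (hv.of_le (by norm_num)) h1 (hasCompactSupport_pd hs e) e
    have a2 := Fund.lea_ibp h2 (hψ.of_le (by norm_num)) hs e
    have a3 : ∫ z, v z * pd e (pd e ψ) z = - ∫ z, pd e v z * pd e ψ z := a1
    have a4 : ∫ z, pd e v z * pd e ψ z = - ∫ z, pd e (pd e v) z * ψ z := a2
    rw [a3, a4, neg_neg]
  have i1 : ∀ e, Integrable (fun z => v z * pd e (pd e ψ) z) := fun e =>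
    (hv.continuous.mul (contDiff_pd (m := 0) (contDiff_pd (m := 1) hψ (by norm_num) e)
      (by norm_num) e).continuous).integrable_of_hasCompactSupport
      (hasCompactSupport_pd (hasCompactSupport_pd hs e) e).mul_left
  have i2 : ∀ e, Integrable (fun z => pd e (pd e v) z * ψ z) := fun e =>
    ((contDiff_pd (m := 0) (contDiff_pd (m := 1) hv (by norm_num) e)
      (by norm_num) e).continuous.mul hψ.continuous).integrable_of_hasCompactSupport hs.mul_left
  have e1 : (fun z => v z * lap ψ z) = fun z => v z * pd 1 (pd 1 ψ) z + v z * pd I (pd I ψ) z := by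
    funext z; unfold lap; ring
  have e2 : (fun z => lap v z * ψ z) = fun z => pd 1 (pd 1 v) z * ψ z + pd I (pd I v) z * ψ z := by
    funext z; unfold lap; ring
  rw [e1, e2, integral_add (i1 1) (i1 I), integral_add (i2 1) (i2 I), key 1, key I]

theorem lap_congr {f g : ℂ → ℝ} {z : ℂ} (h : f =ᶠ[𝓝 z] g) : lap f z = lap g z := by
  have h1 : ∀ e, pd e f =ᶠ[𝓝 z] pd e g := by
    intro e
    filter_upwards [h.eventually_nhds] with y hy using pd_congr hy e
  unfold lap
  rw [pd_congr (h1 1), pd_congr (h1 I)]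

/-- Harmonic functions are weakly harmonic. -/
theorem harm_weak {U : Set ℂ} (hU : IsOpen U) {u ψ : ℂ → ℝ} (hu : ∀ z ∈ U, HarmonicAt u z)
    (hψ : Test U ψ) : ∫ z, u z * lap ψ z = 0 := by
  obtain ⟨h1, h2, h3⟩ := hψ
  obtain ⟨f, hf0, hf1, -⟩ := exists_contMDiffMap_zero_one_nhds_of_isClosed
    (modelWithCornersSelf ℝ ℂ) (n := (⊤ : ℕ∞)) (s := Uᶜ) (t := tsupport ψ) hU.isClosed_compl
    (isClosed_tsupport ψ) (disjoint_compl_left_iff_subset.2 h3)
  have hfs : ContDiff ℝ ∞ (f : ℂ → ℝ) := f.contMDiff.contDiff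
  set v : ℂ → ℝ := fun z => f z * u z with hv
  have hvc : ContDiff ℝ 2 v := by
    rw [contDiff_iff_contDiffAt]
    intro z
    by_cases hz : z ∈ U
    · exact (hfs.contDiffAt.of_le two_le_infty).mul (hu z hz).1
    · have h4 : ∀ᶠ y in 𝓝 z, f y = 0 := hf0.filter_mono (nhds_le_nhdsSet hz)
      refine (contDiffAt_const (c := (0 : ℝ))).congr_of_eventuallyEq ?_
      filter_upwards [h4] with y hy
      simp [hv, hy]
  have h5 : ∫ z, u z * lap ψ z = ∫ z, v z * lap ψ z := by
    refine integral_congr_ae (Eventually.of_forall fun z => ?_)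
    by_cases hz : z ∈ tsupport ψ
    · have h6 : f z = 1 := (hf1.filter_mono (nhds_le_nhdsSet hz)).self_of_nhds
      simp [hv, h6]
    · simp [lap_eq_zero_of_notMem hz]
  rw [h5, green hvc (h1.of_le two_le_infty) h2]
  have h7 : ∀ z, lap v z * ψ z = 0 := by
    intro z
    by_cases hz : z ∈ tsupport ψ
    · have h8 : v =ᶠ[𝓝 z] u := by
        filter_upwards [hf1.filter_mono (nhds_le_nhdsSet hz)] with y hy
        simp [hv, hy]
      rw [lap_congr h8, lap_eq_zero (hu z (h3 hz)), zero_mul]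
    · rw [image_eq_zero_of_notMem_tsupport hz, mul_zero]
  simp [h7]

/-- Extension by zero of a continuous function. -/
theorem cont_ext {X : Type*} [TopologicalSpace X] {F : X → ℝ} {S K : Set X} (hS : IsOpen S)
    (hK : IsClosed K) (hKS : K ⊆ S) (hF : ContinuousOn F S) (h0 : ∀ x ∉ K, F x = 0) :
    Continuous F := by
  rw [continuous_iff_continuousAt]
  intro x
  by_cases hx : x ∈ K
  · exact hF.continuousAt (hS.mem_nhds (hKS hx))
  · refine (continuousAt_const (y := (0 : ℝ))).congr ?_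
    filter_upwards [hK.isOpen_compl.mem_nhds hx] with y hy
    exact (h0 y hy).symm

/-- Averages of harmonic functions with a compactly supported continuous weight. -/
theorem harm_param {Y : Type*} [TopologicalSpace Y] [T2Space Y] [MeasurableSpace Y]
    [OpensMeasurableSpace Y] {μ : Measure Y} [IsFiniteMeasureOnCompacts μ]
    {U : Set ℂ} {V : Set Y} (hU : IsOpen U) (hV : IsOpen V) {f : Y → ℝ}
    (hf : Continuous f) (hfc : HasCompactSupport f) (hfV : tsupport f ⊆ V) {k : ℂ → Y → ℝ}
    (hk : ContinuousOn (Function.uncurry k) (U ×ˢ V))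
    (hh : ∀ w ∈ V, ∀ z ∈ U, HarmonicAt (fun z => k z w) z) :
    ∀ z ∈ U, HarmonicAt (fun z => ∫ w, f w * k z w ∂μ) z := by
  have hc1 : ContinuousOn (Function.uncurry fun z w => f w * k z w) (U ×ˢ univ) := by
    have hopen : IsOpen (U ×ˢ (univ : Set Y)) := hU.prod isOpen_univ
    intro p hp
    by_cases hw : p.2 ∈ tsupport f
    · have h1 : ContinuousAt (Function.uncurry k) p :=
        hk.continuousAt ((hU.prod hV).mem_nhds ⟨hp.1, hfV hw⟩)
      have h2 : ContinuousAt (fun p : ℂ × Y => f p.2) p := by fun_prop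
      exact (h2.mul h1).continuousWithinAt
    · refine ((continuousAt_const (y := (0 : ℝ))).congr ?_).continuousWithinAt
      have h3 : ∀ᶠ y in 𝓝 p, y.2 ∉ tsupport f :=
        (continuous_snd.tendsto p).eventually ((isClosed_tsupport f).isOpen_compl.mem_nhds hw)
      filter_upwards [h3] with y hy
      simp [Function.uncurry, image_eq_zero_of_notMem_tsupport hy]
  have hcont : ContinuousOn (fun z => ∫ w, f w * k z w ∂μ) U := by
    refine continuousOn_integral_of_compact_support (k := tsupport f) hfc hc1 ?_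
    intro z w _ hw
    rw [image_eq_zero_of_notMem_tsupport hw, zero_mul]
  intro z hz
  refine weyl hU hcont ?_ z hz
  intro ψ hψ hψc hψU
  have hl := cont_lap (hψ.of_le two_le_infty)
  set F : ℂ → Y → ℝ := fun z w => (f w * k z w) * lap ψ z with hF
  have hFc : Continuous (Function.uncurry F) := by
    refine cont_ext (S := U ×ˢ V) (K := tsupport ψ ×ˢ tsupport f) (hU.prod hV)
      ((isClosed_tsupport ψ).prod (isClosed_tsupport f)) (prod_mono hψU hfV) ?_ ?_
    · have h1 : ContinuousOn (fun p : ℂ × Y => f p.2) (U ×ˢ V) := by fun_prop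
      have h2 : ContinuousOn (fun p : ℂ × Y => lap ψ p.1) (U ×ˢ V) := by fun_prop
      exact (h1.mul hk).mul h2
    · rintro ⟨a, b⟩ hab
      rw [mem_prod, not_and_or] at hab
      simp only [Function.uncurry, hF]
      rcases hab with h | h
      · simp only at h; rw [lap_eq_zero_of_notMem h, mul_zero]
      · simp only at h; rw [image_eq_zero_of_notMem_tsupport h]; ring
  have hFs : HasCompactSupport (Function.uncurry F) := by
    refine HasCompactSupport.intro (K := tsupport ψ ×ˢ tsupport f) (hψc.isCompact.prod hfc.isCompact) ?_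
    rintro ⟨a, b⟩ hab
    rw [mem_prod, not_and_or] at hab
    simp only [Function.uncurry, hF]
    rcases hab with h | h
    · simp only at h; rw [lap_eq_zero_of_notMem h, mul_zero]
    · simp only at h; rw [image_eq_zero_of_notMem_tsupport h]; ring
  have e1 : ∫ z, (∫ w, f w * k z w ∂μ) * lap ψ z = ∫ z, ∫ w, F z w ∂μ := by
    refine integral_congr_ae (Eventually.of_forall fun z => ?_)
    simp only [hF]
    rw [integral_mul_const]
  rw [e1, integral_integral_swap_of_hasCompactSupport hFc hFs]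
  have e2 : ∀ w, ∫ z, F z w = 0 := by
    intro w
    by_cases hw : w ∈ tsupport f
    · have h1 := harm_weak hU (u := fun z => k z w) (ψ := ψ) (hh w (hfV hw)) ⟨hψ, hψc, hψU⟩
      have h2 : ∀ z, F z w = f w * (k z w * lap ψ z) := fun z => by simp only [hF]; ring
      simp_rw [h2]
      rw [integral_const_mul, h1, mul_zero]
    · have h2 : ∀ z, F z w = 0 := fun z => by
        simp only [hF]; rw [image_eq_zero_of_notMem_tsupport hw]; ring
      simp [h2]
  simp [e2]

/-- The logarithmic potential `∫ f(w) log‖z - w‖ dw`. -/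
noncomputable def lpot (f : ℂ → ℝ) (z : ℂ) : ℝ := ∫ w, f w * Real.log ‖z - w‖

theorem lpot_eq (f : ℂ → ℝ) (z : ℂ) : lpot f z = ∫ t : ℂ, Real.log ‖t‖ * f (z - t) := by
  unfold lpot
  rw [← integral_sub_left_eq_self (fun t : ℂ => Real.log ‖t‖ * f (z - t)) volume z]
  refine integral_congr_ae (Eventually.of_forall fun w => ?_)
  simp only [sub_sub_cancel]
  ring

theorem lpot_conv (f : ℂ → ℝ) : lpot f =
    ((fun t : ℂ => Real.log ‖t‖) ⋆[ContinuousLinearMap.lsmul ℝ ℝ, volume] f) := by
  funext z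
  rw [lpot_eq, conv_apply]

theorem lpot_contDiff {f : ℂ → ℝ} (hf : ContDiff ℝ ∞ f) (hc : HasCompactSupport f) :
    ContDiff ℝ ∞ (lpot f) := by
  rw [lpot_conv]
  exact conv_contDiff Fund.lea_log hf hc

theorem lap_lpot {f : ℂ → ℝ} (hf : ContDiff ℝ ∞ f) (hc : HasCompactSupport f) (z : ℂ) :
    lap (lpot f) z = 2 * Real.pi * f z := by
  rw [lpot_conv, lap_convolution Fund.lea_log hf hc]
  have h1 : ContDiff ℝ 2 (fun t => f (z - t)) :=
    (hf.comp (contDiff_const.sub contDiff_id)).of_le two_le_infty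
  have := Fund.log_repr h1 (hasCompactSupport_comp_sub hc z)
  rw [this]; simp

theorem lpot_weak {f ψ : ℂ → ℝ} (hf : ContDiff ℝ ∞ f) (hc : HasCompactSupport f)
    (hψ : ContDiff ℝ ∞ ψ) (hψc : HasCompactSupport ψ) :
    ∫ z, lpot f z * lap ψ z = 2 * Real.pi * ∫ z, f z * ψ z := by
  rw [green ((lpot_contDiff hf hc).of_le two_le_infty) (hψ.of_le two_le_infty) hψc,
    ← integral_const_mul]
  refine integral_congr_ae (Eventually.of_forall fun z => ?_)
  simp only [lap_lpot hf hc]
  ring

end Vale.Agent.P167.BVP
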