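import Vale.Agent.P167.BVP.Dir

/-!
# P167, block BVP: the reflection principle under a pointwise Neumann condition
-/

open Set Metric Filter Topology InnerProductSpace Complex Real
open scoped ComplexConjugate

namespace Vale.Agent.P167.BVP

/-- the open upper half of a disc -/
def halfBall (ρ : ℝ) : Set ℂ := {z | z ∈ ball (0 : ℂ) ρ ∧ 0 < z.im}

theorem halfBall_open (ρ : ℝ) : IsOpen (halfBall ρ) :=
  isOpen_ball.inter (isOpen_lt continuous_const Complex.continuous_im)

theorem halfBall_conn (ρ : ℝ) : IsPreconnected (halfBall ρ) :=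
  ((convex_ball (0 : ℂ) ρ).inter (convex_halfSpace_im_gt 0)).isPreconnected

theorem nonpos_aux {ρ : ℝ} (hρ : 0 < ρ) {w : ℂ → ℝ} (hc : ContinuousOn w (closedBall 0 ρ))
    (hh : HarmonicOnNhd w (halfBall ρ)) (he : ∀ z ∈ closedBall (0 : ℂ) ρ, w (conj z) = w z)
    (hN : ∀ x : ℝ, |x| < ρ → Neu w x) (h0 : ∀ z ∈ sphere (0 : ℂ) ρ, w z = 0) :
    ∀ z ∈ closedBall (0 : ℂ) ρ, w z ≤ 0 := by
  by_contra hcon
  push Not at hcon
  obtain ⟨z₁, hz₁, hz₁M⟩ := hcon
  obtain ⟨z₀', hz₀', hmax⟩ := (isCompact_closedBall (0 : ℂ) ρ).exists_isMaxOn ⟨z₁, hz₁⟩ hc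
  -- by evenness the maximum is attained in the upper half
  obtain ⟨z₀, hz₀, him, hval⟩ : ∃ z₀ ∈ closedBall (0 : ℂ) ρ, 0 ≤ z₀.im ∧ w z₀ = w z₀' := by
    rcases le_total 0 z₀'.im with h | h
    · exact ⟨z₀', hz₀', h, rfl⟩
    · refine ⟨conj z₀', ?_, by simpa using h, he z₀' hz₀'⟩
      rw [mem_closedBall_zero_iff] at hz₀' ⊢
      rwa [norm_conj]
  have hmax0 : ∀ z ∈ closedBall (0 : ℂ) ρ, w z ≤ w z₀ := fun z hz => by rw [hval]; exact hmax hz
  have hm : 0 < w z₀ := hz₁M.trans_le (hmax0 z₁ hz₁)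
  have hns : ‖z₀‖ < ρ := by
    rw [mem_closedBall_zero_iff] at hz₀
    refine lt_of_le_of_ne hz₀ fun h => ?_
    have := h0 z₀ (by rw [mem_sphere_zero_iff_norm]; exact h)
    linarith
  have hsub : halfBall ρ ⊆ closedBall 0 ρ := fun z hz => ball_subset_closedBall hz.1
  -- not attained inside
  have hlt : ∀ z ∈ halfBall ρ, w z < w z₀ := by
    intro z hz
    refine lt_of_le_of_ne (hmax0 z (hsub hz)) fun h => ?_
    have hall := eqOn_of_le (halfBall_open ρ) (halfBall_conn ρ) hh
      (fun z hz => hmax0 z (hsub hz)) hz h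
    have hp : (ρ * I : ℂ) ∈ sphere (0 : ℂ) ρ := by
      rw [mem_sphere_zero_iff_norm, norm_mul, norm_I, mul_one, Complex.norm_real,
        Real.norm_eq_abs, abs_of_pos hρ]
    have hcw : ContinuousWithinAt w (closedBall 0 ρ) (ρ * I : ℂ) :=
      hc _ (sphere_subset_closedBall hp)
    have hT : Tendsto (fun t : ℝ => ((t : ℂ) * I)) (𝓝[<] ρ) (𝓝[closedBall 0 ρ] (ρ * I : ℂ)) := by
      rw [tendsto_nhdsWithin_iff]
      constructor
      · have : Continuous fun t : ℝ => ((t : ℂ) * I) := by fun_prop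
        exact (this.tendsto ρ).mono_left nhdsWithin_le_nhds
      · have h2 : ∀ᶠ t : ℝ in 𝓝[<] ρ, 0 < t :=
          nhdsWithin_le_nhds (eventually_gt_nhds hρ)
        filter_upwards [h2, self_mem_nhdsWithin] with t ht ht2
        have ht2' : t < ρ := ht2
        rw [mem_closedBall_zero_iff, norm_mul, norm_I, mul_one, Complex.norm_real,
          Real.norm_eq_abs, abs_of_pos ht]
        exact ht2'.le
    have h3 := hcw.tendsto.comp hT
    rw [h0 _ hp] at h3
    have h4 : Tendsto (fun t : ℝ => w ((t : ℂ) * I)) (𝓝[<] ρ) (𝓝 (w z₀)) := by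
      refine (tendsto_const_nhds (x := w z₀)).congr' ?_
      have h2 : ∀ᶠ t : ℝ in 𝓝[<] ρ, 0 < t :=
        nhdsWithin_le_nhds (eventually_gt_nhds hρ)
      filter_upwards [h2, self_mem_nhdsWithin] with t ht ht2
      have ht2' : t < ρ := ht2
      refine (hall _ ⟨?_, ?_⟩).symm
      · rw [mem_ball_zero_iff, norm_mul, norm_I, mul_one, Complex.norm_real,
          Real.norm_eq_abs, abs_of_pos ht]
        exact ht2'
      · simpa using ht
    have := tendsto_nhds_unique h3 h4
    linarith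
  -- so it is attained on the diameter
  have him0 : z₀.im = 0 := by
    rcases him.lt_or_eq with h | h
    · exact absurd (hlt z₀ ⟨by rwa [mem_ball_zero_iff], h⟩) (lt_irrefl _)
    · exact h.symm
  have hz₀re : z₀ = (z₀.re : ℂ) := by
    apply Complex.ext <;> simp [him0]
  have hre : |z₀.re| < ρ := by
    have : ‖z₀‖ = |z₀.re| := by rw [hz₀re]; simp
    rwa [← this]
  set x : ℝ := z₀.re with hx
  set δ : ℝ := (ρ - |x|) / 3 with hδ
  have hδpos : 0 < δ := by rw [hδ]; linarith
  have hcl : ∀ z ∈ closedBall ((x : ℂ) + δ * I) δ, z ∈ ball (0 : ℂ) ρ ∧ (0 < z.im ∨ z = (x : ℂ)) := by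
    intro z hz
    rw [mem_closedBall, dist_eq_norm] at hz
    refine ⟨?_, ?_⟩
    · rw [mem_ball_zero_iff]
      have h1 : ‖z‖ ≤ ‖z - ((x : ℂ) + δ * I)‖ + ‖(x : ℂ) + δ * I‖ := by
        have := norm_add_le (z - ((x : ℂ) + δ * I)) ((x : ℂ) + δ * I)
        simpa using this
      have h2 : ‖(x : ℂ) + δ * I‖ ≤ |x| + δ := by
        refine (norm_add_le _ _).trans ?_
        rw [norm_mul, norm_I, mul_one, Complex.norm_real, Complex.norm_real, Real.norm_eq_abs,
          Real.norm_eq_abs, abs_of_pos hδpos]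
      have h3 : |x| + 3 * δ = ρ := by rw [hδ]; ring
      linarith
    · have h1 : |(z - ((x : ℂ) + δ * I)).im| ≤ δ := (abs_im_le_norm _).trans hz
      have h2 : (z - ((x : ℂ) + δ * I)).im = z.im - δ := by simp
      rw [h2] at h1
      have h3 := (abs_le.1 h1).1
      rcases (show 0 ≤ z.im by linarith).lt_or_eq with h4 | h4
      · exact Or.inl h4
      · right
        have h5 : (z - ((x : ℂ) + δ * I)).re = z.re - x := by simp
        have h6 : Complex.normSq (z - ((x : ℂ) + δ * I)) ≤ δ ^ 2 := by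
          rw [Complex.normSq_eq_norm_sq]
          exact pow_le_pow_left₀ (norm_nonneg _) hz 2
        rw [Complex.normSq_apply, h5, h2, ← h4] at h6
        have h7 : (z.re - x) ^ 2 ≤ 0 := by nlinarith
        have h8 : z.re - x = 0 := by nlinarith [sq_nonneg (z.re - x)]
        apply Complex.ext
        · simp; linarith
        · simp [← h4]
  have hN0 := hN x hre
  refine not_max_of_neu hδpos (hc.mono fun z hz => ball_subset_closedBall (hcl z hz).1) ?_ ?_ ?_ hN0
  · intro z hz
    rcases hcl z (ball_subset_closedBall hz) with ⟨h1, h2 | h2⟩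
    · exact hh z ⟨h1, h2⟩
    · rw [h2, mem_ball, dist_eq_norm] at hz
      have : ‖(x : ℂ) - ((x : ℂ) + δ * I)‖ = δ := by
        rw [sub_add_cancel_left, norm_neg, norm_mul, norm_I, mul_one, Complex.norm_real,
          Real.norm_eq_abs, abs_of_pos hδpos]
      linarith
  · intro z hz
    rw [← hz₀re]
    rcases hcl z (ball_subset_closedBall hz) with ⟨h1, h2 | h2⟩
    · exact hlt z ⟨h1, h2⟩
    · rw [h2, mem_ball, dist_eq_norm] at hz
      have : ‖(x : ℂ) - ((x : ℂ) + δ * I)‖ = δ := by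
        rw [sub_add_cancel_left, norm_neg, norm_mul, norm_I, mul_one, Complex.norm_real,
          Real.norm_eq_abs, abs_of_pos hδpos]
      linarith
  · intro z hz
    rw [← hz₀re]
    exact hmax0 z (ball_subset_closedBall (hcl z hz).1)

/-- An even function which is differentiable at a real point satisfies the Neumann condition. -/
theorem neu_of_even {P : ℂ → ℝ} {x : ℝ} (hd : DifferentiableAt ℝ P (x : ℂ))
    (he : ∀ᶠ z in 𝓝 (x : ℂ), P (conj z) = P z) : Neu P x := by
  have hl : HasDerivAt (fun r : ℝ => (x : ℂ) + r * I) I 0 := by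
    have h1 : HasDerivAt (fun r : ℝ => (r : ℂ)) 1 0 := Complex.ofRealCLM.hasDerivAt
    simpa using (h1.mul_const I).const_add (x : ℂ)
  have h0 : ((x : ℂ) + ((0 : ℝ) : ℂ) * I) = x := by simp
  have hP : HasFDerivAt P (fderiv ℝ P (x : ℂ)) ((x : ℂ) + ((0 : ℝ) : ℂ) * I) := by
    rw [h0]; exact hd.hasFDerivAt
  have hcomp : HasDerivAt (fun r : ℝ => P ((x : ℂ) + r * I)) (fderiv ℝ P (x : ℂ) I) 0 :=
    hP.comp_hasDerivAt 0 hl
  have hneg : HasDerivAt (fun r : ℝ => P ((x : ℂ) + r * I)) (-(fderiv ℝ P (x : ℂ) I)) 0 := by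
    have h1 : HasDerivAt (fun r : ℝ => P ((x : ℂ) + (-r : ℝ) * I)) (-(fderiv ℝ P (x : ℂ) I)) 0 := by
      have := HasDerivAt.comp (h₂ := fun r : ℝ => P ((x : ℂ) + r * I)) (h := fun r : ℝ => -r) 0
        (by simpa using hcomp) (hasDerivAt_neg 0)
      simpa [Function.comp_def] using this
    refine h1.congr_of_eventuallyEq ?_
    have hcont : Tendsto (fun r : ℝ => (x : ℂ) + r * I) (𝓝 0) (𝓝 (x : ℂ)) := by
      have := hl.continuousAt.tendsto
      rwa [h0] at this
    filter_upwards [hcont.eventually he] with r hr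
    rw [← hr]
    congr 1
    simp
  have heq : fderiv ℝ P (x : ℂ) I = 0 := by
    have := hcomp.unique hneg
    linarith
  rw [heq] at hcomp
  have h2 := hcomp.hasDerivWithinAt (s := Ioi 0)
  rw [hasDerivWithinAt_iff_tendsto_slope' (by simp)] at h2
  refine h2.congr' ?_
  filter_upwards [self_mem_nhdsWithin] with r hr
  rw [slope_def_field]
  simp

theorem neu_sub {u v : ℂ → ℝ} {x : ℂ} (hu : Neu u x) (hv : Neu v x) :
    Neu (fun z => u z - v z) x := by
  have := hu.sub hv
  rw [sub_zero] at this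
  refine this.congr fun r => ?_
  ring

theorem neu_neg {u : ℂ → ℝ} {x : ℂ} (hu : Neu u x) : Neu (fun z => - u z) x := by
  have := hu.neg
  rw [neg_zero] at this
  refine this.congr fun r => ?_
  ring

/-- Reflection in a disc with centre `0`. -/
theorem refl_zero {ρ : ℝ} (hρ : 0 < ρ) {u : ℂ → ℝ} (hc : ContinuousOn u (closedBall 0 ρ))
    (hh : HarmonicOnNhd u (halfBall ρ)) (he : ∀ z ∈ closedBall (0 : ℂ) ρ, u (conj z) = u z)
    (hN : ∀ x : ℝ, |x| < ρ → Neu u x) : HarmonicOnNhd u (ball 0 ρ) := by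
  obtain ⟨P, hPc, hPh, hPs⟩ := exists_dirichlet hρ (hc.mono sphere_subset_closedBall)
  have hcj : ∀ z ∈ closedBall (0 : ℂ) ρ, conj z ∈ closedBall (0 : ℂ) ρ := fun z hz => by
    rw [mem_closedBall_zero_iff] at hz ⊢; rwa [norm_conj]
  -- `P` is even
  have hPe : ∀ z ∈ closedBall (0 : ℂ) ρ, P (conj z) = P z := by
    have h1 := eq_of_frontier (U := ball (0 : ℂ) ρ) isOpen_ball isBounded_ball
      (u := fun z => P (conj z)) (v := P) ?_ ?_ ?_ hPh ?_
    · rwa [closure_ball _ hρ.ne'] at h1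
    · rw [closure_ball _ hρ.ne']
      exact hPc.comp Complex.continuous_conj.continuousOn hcj
    · rwa [closure_ball _ hρ.ne']
    · intro z hz
      refine harmonicAt_conj (hPh _ ?_)
      rw [mem_ball_zero_iff] at hz ⊢; rwa [norm_conj]
    · intro z hz
      rw [frontier_ball _ hρ.ne'] at hz
      have hz' : conj z ∈ sphere (0 : ℂ) ρ := by
        rw [mem_sphere_zero_iff_norm] at hz ⊢; rwa [norm_conj]
      show P (conj z) = P z
      rw [hPs _ hz', hPs _ hz, he z (sphere_subset_closedBall hz)]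
  have hPN : ∀ x : ℝ, |x| < ρ → Neu P x := by
    intro x hx
    have hxb : (x : ℂ) ∈ ball (0 : ℂ) ρ := by rw [mem_ball_zero_iff]; simpa using hx
    refine neu_of_even ((hPh _ hxb).1.differentiableAt (by norm_num)) ?_
    filter_upwards [isOpen_ball.mem_nhds hxb] with z hz
    exact hPe z (ball_subset_closedBall hz)
  have hsubb : halfBall ρ ⊆ ball 0 ρ := fun z hz => hz.1
  have h1 := nonpos_aux hρ (w := fun z => u z - P z) (hc.sub hPc)
    (fun z hz => harmonicAt_sub' (hh z hz) (hPh z (hsubb hz)))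
    (fun z hz => by show u (conj z) - P (conj z) = u z - P z; rw [he z hz, hPe z hz])
    (fun x hx => neu_sub (hN x hx) (hPN x hx))
    (fun z hz => by show u z - P z = 0; rw [hPs z hz, sub_self])
  have h2 := nonpos_aux hρ (w := fun z => P z - u z) (hPc.sub hc)
    (fun z hz => harmonicAt_sub' (hPh z (hsubb hz)) (hh z hz))
    (fun z hz => by show P (conj z) - u (conj z) = P z - u z; rw [he z hz, hPe z hz])
    (fun x hx => neu_sub (hPN x hx) (hN x hx))
    (fun z hz => by show P z - u z = 0; rw [hPs z hz, sub_self])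
  intro z hz
  refine (harmonicAt_congr_nhds ?_).2 (hPh z hz)
  filter_upwards [isOpen_ball.mem_nhds hz] with w hw
  have a1 : u w - P w ≤ 0 := h1 w (ball_subset_closedBall hw)
  have a2 : P w - u w ≤ 0 := h2 w (ball_subset_closedBall hw)
  linarith

/-- **Reflection under a pointwise Neumann condition.** `u` is continuous on the closed disc
with the real centre `x₀`, even, harmonic in the open upper half of the disc, and satisfies the
Neumann condition at every point of the open diameter; then `u` is harmonic in the disc. -/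
theorem refl_harmonic {ρ x₀ : ℝ} (hρ : 0 < ρ) {u : ℂ → ℝ}
    (hc : ContinuousOn u (closedBall (x₀ : ℂ) ρ))
    (hh : ∀ z ∈ ball (x₀ : ℂ) ρ, 0 < z.im → HarmonicAt u z)
    (he : ∀ z ∈ closedBall (x₀ : ℂ) ρ, u (conj z) = u z)
    (hN : ∀ x : ℝ, |x - x₀| < ρ → Neu u x) : HarmonicOnNhd u (ball (x₀ : ℂ) ρ) := by
  have hmem : ∀ z : ℂ, z ∈ closedBall (0 : ℂ) ρ → z + x₀ ∈ closedBall (x₀ : ℂ) ρ := fun z hz => by
    rw [mem_closedBall_zero_iff] at hz
    rw [mem_closedBall, dist_eq_norm]; simpa using hz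
  have hmem' : ∀ z : ℂ, z ∈ ball (0 : ℂ) ρ → z + x₀ ∈ ball (x₀ : ℂ) ρ := fun z hz => by
    rw [mem_ball_zero_iff] at hz
    rw [mem_ball, dist_eq_norm]; simpa using hz
  have han : ∀ z a : ℂ, AnalyticAt ℂ (fun w : ℂ => w + a) z := fun z a =>
    analyticAt_id.add analyticAt_const
  have key := refl_zero hρ (u := fun z => u (z + x₀)) (hc.comp (by fun_prop) hmem) ?_ ?_ ?_
  · intro z hz
    have h1 : z - x₀ ∈ ball (0 : ℂ) ρ := by
      rw [mem_ball, dist_eq_norm] at hz
      rw [mem_ball_zero_iff]; exact hz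
    have h2 := harmonicAt_comp (g := fun w : ℂ => w + (-(x₀ : ℂ))) (w := z)
      (v := fun z => u (z + x₀)) (by simpa [sub_eq_add_neg] using key _ h1) (han z _)
    refine (harmonicAt_congr_nhds (Eventually.of_forall fun w => ?_)).1 h2
    simp
  · rintro z ⟨h1, h2⟩
    exact harmonicAt_comp (g := fun w : ℂ => w + (x₀ : ℂ)) (v := u)
      (hh (z + x₀) (hmem' z h1) (by simpa using h2)) (han z _)
  · intro z hz
    have := he (z + x₀) (hmem z hz)
    simpa using this
  · intro x hx
    have := hN (x + x₀) (by simpa using hx)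
    unfold Neu at this ⊢
    refine this.congr fun r => ?_
    push_cast
    congr 2
    ring_nf

end Vale.Agent.P167.BVP
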