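import Vale.Agent.P167.BVP.Pot

/-!
# P167, block BVP: reflection under an averaged Neumann condition
-/

open Set Metric Filter Topology InnerProductSpace Complex MeasureTheory
open scoped ComplexConjugate ContDiff Convolution

namespace Vale.Agent.P167.BVP

open P198W

theorem cont_param {Y : Type*} [TopologicalSpace Y] [T2Space Y] [MeasurableSpace Y]
    [OpensMeasurableSpace Y] {μ : Measure Y} [IsFiniteMeasureOnCompacts μ]
    {S : Set ℂ} {V : Set Y} (hV : IsOpen V) {f : Y → ℝ}
    (hf : Continuous f) (hfc : HasCompactSupport f) (hfV : tsupport f ⊆ V) {k : ℂ → Y → ℝ}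
    (hk : ContinuousOn (Function.uncurry k) (S ×ˢ V)) :
    ContinuousOn (fun z => ∫ w, f w * k z w ∂μ) S := by
  have hc1 : ContinuousOn (Function.uncurry fun z w => f w * k z w) (S ×ˢ univ) := by
    intro p hp
    by_cases hw : p.2 ∈ tsupport f
    · have h1 : ContinuousWithinAt (Function.uncurry k) (S ×ˢ univ) p := by
        refine (hk p ⟨hp.1, hfV hw⟩).mono_of_mem_nhdsWithin ?_
        have h2 : {y : ℂ × Y | y.2 ∈ V} ∈ 𝓝 p :=
          (continuous_snd.tendsto p).eventually (hV.mem_nhds (hfV hw))
        filter_upwards [mem_nhdsWithin_of_mem_nhds h2, self_mem_nhdsWithin] with y hy1 hy2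
        exact ⟨hy2.1, hy1⟩
      have h2 : ContinuousAt (fun p : ℂ × Y => f p.2) p := by fun_prop
      exact h2.continuousWithinAt.mul h1
    · refine ((continuousAt_const (y := (0 : ℝ))).congr ?_).continuousWithinAt
      have h3 : ∀ᶠ y in 𝓝 p, y.2 ∉ tsupport f :=
        (continuous_snd.tendsto p).eventually ((isClosed_tsupport f).isOpen_compl.mem_nhds hw)
      filter_upwards [h3] with y hy
      simp [Function.uncurry, image_eq_zero_of_notMem_tsupport hy]
  refine continuousOn_integral_of_compact_support (k := tsupport f) hfc hc1 ?_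
  intro z w _ hw
  rw [image_eq_zero_of_notMem_tsupport hw, zero_mul]

/-- The averaged Neumann condition on the real interval with centre `x₀` and radius `ρ`. -/
def NeuAv (u : ℂ → ℝ) (x₀ ρ : ℝ) : Prop :=
  ∀ θ : ℝ → ℝ, ContDiff ℝ ∞ θ → HasCompactSupport θ → tsupport θ ⊆ Ioo (x₀ - ρ) (x₀ + ρ) →
    Tendsto (fun r : ℝ => (∫ t : ℝ, θ t * (u (t + r * I) - u t)) / r) (𝓝[>] 0) (𝓝 0)

theorem harm_uniform_limit {c : ℂ} {R : ℝ} {u : ℂ → ℝ}
    (h : ∀ ε > 0, ∃ F : ℂ → ℝ, HarmonicOnNhd F (ball c R) ∧ ∀ z ∈ ball c R, |F z - u z| ≤ ε) :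
    HarmonicOnNhd u (ball c R) := by
  have h1 : ∀ n : ℕ, ∃ F : ℂ → ℝ, HarmonicOnNhd F (ball c R) ∧
      ∀ z ∈ ball c R, |F z - u z| ≤ 1 / ((n : ℝ) + 1) := fun n => h _ (by positivity)
  choose F hF hFu using h1
  refine harmonicOnNhd_of_tendstoUniformlyOn hF ?_
  rw [Metric.tendstoUniformlyOn_iff]
  intro ε hε
  have hlim := tendsto_one_div_add_atTop_nhds_zero_nat (𝕜 := ℝ)
  filter_upwards [hlim.eventually (gt_mem_nhds hε)] with n hn z hz
  rw [dist_comm, Real.dist_eq]
  exact (hFu n z hz).trans_lt hn

/-- **Reflection under an averaged Neumann condition.** -/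
theorem refl_harmonic_av {ρ x₀ : ℝ} {u : ℂ → ℝ}
    (hc : ContinuousOn u (closedBall (x₀ : ℂ) ρ))
    (hh : ∀ z ∈ ball (x₀ : ℂ) ρ, 0 < z.im → HarmonicAt u z)
    (he : ∀ z ∈ closedBall (x₀ : ℂ) ρ, u (conj z) = u z)
    (hN : NeuAv u x₀ ρ) : HarmonicOnNhd u (ball (x₀ : ℂ) ρ) := by
  -- reduction to smaller balls
  suffices H : ∀ ρ' : ℝ, 0 < ρ' → ρ' < ρ → HarmonicOnNhd u (ball (x₀ : ℂ) ρ') by
    intro z hz
    rw [mem_ball] at hz
    have h0 : 0 ≤ dist z (x₀ : ℂ) := dist_nonneg
    exact H ((dist z (x₀ : ℂ) + ρ) / 2) (by linarith) (by linarith) z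
      (by rw [mem_ball]; linarith)
  intro ρ' hρ' hlt
  refine harm_uniform_limit fun ε hε => ?_
  -- uniform continuity
  have huc : UniformContinuousOn u (closedBall (x₀ : ℂ) ρ) :=
    (isCompact_closedBall (x₀ : ℂ) ρ).uniformContinuousOn_of_continuous hc
  rw [Metric.uniformContinuousOn_iff] at huc
  obtain ⟨δ₀, hδ₀, hδ⟩ := huc ε hε
  set δ : ℝ := min δ₀ ((ρ - ρ') / 2) with hδdef
  have hδpos : 0 < δ := lt_min hδ₀ (by linarith)
  have hδ1 : δ ≤ δ₀ := min_le_left _ _
  have hδ2 : δ ≤ (ρ - ρ') / 2 := min_le_right _ _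
  let b : ContDiffBump (0 : ℝ) := ⟨δ / 2, δ, by positivity, by linarith⟩
  set η : ℝ → ℝ := b.normed volume with hη
  have hηs : ContDiff ℝ ∞ η := b.contDiff_normed
  have hηc : HasCompactSupport η := b.hasCompactSupport_normed
  have hηt : tsupport η = closedBall 0 δ := b.tsupport_normed_eq
  have hηt' : ∀ t ∈ tsupport η, |t| ≤ δ := by
    intro t ht
    rw [hηt, mem_closedBall_zero_iff] at ht
    exact ht
  have hηn : ∀ t, 0 ≤ η t := fun t => b.nonneg_normed t
  have hηi : ∫ t, η t = 1 := b.integral_normed
  have hηint : Integrable η := hηs.continuous.integrable_of_hasCompactSupport hηc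
  set V : Set ℝ := Ioo (-(ρ - ρ')) (ρ - ρ') with hV
  have hVo : IsOpen V := isOpen_Ioo
  have hηV : tsupport η ⊆ V := by
    intro t ht
    have := hηt' t ht
    rw [abs_le] at this
    constructor <;> linarith
  set k : ℂ → ℝ → ℝ := fun z t => u (z - t) with hk
  have hshift : ∀ z ∈ closedBall (x₀ : ℂ) ρ', ∀ t ∈ V, z - t ∈ ball (x₀ : ℂ) ρ := by
    intro z hz t ht
    rw [mem_closedBall, dist_eq_norm] at hz
    rw [mem_ball, dist_eq_norm]
    have h1 : ‖(t : ℂ)‖ < ρ - ρ' := by
      rw [norm_real, Real.norm_eq_abs, abs_lt]; exact ht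
    calc ‖z - t - x₀‖ = ‖(z - x₀) - t‖ := by ring_nf
      _ ≤ ‖z - x₀‖ + ‖(t : ℂ)‖ := norm_sub_le _ _
      _ < ρ := by linarith
  have hkc : ContinuousOn (Function.uncurry k) (closedBall (x₀ : ℂ) ρ' ×ˢ V) := by
    have h1 : ContinuousOn (fun p : ℂ × ℝ => p.1 - (p.2 : ℂ)) (closedBall (x₀ : ℂ) ρ' ×ˢ V) := by
      fun_prop
    exact hc.comp h1 fun p hp => ball_subset_closedBall (hshift p.1 hp.1 p.2 hp.2)
  set F : ℂ → ℝ := fun z => ∫ t, η t * k z t with hF
  refine ⟨F, ?_, ?_⟩
  · refine refl_harmonic hρ' (cont_param hVo hηs.continuous hηc hηV hkc) ?_ ?_ ?_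
    · -- harmonic above
      set U : Set ℂ := ball (x₀ : ℂ) ρ' ∩ {z | 0 < z.im} with hU
      have hUo : IsOpen U := isOpen_ball.inter (isOpen_lt continuous_const Complex.continuous_im)
      intro z hz hzi
      refine harm_param hUo hVo hηs.continuous hηc hηV (hkc.mono
        (prod_mono (inter_subset_left.trans ball_subset_closedBall) subset_rfl)) ?_ z ⟨hz, hzi⟩
      rintro t ht y ⟨hy1, hy2⟩
      have h1 : HarmonicAt u (y - t) := hh _ (hshift y (ball_subset_closedBall hy1) t ht) (by
        have : 0 < y.im := hy2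
        simpa using this)
      exact harmonicAt_comp (g := fun y : ℂ => y - t) h1 (analyticAt_id.sub analyticAt_const)
    · intro z hz
      simp only [hF]
      refine integral_congr_ae (Eventually.of_forall fun t => ?_)
      by_cases ht : t ∈ tsupport η
      · have h1 := he (z - t) (ball_subset_closedBall (hshift z hz t (hηV ht)))
        rw [map_sub, conj_ofReal] at h1
        simp only [hk, h1]
      · simp only [image_eq_zero_of_notMem_tsupport ht, zero_mul]
    · intro x hx
      unfold Neu
      -- the test function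
      set θ : ℝ → ℝ := fun s => η (x - s) with hθ
      have hθs : ContDiff ℝ ∞ θ := hηs.comp (contDiff_const.sub contDiff_id)
      have hθc : HasCompactSupport θ := hηc.comp_homeomorph (Homeomorph.subLeft x)
      have hθt : tsupport θ ⊆ Ioo (x₀ - ρ) (x₀ + ρ) := by
        have h1 : tsupport θ ⊆ closedBall x δ := by
          refine closure_minimal ?_ isClosed_closedBall
          intro s hs
          have h2 : x - s ∈ tsupport η := subset_tsupport _ hs
          have h3 := hηt' _ h2
          rw [mem_closedBall, Real.dist_eq, abs_sub_comm]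
          exact h3
        intro s hs
        have h2 := h1 hs
        rw [mem_closedBall, Real.dist_eq, abs_le] at h2
        rw [abs_lt] at hx
        constructor <;> linarith
      have h1 := hN θ hθs hθc hθt
      refine h1.congr' ?_
      have hlt' : ∀ᶠ r : ℝ in 𝓝[>] 0, (x : ℂ) + r * I ∈ closedBall (x₀ : ℂ) ρ' := by
        have h2 : Tendsto (fun r : ℝ => (x : ℂ) + r * I) (𝓝[>] 0) (𝓝 (x : ℂ)) := by
          have : Continuous fun r : ℝ => (x : ℂ) + r * I := by fun_prop
          have h3 := this.tendsto 0
          simp only [ofReal_zero, zero_mul, add_zero] at h3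
          exact h3.mono_left nhdsWithin_le_nhds
        have h4 : (x : ℂ) ∈ ball (x₀ : ℂ) ρ' := by
          rw [mem_ball, dist_eq_norm, ← ofReal_sub, norm_real]; exact hx
        exact h2.eventually (mem_of_superset (isOpen_ball.mem_nhds h4) ball_subset_closedBall)
      filter_upwards [hlt'] with r hr
      congr 1
      have hx' : (x : ℂ) ∈ closedBall (x₀ : ℂ) ρ' := by
        rw [mem_closedBall, dist_eq_norm, ← ofReal_sub, norm_real]; exact hx.le
      have hint : ∀ z ∈ closedBall (x₀ : ℂ) ρ', Integrable fun t => η t * k z t := by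
        intro z hz
        refine Continuous.integrable_of_hasCompactSupport ?_ hηc.mul_right
        refine cont_ext hVo (isClosed_tsupport η) hηV ?_ ?_
        · exact hηs.continuous.continuousOn.mul
            (hkc.comp (f := fun t => (z, t)) (by fun_prop) fun t ht => ⟨hz, ht⟩)
        · intro t ht
          rw [image_eq_zero_of_notMem_tsupport ht, zero_mul]
      simp only [hF]
      rw [← integral_sub (hint _ hr) (hint _ hx')]
      rw [← integral_sub_left_eq_self (fun t => θ t * (u (t + r * I) - u t)) volume x]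
      refine integral_congr_ae (Eventually.of_forall fun t => ?_)
      simp only [hθ, hk, sub_sub_cancel, ofReal_sub]
      rw [mul_sub]
      have e : (x : ℂ) - t + r * I = x + r * I - t := by ring
      rw [e]
  · -- closeness
    intro z hz
    have hz' := ball_subset_closedBall hz
    have hint : Integrable fun t => η t * k z t := by
      refine Continuous.integrable_of_hasCompactSupport ?_ hηc.mul_right
      refine cont_ext hVo (isClosed_tsupport η) hηV ?_ ?_
      · exact hηs.continuous.continuousOn.mul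
          (hkc.comp (f := fun t => (z, t)) (by fun_prop) fun t ht => ⟨hz', ht⟩)
      · intro t ht
        rw [image_eq_zero_of_notMem_tsupport ht, zero_mul]
    have e1 : F z - u z = ∫ t, η t * (k z t - u z) := by
      have : (fun t => η t * (k z t - u z)) = fun t => η t * k z t - η t * u z := by
        funext t; ring
      rw [this, integral_sub hint (hηint.mul_const _), integral_mul_const, hηi, one_mul]
    rw [e1, ← Real.norm_eq_abs]
    refine (norm_integral_le_integral_norm _).trans ?_
    have e2 : ε = ∫ t, η t * ε := by rw [integral_mul_const, hηi, one_mul]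
    rw [e2]
    refine integral_mono_of_nonneg (Eventually.of_forall fun t => norm_nonneg _)
      (hηint.mul_const _) (Eventually.of_forall fun t => ?_)
    simp only [norm_mul, Real.norm_eq_abs, abs_of_nonneg (hηn t)]
    by_cases ht : t ∈ tsupport η
    · refine mul_le_mul_of_nonneg_left ?_ (hηn t)
      have h1 : z ∈ closedBall (x₀ : ℂ) ρ := closedBall_subset_closedBall hlt.le hz'
      have h2 := ball_subset_closedBall (hshift z hz' t (hηV ht))
      by_cases h0 : |t| < δ₀
      · have h3 := hδ (z - t) h2 z h1 (by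
          rw [dist_eq_norm]
          have : z - t - z = -(t : ℂ) := by ring
          rw [this, norm_neg, norm_real]; exact h0)
        rw [Real.dist_eq] at h3
        exact h3.le
      · -- only the end points: here `η t = 0`; use continuity instead
        have h5 : |t| = δ := le_antisymm (hηt' t ht) (hδ1.trans (not_lt.1 h0))
        have h6 : z ∈ closedBall (x₀ : ℂ) ρ := h1
        -- scale down
        have h7 : Tendsto (fun s : ℝ => |u (z - (s * t : ℝ)) - u z|) (𝓝[<] 1)
            (𝓝 |u (z - t) - u z|) := by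
          have h8 : ContinuousAt u (z - t) :=
            hc.continuousAt (mem_of_superset (isOpen_ball.mem_nhds (hshift z hz' t (hηV ht)))
              ball_subset_closedBall)
          have h9 : Tendsto (fun s : ℝ => z - ((s * t : ℝ) : ℂ)) (𝓝[<] 1) (𝓝 (z - t)) := by
            have : Continuous fun s : ℝ => z - ((s * t : ℝ) : ℂ) := by fun_prop
            have h10 := this.tendsto 1
            simp only [one_mul] at h10
            exact h10.mono_left nhdsWithin_le_nhds
          exact ((h8.tendsto.comp h9).sub_const _).abs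
        refine le_of_tendsto h7 ?_
        have h11 : ∀ᶠ s : ℝ in 𝓝[<] 1, 0 < s := nhdsWithin_le_nhds (lt_mem_nhds one_pos)
        filter_upwards [self_mem_nhdsWithin, h11] with s hs hs0
        have hs1 : s < 1 := hs
        have h12 : |s * t| < δ := by
          rw [abs_mul, abs_of_pos hs0, h5]
          nlinarith
        have h13 : s * t ∈ V := by
          rw [abs_lt] at h12
          constructor <;> linarith
        have h14 := hδ (z - (s * t : ℝ)) (ball_subset_closedBall (hshift z hz' _ h13)) z h1 (by
          rw [dist_eq_norm]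
          have : z - ((s * t : ℝ) : ℂ) - z = -((s * t : ℝ) : ℂ) := by ring
          rw [this, norm_neg, norm_real, Real.norm_eq_abs]; exact h12.trans_le hδ1)
        rw [Real.dist_eq] at h14
        exact h14.le
    · rw [image_eq_zero_of_notMem_tsupport ht]; simp

end Vale.Agent.P167.BVP
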